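import Mathlib
import Vale.Agent.P078.Defs

/-! Interface for the analytic core of P078 without a trace: a faithful state which centralises a
maximal abelian subalgebra. -/

noncomputable section

open scoped ComplexOrder

namespace Vale.Agent.P078.T3

universe u v

/-- A C*-probability space with 2-norm complete balls and a maximal abelian subalgebra contained
in the centraliser of the state, presented as the image of the real continuous functions on a
compact space. -/
structure SMasa (M : Type u) [CStarAlgebra M] [PartialOrder M] [StarOrderedRing M]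
    (Ω : Type v) [TopologicalSpace Ω] [CompactSpace Ω] [T2Space Ω] where
  /-- the (real part of the) state -/
  tr : M →ₗ[ℝ] ℝ
  /-- the embedding of the self-adjoint part of the subalgebra -/
  emb : C(Ω, ℝ) →ₐ[ℝ] M
  central : ∀ f x, tr (emb f * x) = tr (x * emb f)
  tr_star : ∀ x, tr (star x) = tr x
  tr_one : tr 1 = 1
  tr_star_mul_self : ∀ x, 0 ≤ tr (star x * x)
  tr_faithful : ∀ x, tr (star x * x) = 0 → x = 0
  /-- small positive contractions stay small after conjugation by a fixed element -/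
  small : ∀ (z : M) (ε : ℝ), 0 < ε → ∃ d : ℝ, 0 < d ∧
    ∀ y : M, 0 ≤ y → y ≤ 1 → tr y ≤ d → tr (star z * y * z) ≤ ε
  complete : ∀ (u : ℕ → M) (C : ℝ), (∀ n, ‖u n‖ ≤ C) →
    (∀ ε > 0, ∃ N, ∀ m ≥ N, ∀ n ≥ N, tr (star (u m - u n) * (u m - u n)) ≤ ε) →
    ∃ x, ‖x‖ ≤ C ∧
      Filter.Tendsto (fun n => tr (star (u n - x) * (u n - x))) Filter.atTop (nhds 0)
  emb_selfAdjoint : ∀ f, IsSelfAdjoint (emb f)
  emb_norm : ∀ f, ‖emb f‖ = ‖f‖
  maximal : ∀ x, IsSelfAdjoint x → (∀ f, Commute x (emb f)) → ∃ f, emb f = x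

variable {M : Type u} [CStarAlgebra M] [PartialOrder M] [StarOrderedRing M]
  {Ω : Type v} [TopologicalSpace Ω] [CompactSpace Ω] [T2Space Ω]

/-- the state on the subalgebra -/
def SMasa.tau (T : SMasa M Ω) : C(Ω, ℝ) →ₗ[ℝ] ℝ := T.tr.comp T.emb.toLinearMap

lemma SMasa.tau_apply (T : SMasa M Ω) (f : C(Ω, ℝ)) : T.tau f = T.tr (T.emb f) := rfl

/-- `x` has an `(ε, r)` paving up to a projection of arbitrarily small co-mass. -/
def SMasa.Pavable (T : SMasa M Ω) (x : M) (ε : ℝ) (r : ℕ) : Prop :=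
  ∀ δ : ℝ, 0 < δ → ∃ p : Fin r → C(Ω, ℝ), IsPartition p ∧ ∃ a : C(Ω, ℝ), ‖a‖ ≤ ‖x‖ ∧
    ∃ q : M, IsStarProjection q ∧ T.tr (1 - q) ≤ δ ∧
      ‖q * ((∑ i, T.emb (p i) * x * T.emb (p i)) - T.emb a) * q‖ ≤ ε * ‖x‖

end Vale.Agent.P078.T3
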