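import Mathlib
import Vale.Agent.P078.Type3.Defs

/-! The trace and the 2-norm. -/

noncomputable section

open scoped ComplexOrder
open Filter Topology

set_option linter.unusedSectionVars false

namespace Vale.Agent.P078.T3

universe u v

variable {M : Type u} [CStarAlgebra M] [PartialOrder M] [StarOrderedRing M]
  {Ω : Type v} [TopologicalSpace Ω] [CompactSpace Ω] [T2Space Ω] (T : SMasa M Ω)

namespace SMasa

/-- real inner product of the trace -/
def ip (x y : M) : ℝ := T.tr (star x * y)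

/-- the 2-norm -/
def n2 (x : M) : ℝ := Real.sqrt (T.ip x x)

lemma tr_mono {x y : M} (h : x ≤ y) : T.tr x ≤ T.tr y := by
  have h0 : 0 ≤ y - x := sub_nonneg.2 h
  have hs : IsSelfAdjoint (CFC.sqrt (y - x)) := IsSelfAdjoint.of_nonneg (CFC.sqrt_nonneg _)
  have := T.tr_star_mul_self (CFC.sqrt (y - x))
  rw [hs.star_eq, CFC.sqrt_mul_sqrt_self _ h0, map_sub] at this
  linarith

lemma tr_nonneg {x : M} (h : 0 ≤ x) : 0 ≤ T.tr x := by simpa using T.tr_mono h

lemma eq_zero_of_tr_eq_zero {x : M} (h : 0 ≤ x) (h' : T.tr x = 0) : x = 0 := by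
  have hs : IsSelfAdjoint (CFC.sqrt x) := IsSelfAdjoint.of_nonneg (CFC.sqrt_nonneg _)
  have e := CFC.sqrt_mul_sqrt_self x h
  have : CFC.sqrt x = 0 := T.tr_faithful _ (by rwa [hs.star_eq, e])
  rw [← e, this, zero_mul]

lemma ip_self_nonneg (x : M) : 0 ≤ T.ip x x := T.tr_star_mul_self x

lemma ip_comm (x y : M) : T.ip x y = T.ip y x := by
  unfold ip
  rw [← T.tr_star (star x * y), star_mul, star_star]

lemma ip_add_right (x y z : M) : T.ip x (y + z) = T.ip x y + T.ip x z := by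
  simp [ip, mul_add]

lemma ip_sub_right (x y z : M) : T.ip x (y - z) = T.ip x y - T.ip x z := by
  simp [ip, mul_sub]

lemma ip_smul_right (c : ℝ) (x y : M) : T.ip x (c • y) = c * T.ip x y := by
  simp [ip]

lemma ip_add_left (x y z : M) : T.ip (x + y) z = T.ip x z + T.ip y z := by
  rw [T.ip_comm, T.ip_add_right, T.ip_comm z, T.ip_comm z]

lemma ip_sub_left (x y z : M) : T.ip (x - y) z = T.ip x z - T.ip y z := by
  rw [T.ip_comm, T.ip_sub_right, T.ip_comm z, T.ip_comm z]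

lemma ip_smul_left (c : ℝ) (x y : M) : T.ip (c • x) y = c * T.ip x y := by
  rw [T.ip_comm, T.ip_smul_right, T.ip_comm]

lemma abs_ip_le (x y : M) : |T.ip x y| ≤ T.n2 x * T.n2 y := by
  have h : ∀ t : ℝ, 0 ≤ T.ip y y * (t * t) + (2 * T.ip x y) * t + T.ip x x := by
    intro t
    have := T.ip_self_nonneg (x + t • y)
    simp only [T.ip_add_left, T.ip_add_right, T.ip_smul_left, T.ip_smul_right,
      T.ip_comm y x] at this
    linarith
  have hd := discrim_le_zero h
  simp only [discrim] at hd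
  rw [n2, n2, ← Real.sqrt_mul (T.ip_self_nonneg x)]
  exact Real.abs_le_sqrt (by nlinarith)

lemma n2_nonneg (x : M) : 0 ≤ T.n2 x := Real.sqrt_nonneg _

lemma n2_sq (x : M) : T.n2 x ^ 2 = T.ip x x := Real.sq_sqrt (T.ip_self_nonneg x)

lemma n2_add (x y : M) : T.n2 (x + y) ≤ T.n2 x + T.n2 y := by
  have h := (le_abs_self _).trans (T.abs_ip_le x y)
  refine (pow_le_pow_iff_left₀ (T.n2_nonneg _) (add_nonneg (T.n2_nonneg x) (T.n2_nonneg y))
    two_ne_zero).1 ?_
  have hx := T.n2_sq x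
  have hy := T.n2_sq y
  rw [T.n2_sq, T.ip_add_left, T.ip_add_right, T.ip_add_right, T.ip_comm y x]
  nlinarith

lemma n2_smul (c : ℝ) (x : M) : T.n2 (c • x) = |c| * T.n2 x := by
  rw [n2, T.ip_smul_left, T.ip_smul_right, ← mul_assoc, Real.sqrt_mul (mul_self_nonneg c),
    Real.sqrt_mul_self_eq_abs, n2]

lemma n2_neg (x : M) : T.n2 (-x) = T.n2 x := by simp [n2, ip]

lemma n2_zero : T.n2 0 = 0 := by simp [n2, ip]

lemma n2_sub_comm (x y : M) : T.n2 (x - y) = T.n2 (y - x) := by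
  rw [← T.n2_neg, neg_sub]

lemma n2_triangle (x y z : M) : T.n2 (x - z) ≤ T.n2 (x - y) + T.n2 (y - z) := by
  simpa using T.n2_add (x - y) (y - z)

lemma eq_zero_of_n2 {x : M} (h : T.n2 x = 0) : x = 0 := by
  refine T.tr_faithful x ?_
  have := T.n2_sq x
  rw [h] at this
  simpa [ip] using this.symm

lemma n2_mul_left (a x : M) : T.n2 (a * x) ≤ ‖a‖ * T.n2 x := by
  have h1 : star a * a ≤ algebraMap ℝ M (‖a‖ ^ 2) := by
    have := (IsSelfAdjoint.star_mul_self a).le_algebraMap_norm_self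
    rwa [CStarRing.norm_star_mul_self, ← pow_two] at this
  have h2 := T.tr_mono (star_left_conjugate_le_conjugate h1 x)
  rw [← mul_assoc (star x) (star a) a] at h2
  have e : T.tr (star x * algebraMap ℝ M (‖a‖ ^ 2) * x) = ‖a‖ ^ 2 * T.ip x x := by
    simp [Algebra.algebraMap_eq_smul_one, ip]
  refine (pow_le_pow_iff_left₀ (T.n2_nonneg _) (mul_nonneg (norm_nonneg a) (T.n2_nonneg x))
    two_ne_zero).1 ?_
  rw [mul_pow, T.n2_sq, T.n2_sq]
  calc T.ip (a * x) (a * x) = T.tr (star x * star a * a * x) := by simp [ip, mul_assoc]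
    _ ≤ _ := h2
    _ = _ := e

lemma n2_mul_emb (f : C(Ω, ℝ)) (x : M) : T.n2 (x * T.emb f) ≤ T.n2 x * ‖f‖ := by
  set g : C(Ω, ℝ) := ⟨fun ω => Real.sqrt (‖f‖ ^ 2 - f ω * f ω), by fun_prop⟩ with hg
  have hsq : g * g = ‖f‖ ^ 2 • (1 : C(Ω, ℝ)) - f * f := by
    ext ω
    simp only [ContinuousMap.mul_apply, hg, ContinuousMap.coe_mk, ContinuousMap.sub_apply,
      ContinuousMap.smul_apply, ContinuousMap.one_apply, smul_eq_mul, mul_one]
    refine Real.mul_self_sqrt ?_
    have h := f.norm_coe_le_norm ω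
    rw [Real.norm_eq_abs, abs_le] at h
    nlinarith
  have hs : ∀ h : C(Ω, ℝ), T.tr (T.emb h * (star x * x) * T.emb h)
      = T.tr (T.emb (h * h) * (star x * x)) := fun h => by
    rw [← T.central h, ← mul_assoc, ← mul_assoc, ← map_mul, mul_assoc]
  have hpos : 0 ≤ T.tr (T.emb g * (star x * x) * T.emb g) :=
    T.tr_nonneg ((T.emb_selfAdjoint g).conjugate_nonneg (star_mul_self_nonneg x))
  rw [hs, hsq, map_sub, map_smul, map_one, sub_mul, smul_mul_assoc, one_mul, map_sub, map_smul,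
    smul_eq_mul, ← hs f] at hpos
  refine (pow_le_pow_iff_left₀ (T.n2_nonneg _) (mul_nonneg (T.n2_nonneg x) (norm_nonneg f))
    two_ne_zero).1 ?_
  rw [mul_pow, T.n2_sq, T.n2_sq]
  have e : T.ip (x * T.emb f) (x * T.emb f) = T.tr (T.emb f * (star x * x) * T.emb f) := by
    simp [ip, (T.emb_selfAdjoint f).star_eq, mul_assoc]
  have e2 : T.ip x x = T.tr (star x * x) := rfl
  rw [e, e2]
  linarith

/-- right multiplication is continuous on bounded sets -/
lemma n2_mul_right_small (z : M) (C : ℝ) {ε : ℝ} (hε : 0 < ε) :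
    ∃ d : ℝ, 0 < d ∧ ∀ x : M, ‖x‖ ≤ C → T.n2 x ≤ d → T.n2 (x * z) ≤ ε := by
  set c := max C 1 with hc
  have hc0 : 0 < c := lt_max_of_lt_right one_pos
  obtain ⟨d, hd, hsmall⟩ := T.small z ((ε / c) ^ 2) (by positivity)
  refine ⟨c * Real.sqrt d, by positivity, fun x hx hxd => ?_⟩
  set y := (c⁻¹ * c⁻¹) • (star x * x) with hy'
  have hy0 : 0 ≤ y := by
    rw [hy']; exact smul_nonneg (by positivity) (star_mul_self_nonneg x)
  have hy1 : y ≤ 1 := by
    rw [← CStarAlgebra.norm_le_one_iff_of_nonneg y hy0, hy', norm_smul,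
      CStarRing.norm_star_mul_self, Real.norm_eq_abs, abs_of_nonneg (by positivity)]
    have hxc : ‖x‖ ≤ c := hx.trans (le_max_left _ _)
    rw [show c⁻¹ * c⁻¹ * (‖x‖ * ‖x‖) = (‖x‖ / c) * (‖x‖ / c) by ring]
    have := (div_le_one hc0).2 hxc
    exact mul_le_one₀ this (by positivity) this
  have hy2 : T.tr y ≤ d := by
    rw [hy', map_smul, smul_eq_mul, show T.tr (star x * x) = T.n2 x ^ 2 from (T.n2_sq x).symm]
    have := pow_le_pow_left₀ (T.n2_nonneg x) hxd 2
    rw [mul_pow, Real.sq_sqrt hd.le] at this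
    calc c⁻¹ * c⁻¹ * T.n2 x ^ 2 ≤ c⁻¹ * c⁻¹ * (c ^ 2 * d) :=
          mul_le_mul_of_nonneg_left this (by positivity)
      _ = d := by field_simp
  have h := hsmall y hy0 hy1 hy2
  refine (pow_le_pow_iff_left₀ (T.n2_nonneg _) hε.le two_ne_zero).1 ?_
  rw [hy', mul_smul_comm, smul_mul_assoc, map_smul, smul_eq_mul,
    show star z * (star x * x) * z = star (x * z) * (x * z) by simp [mul_assoc],
    show T.tr (star (x * z) * (x * z)) = T.n2 (x * z) ^ 2 from (T.n2_sq _).symm, div_pow,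
    le_div_iff₀ (pow_pos hc0 2)] at h
  refine le_of_eq_of_le ?_ h
  field_simp

lemma n2_one : T.n2 1 = 1 := by simp [n2, ip, T.tr_one]

lemma n2_le_norm (x : M) : T.n2 x ≤ ‖x‖ := by
  simpa [T.n2_one] using T.n2_mul_left x 1

lemma abs_tr_le_n2 (x : M) : |T.tr x| ≤ T.n2 x := by
  simpa [ip, T.n2_one] using T.abs_ip_le 1 x

/-- convergence in 2-norm along a filter -/
def Tendsto2 {α : Type*} (l : Filter α) (u : α → M) (x : M) : Prop :=
  Tendsto (fun a => T.n2 (u a - x)) l (𝓝 0)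

variable {α : Type*} {l : Filter α} {u w : α → M} {x y : M}

lemma tendsto2_const : T.Tendsto2 l (fun _ => x) x := by
  simp [Tendsto2, T.n2_zero, tendsto_const_nhds]

lemma Tendsto2.add (hu : T.Tendsto2 l u x) (hw : T.Tendsto2 l w y) :
    T.Tendsto2 l (fun a => u a + w a) (x + y) := by
  refine squeeze_zero (fun a => T.n2_nonneg _) (fun a => ?_) (by simpa using Tendsto.add hu hw)
  rw [add_sub_add_comm]
  exact T.n2_add _ _

lemma Tendsto2.mul_emb (hu : T.Tendsto2 l u x) (f : C(Ω, ℝ)) :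
    T.Tendsto2 l (fun a => u a * T.emb f) (x * T.emb f) := by
  refine squeeze_zero (fun a => T.n2_nonneg _) (fun a => ?_)
    (by simpa using Tendsto.mul_const ‖f‖ hu)
  rw [← sub_mul]
  exact T.n2_mul_emb _ _

lemma Tendsto2.mul_const (hu : T.Tendsto2 l u x) (b : M) {C : ℝ} (hC : ∀ᶠ a in l, ‖u a‖ ≤ C) :
    T.Tendsto2 l (fun a => u a * b) (x * b) := by
  rw [Tendsto2, Metric.tendsto_nhds]
  intro ε hε
  obtain ⟨d, hd, hsm⟩ := T.n2_mul_right_small b (C + ‖x‖) (half_pos hε)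
  filter_upwards [hC, (show Tendsto (fun a => T.n2 (u a - x)) l (𝓝 0) from hu).eventually
    (gt_mem_nhds hd)] with a ha hda
  rw [Real.dist_eq, sub_zero, abs_of_nonneg (T.n2_nonneg _), ← sub_mul]
  have := hsm (u a - x) ((norm_sub_le _ _).trans (by linarith)) hda.le
  linarith

lemma Tendsto2.const_mul (hu : T.Tendsto2 l u x) (b : M) :
    T.Tendsto2 l (fun a => b * u a) (b * x) := by
  refine squeeze_zero (fun a => T.n2_nonneg _) (fun a => ?_)
    (by simpa using Tendsto.const_mul ‖b‖ hu)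
  rw [← mul_sub]
  exact T.n2_mul_left _ _

lemma Tendsto2.mul (hu : T.Tendsto2 l u x) (hw : T.Tendsto2 l w y) {C : ℝ}
    (hC : ∀ a, ‖u a‖ ≤ C) : T.Tendsto2 l (fun a => u a * w a) (x * y) := by
  have h1 := hu.mul_const T y (.of_forall hC)
  refine squeeze_zero (fun a => T.n2_nonneg _) (fun a => ?_)
    (by simpa using Tendsto.add (Tendsto.const_mul C hw) h1)
  have e : u a * w a - x * y = u a * (w a - y) + (u a * y - x * y) := by
    rw [mul_sub]; abel
  rw [e]
  exact (T.n2_add _ _).trans (add_le_add ((T.n2_mul_left _ _).trans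
    (mul_le_mul_of_nonneg_right (hC a) (T.n2_nonneg _))) le_rfl)

lemma Tendsto2.unique [l.NeBot] (hu : T.Tendsto2 l u x) (hu' : T.Tendsto2 l u y) : x = y := by
  have h : T.n2 (x - y) ≤ 0 := by
    refine ge_of_tendsto (by simpa using Tendsto.add hu hu') (.of_forall fun a => ?_)
    rw [T.n2_sub_comm (u a) x]
    exact T.n2_triangle _ _ _
  exact sub_eq_zero.1 (T.eq_zero_of_n2 (le_antisymm h (T.n2_nonneg _)))

lemma Tendsto2.tr_tendsto (hu : T.Tendsto2 l u x) :
    Tendsto (fun a => T.tr (u a)) l (𝓝 (T.tr x)) := by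
  rw [tendsto_iff_norm_sub_tendsto_zero]
  refine squeeze_zero (fun a => norm_nonneg _) (fun a => ?_) hu
  rw [Real.norm_eq_abs, ← map_sub]
  exact T.abs_tr_le_n2 _

lemma Tendsto2.congr' (hu : T.Tendsto2 l u x) (h : ∀ᶠ a in l, u a = w a) :
    T.Tendsto2 l w x :=
  Tendsto.congr' (h.mono fun a ha => by simp [ha]) hu

lemma Tendsto2.ip_tendsto (hu : T.Tendsto2 l u x) (b : M) :
    Tendsto (fun a => T.ip b (u a)) l (𝓝 (T.ip b x)) :=
  (hu.const_mul T (star b)).tr_tendsto T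

/-- bounded limits of self-adjoint elements are self-adjoint -/
lemma Tendsto2.isSelfAdjoint [l.NeBot] (hu : T.Tendsto2 l u x) {C : ℝ}
    (hC : ∀ᶠ a in l, ‖u a‖ ≤ C) (hs : ∀ᶠ a in l, IsSelfAdjoint (u a)) : IsSelfAdjoint x := by
  have key : ∀ b c : M, T.tr (b * x * c) = T.tr (b * star x * c) := by
    intro b c
    have h1 : Tendsto (fun a => T.tr (b * u a * c)) l (𝓝 (T.tr (b * x * c))) := by
      simpa [mul_assoc] using ((hu.mul_const T c hC).const_mul T b).tr_tendsto T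
    have h2 : Tendsto (fun a => T.tr (b * u a * c)) l (𝓝 (T.tr (b * star x * c))) := by
      have h3 := ((hu.mul_const T (star b) hC).const_mul T (star c)).tr_tendsto T
      have e : T.tr (b * star x * c) = T.tr (star c * (x * star b)) := by
        rw [← T.tr_star]; simp [mul_assoc]
      rw [e]
      refine h3.congr' (hs.mono fun a ha => ?_)
      rw [← T.tr_star]; simp [ha.star_eq, mul_assoc]
    exact tendsto_nhds_unique h1 h2
  show star x = x
  refine (sub_eq_zero.1 (T.tr_faithful (x - star x) ?_)).symm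
  have := key (star (x - star x)) 1
  rw [mul_sub, map_sub]
  simpa [sub_eq_zero] using this

/-- A bounded net which is Cauchy in 2-norm has a limit. -/
theorem exists_limit {β : Type*} [Preorder β] [IsDirected β (· ≤ ·)] [Nonempty β] (u : β → M)
    (C : ℝ) (hC : ∀ b, ‖u b‖ ≤ C)
    (hcau : ∀ ε > 0, ∃ b₀, ∀ b ≥ b₀, T.n2 (u b - u b₀) ≤ ε) :
    ∃ x, ‖x‖ ≤ C ∧ T.Tendsto2 atTop u x := by
  choose B hB using fun n : ℕ => hcau (1 / (n + 1)) (by positivity)
  have key : ∀ m n : ℕ, T.n2 (u (B m) - u (B n)) ≤ 1 / (m + 1) + 1 / (n + 1) := by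
    intro m n
    obtain ⟨c, hm, hn⟩ := exists_ge_ge (B m) (B n)
    refine (T.n2_triangle _ (u c) _).trans (add_le_add ?_ (hB n c hn))
    rw [T.n2_sub_comm]
    exact hB m c hm
  obtain ⟨x, hx, hlim⟩ := T.complete (fun n => u (B n)) C (fun n => hC _) (by
    intro ε hε
    obtain ⟨N, hN⟩ := exists_nat_one_div_lt (show 0 < Real.sqrt ε / 2 by positivity)
    refine ⟨N, fun m hm n hn => ?_⟩
    have h1 := key m n
    have h2 := Nat.one_div_le_one_div (α := ℝ) hm
    have h3 := Nat.one_div_le_one_div (α := ℝ) hn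
    have h4 : T.n2 (u (B m) - u (B n)) ≤ Real.sqrt ε := by linarith
    show T.ip _ _ ≤ ε
    rw [← T.n2_sq, ← Real.sq_sqrt hε.le]
    exact pow_le_pow_left₀ (T.n2_nonneg _) h4 2)
  refine ⟨x, hx, ?_⟩
  rw [Tendsto2, Metric.tendsto_nhds]
  intro ε hε
  have hl2 : Tendsto (fun n => T.n2 (u (B n) - x)) atTop (𝓝 0) := by
    have := (Real.continuous_sqrt.tendsto 0).comp hlim
    simpa [n2, ip, Function.comp_def] using this
  obtain ⟨N, hN⟩ := ((hl2.eventually (gt_mem_nhds (show 0 < ε / 2 by linarith))).and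
    (tendsto_one_div_add_atTop_nhds_zero_nat.eventually
      (gt_mem_nhds (show 0 < ε / 2 by linarith)))).exists
  filter_upwards [eventually_ge_atTop (B N)] with b hb
  rw [Real.dist_eq, sub_zero, abs_of_nonneg (T.n2_nonneg _)]
  exact lt_of_le_of_lt ((T.n2_triangle _ (u (B N)) _).trans
    (add_le_add (hB N b hb) le_rfl)) (by linarith [hN.1, hN.2])

end SMasa

end Vale.Agent.P078.T3
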