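import Mathlib
import Vale.Agent.P078.Masa
import Vale.Agent.P078.Type3.Trace

/-! The maximal abelian subalgebra, spectral projections and the conditional expectation. -/

noncomputable section

open scoped ComplexOrder
open Filter Topology

set_option linter.unusedSectionVars false

namespace Vale.Agent.P078.T3

universe u v

variable {M : Type u} [CStarAlgebra M] [PartialOrder M] [StarOrderedRing M]
  {Ω : Type v} [TopologicalSpace Ω] [CompactSpace Ω] [T2Space Ω] (T : SMasa M Ω)

namespace SMasa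

lemma star_emb (f : C(Ω, ℝ)) : star (T.emb f) = T.emb f := (T.emb_selfAdjoint f).star_eq

lemma emb_nonneg {f : C(Ω, ℝ)} (hf : 0 ≤ f) : 0 ≤ T.emb f := by
  rw [← csqrt_mul_self hf, map_mul]
  nth_rewrite 1 [← T.star_emb]
  exact star_mul_self_nonneg _

lemma emb_mono {f g : C(Ω, ℝ)} (h : f ≤ g) : T.emb f ≤ T.emb g := by
  have := T.emb_nonneg (sub_nonneg.2 h)
  rwa [map_sub, sub_nonneg] at this

lemma emb_inj {f g : C(Ω, ℝ)} (h : T.emb f = T.emb g) : f = g := by
  have : ‖f - g‖ = 0 := by rw [← T.emb_norm, map_sub, h, sub_self, norm_zero]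
  exact sub_eq_zero.1 (norm_eq_zero.1 this)

lemma emb_comm (f g : C(Ω, ℝ)) : Commute (T.emb f) (T.emb g) := by
  rw [Commute, SemiconjBy, ← map_mul, ← map_mul, mul_comm]

lemma tau_one : T.tau 1 = 1 := by simp [tau_apply, T.tr_one]

lemma tau_mono {f g : C(Ω, ℝ)} (h : f ≤ g) : T.tau f ≤ T.tau g := T.tr_mono (T.emb_mono h)

lemma tau_nonneg {f : C(Ω, ℝ)} (h : 0 ≤ f) : 0 ≤ T.tau f := T.tr_nonneg (T.emb_nonneg h)

lemma n2_emb_sq (f : C(Ω, ℝ)) : T.n2 (T.emb f) ^ 2 = T.tau (f * f) := by
  rw [T.n2_sq, ip, T.star_emb, ← map_mul, tau_apply]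

lemma mem_range_of_tendsto {α : Type*} {l : Filter α} [l.NeBot] {u : α → C(Ω, ℝ)} {x : M}
    (h : T.Tendsto2 l (fun a => T.emb (u a)) x) {C : ℝ} (hC : ∀ᶠ a in l, ‖u a‖ ≤ C) :
    ∃ f, T.emb f = x := by
  refine T.maximal x (h.isSelfAdjoint T (C := C) (hC.mono fun a ha => by rwa [T.emb_norm])
    (.of_forall fun a => T.emb_selfAdjoint _)) fun f => ?_
  have h1 := h.mul_emb T f
  have h2 := h.const_mul T (T.emb f)
  simp only [(T.emb_comm _ f).eq] at h1
  exact h1.unique T h2

open TMasa (hull)

lemma isClopen_hull (T : SMasa M Ω) (g : C(Ω, ℝ)) : IsClopen (hull g) := by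
  let u : ℕ → C(Ω, ℝ) := fun n => ⟨fun ω => min 1 ((n : ℝ) * max (g ω) 0), by fun_prop⟩
  have hu0 : ∀ n ω, 0 ≤ u n ω := fun n ω => le_min zero_le_one (by positivity)
  have hu1 : ∀ n ω, u n ω ≤ 1 := fun n ω => min_le_left _ _
  have humono : ∀ n m, n ≤ m → u n ≤ u m := fun n m h ω =>
    min_le_min le_rfl (mul_le_mul_of_nonneg_right (Nat.cast_le.2 h) (le_max_right _ _))
  have hle : ∀ n, u n ≤ 1 := fun n ω => hu1 n ω
  have hbdd : BddAbove (Set.range fun n => T.tau (u n)) :=
    ⟨1, by rintro _ ⟨n, rfl⟩; simpa [T.tau_one] using T.tau_mono (hle n)⟩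
  obtain ⟨x, -, hx⟩ := T.exists_limit (fun n => T.emb (u n)) 1 (fun n => by
      rw [T.emb_norm, ContinuousMap.norm_le _ zero_le_one]
      intro ω
      rw [Real.norm_eq_abs, abs_of_nonneg (hu0 n ω)]
      exact hu1 n ω) (by
    intro ε hε
    obtain ⟨N, hN⟩ := exists_lt_of_lt_ciSup
      (show (⨆ n, T.tau (u n)) - ε ^ 2 < ⨆ n, T.tau (u n) by
        have : 0 < ε ^ 2 := pow_pos hε 2
        linarith)
    refine ⟨N, fun m hm => ?_⟩
    refine (pow_le_pow_iff_left₀ (T.n2_nonneg _) hε.le two_ne_zero).1 ?_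
    rw [← map_sub, T.n2_emb_sq]
    have h1 : (u m - u N) * (u m - u N) ≤ u m - u N := by
      intro ω
      have h0 : u N ω ≤ u m ω := humono N m hm ω
      show (u m ω - u N ω) * (u m ω - u N ω) ≤ u m ω - u N ω
      nlinarith [hu0 N ω, hu1 m ω]
    have h2 := T.tau_mono h1
    have h3 := le_ciSup hbdd m
    rw [map_sub] at h2
    linarith)
  obtain ⟨c, rfl⟩ := T.mem_range_of_tendsto hx (C := 1) (.of_forall fun n => by
    refine (ContinuousMap.norm_le _ zero_le_one).2 fun ω => ?_
    rw [Real.norm_eq_abs, abs_of_nonneg (hu0 n ω)]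
    exact hu1 n ω)
  have key : ∀ h : C(Ω, ℝ), ∀ d : C(Ω, ℝ),
      Tendsto (fun n => ‖u n * h - d‖) atTop (𝓝 0) → c * h = d := by
    intro h d hd
    apply T.emb_inj
    have h1 := hx.mul_emb T h
    simp only [← map_mul] at h1
    refine h1.unique T (squeeze_zero (fun n => T.n2_nonneg _) (fun n => ?_) hd)
    rw [← map_sub, ← T.emb_norm]
    exact T.n2_le_norm _
  have hpos : ∀ ω ∈ {ω | 0 < g ω}, c ω = 1 := by
    intro ω hω
    let gp : C(Ω, ℝ) := ⟨fun ω => max (g ω) 0, by fun_prop⟩
    have e := key gp gp (squeeze_zero' (.of_forall fun n => norm_nonneg _)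
      ((eventually_ge_atTop 1).mono fun n hn => by
        refine (ContinuousMap.norm_le _ (show (0 : ℝ) ≤ 1 / n by positivity)).2 fun y => ?_
        have hn' : (0 : ℝ) < n := by exact_mod_cast hn
        simp only [u, gp, ContinuousMap.sub_apply, ContinuousMap.mul_apply, ContinuousMap.coe_mk,
          Real.norm_eq_abs]
        have hm0 : 0 ≤ max (g y) 0 := le_max_right _ _
        rcases le_total (1 : ℝ) (n * max (g y) 0) with h | h
        · rw [min_eq_left h, one_mul, sub_self, abs_zero]; positivity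
        · rw [min_eq_right h]
          have h5 : max (g y) 0 ≤ 1 / n := by rw [le_div_iff₀ hn']; linarith
          have h7 : (n : ℝ) * max (g y) 0 * max (g y) 0 ≤ max (g y) 0 := mul_le_of_le_one_left hm0 h
          have h8 : 0 ≤ (n : ℝ) * max (g y) 0 * max (g y) 0 := by positivity
          rw [abs_le]
          constructor <;> linarith)
      (tendsto_one_div_atTop_nhds_zero_nat))
    have e1 := DFunLike.congr_fun e ω
    have hg : max (g ω) 0 = g ω := max_eq_left (le_of_lt hω)
    simp only [ContinuousMap.mul_apply, gp, ContinuousMap.coe_mk, hg] at e1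
    exact mul_right_cancel₀ (ne_of_gt hω) (by rw [e1, one_mul])
  have hone : ∀ ω ∈ hull g, c ω = 1 :=
    fun ω hω => closure_minimal hpos (isClosed_eq c.continuous continuous_const) hω
  have hzero : ∀ ω, ω ∉ hull g → c ω = 0 := by
    intro ω hω
    obtain ⟨f, hf0, hf1, -⟩ := exists_continuous_zero_one_of_isClosed isClosed_closure
      (isClosed_singleton (x := ω)) (Set.disjoint_singleton_right.2 hω)
    have e := key f 0 (by
      refine tendsto_const_nhds.congr' (.of_forall fun n => ?_)
      have : u n * f = 0 := by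
        ext y
        rcases le_or_gt (g y) 0 with hy | hy
        · simp [u, max_eq_right hy]
        · simp [show f y = 0 from hf0 (subset_closure hy)]
      simp [this])
    have e1 := DFunLike.congr_fun e ω
    simpa [show f ω = 1 from hf1 rfl] using e1
  refine ⟨isClosed_closure, ?_⟩
  have : hull g = c ⁻¹' Set.Ioi (1 / 2) := by
    ext ω
    by_cases h : ω ∈ hull g
    · simp [h, hone ω h]; norm_num
    · simp [h, hzero ω h]
  show IsOpen (hull g)
  rw [this]
  exact isOpen_Ioi.preimage c.continuous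

/-- the support projection of the positive part of `g` -/
def pos (g : C(Ω, ℝ)) : C(Ω, ℝ) :=
  ⟨Set.indicator (hull g) 1, continuous_const.indicator (fun ω hω => by
    simp [(T.isClopen_hull g).frontier_eq] at hω)⟩

lemma pos_apply (g : C(Ω, ℝ)) (ω : Ω) : T.pos g ω = Set.indicator (hull g) 1 ω := rfl

lemma pos_mul_self (g : C(Ω, ℝ)) : T.pos g * T.pos g = T.pos g := by
  ext ω; by_cases h : ω ∈ hull g <;> simp [pos_apply, h]

lemma pos_le_of_pos {g h : C(Ω, ℝ)} (hh : h * h = h) (hg : ∀ ω, 0 < g ω → h ω = 1) :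
    T.pos g ≤ h := by
  refine ContinuousMap.le_def.2 fun ω => ?_
  by_cases hm : ω ∈ hull g
  · have : h ω = 1 := closure_minimal hg (isClosed_eq h.continuous continuous_const) hm
    simp [pos_apply, hm, this]
  · rw [pos_apply, Set.indicator_of_notMem hm]
    exact idem_nonneg hh ω

lemma pos_eq_one_of_pos {g : C(Ω, ℝ)} {ω : Ω} (h : 0 < g ω) : T.pos g ω = 1 := by
  have hm : ω ∈ hull g := subset_closure h
  simp [pos_apply, hm]

lemma nonneg_of_pos_eq_one {g : C(Ω, ℝ)} {ω : Ω} (h : T.pos g ω = 1) : 0 ≤ g ω := by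
  refine TMasa.nonneg_of_mem_hull ?_
  by_contra hm
  simp [pos_apply, hm] at h

lemma nonpos_of_pos_eq_zero {g : C(Ω, ℝ)} {ω : Ω} (h : T.pos g ω = 0) : g ω ≤ 0 := by
  refine TMasa.nonpos_of_not_mem_hull fun hm => ?_
  simp [pos_apply, hm] at h

lemma pos_le_pos {f g : C(Ω, ℝ)} (h : ∀ ω, 0 < f ω → 0 < g ω) : T.pos f ≤ T.pos g := fun ω => by
  show T.pos f ω ≤ T.pos g ω
  rw [pos_apply, pos_apply]
  exact Set.indicator_le_indicator_of_subset (closure_mono h) (fun _ => zero_le_one) ω

end SMasa

namespace SMasa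

open TMasa (hull)

/-- approximation by step functions -/
theorem exists_step (T : SMasa M Ω) (f : C(Ω, ℝ)) {ε : ℝ} (hε : 0 < ε) :
    ∃ (P : Part Ω) (c : Fin P.n → ℝ), ‖f - ∑ i, c i • P.e i‖ ≤ ε ∧ ∀ i, |c i| ≤ ‖f‖ + ε := by
  obtain ⟨N, hN⟩ := exists_nat_gt (2 * (‖f‖ + ε) / ε)
  rw [div_lt_iff₀ hε] at hN
  let t : ℕ → ℝ := fun k => -(‖f‖ + ε) + k * ε
  let U : ℕ → C(Ω, ℝ) := fun k => if k = 0 then 1 else if N < k then 0 else
    T.pos (f - ContinuousMap.const Ω (t k))
  have habs : ∀ ω, |f ω| ≤ ‖f‖ := fun ω => f.norm_coe_le_norm ω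
  have hU01 : ∀ k ω, U k ω = 0 ∨ U k ω = 1 := by
    intro k ω
    simp only [U]
    split_ifs
    · right; rfl
    · left; rfl
    · exact idem_zero_or_one (T.pos_mul_self _) ω
  have hU1 : ∀ k ω, U k ω = 1 → 0 < k → t k ≤ f ω := by
    intro k ω h hk
    simp only [U] at h
    rw [if_neg hk.ne'] at h
    split_ifs at h with h2
    · simp at h
    · by_cases hm : ω ∈ hull (f - ContinuousMap.const Ω (t k))
      · simpa using TMasa.nonneg_of_mem_hull hm
      · simp [pos_apply, hm] at h
  have hU0 : ∀ k ω, U k ω = 0 → k ≤ N → f ω ≤ t k := by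
    intro k ω h hk
    simp only [U] at h
    split_ifs at h with h1 h2
    · simp at h
    · omega
    · by_cases hm : ω ∈ hull (f - ContinuousMap.const Ω (t k))
      · simp [pos_apply, hm] at h
      · simpa using TMasa.nonpos_of_not_mem_hull hm
  have hmono : ∀ k ω, U (k + 1) ω ≤ U k ω := by
    intro k ω
    rcases hU01 k ω with h | h <;> rcases hU01 (k + 1) ω with h' | h' <;> simp only [h, h'] <;>
      try norm_num
    rcases Nat.eq_zero_or_pos k with rfl | hk
    · simp [U] at h
    · rcases le_or_gt (k + 1) N with hkN | hkN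
      · have a1 := hU1 (k + 1) ω h' (by omega)
        have a2 := hU0 k ω h (by omega)
        simp only [t] at a1 a2
        push_cast at a1
        linarith
      · simp [U, hkN] at h'
  have hanti : ∀ ω, Antitone fun k => U k ω := fun ω => antitone_nat_of_succ_le fun k => hmono k ω
  let e : Fin (N + 1) → C(Ω, ℝ) := fun i => U i - U (i + 1)
  have hP : IsPartition e := by
    refine ⟨fun i => ?_, fun i j hij => ?_, ?_⟩
    · ext ω
      simp only [e, ContinuousMap.mul_apply, ContinuousMap.sub_apply]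
      rcases hU01 i ω with h | h <;> rcases hU01 (i + 1) ω with h' | h' <;>
        simp only [h, h'] <;> norm_num
      have := hmono i ω
      linarith
    · ext ω
      simp only [e, ContinuousMap.mul_apply, ContinuousMap.sub_apply, ContinuousMap.zero_apply]
      rcases lt_or_gt_of_ne (fun h => hij (Fin.ext h)) with h | h
      · have h1 := hanti ω (Nat.succ_le_of_lt h)
        have h2 := hmono i ω
        have h3 := hmono j ω
        rcases hU01 i ω with a | a <;> rcases hU01 (i + 1) ω with b | b <;>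
          rcases hU01 j ω with c | c <;> rcases hU01 (j + 1) ω with d | d <;>
          simp only [a, b, c, d] at h1 h2 h3 ⊢ <;> norm_num <;> linarith
      · have h1 := hanti ω (Nat.succ_le_of_lt h)
        have h2 := hmono i ω
        have h3 := hmono j ω
        rcases hU01 i ω with a | a <;> rcases hU01 (i + 1) ω with b | b <;>
          rcases hU01 j ω with c | c <;> rcases hU01 (j + 1) ω with d | d <;>
          simp only [a, b, c, d] at h1 h2 h3 ⊢ <;> norm_num <;> linarith
    · rw [Fin.sum_univ_eq_sum_range (fun k => U k - U (k + 1)), Finset.sum_range_sub']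
      simp [U]
  refine ⟨⟨N + 1, e, hP⟩, fun i => if (i : ℕ) < N then min (t i + ε) (‖f‖ + ε) else ‖f‖ + ε, ?_, fun i => ?_⟩
  · rw [ContinuousMap.norm_le _ hε.le]
    intro ω
    have hsum := DFunLike.congr_fun hP.sum_one ω
    rw [ContinuousMap.sum_apply, ContinuousMap.one_apply] at hsum
    obtain ⟨i, hi⟩ : ∃ i, e i ω = 1 := by
      by_contra h
      have hz : ∀ i, e i ω = 0 := fun i =>
        (idem_zero_or_one (hP.idem i) ω).resolve_right (not_exists.1 h i)
      simp [hz] at hsum
    have hother : ∀ j ≠ i, e j ω = 0 := fun j hj => by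
      simpa [hi] using DFunLike.congr_fun (hP.orth j i hj) ω
    rw [ContinuousMap.sub_apply, ContinuousMap.sum_apply, Finset.sum_eq_single i
      (fun j _ hj => by rw [ContinuousMap.smul_apply, hother j hj, smul_zero]) (by simp)]
    rw [ContinuousMap.smul_apply, hi, smul_eq_mul, mul_one, Real.norm_eq_abs]
    have hi1 : U i ω = 1 ∧ U (i + 1) ω = 0 := by
      simp only [e, ContinuousMap.sub_apply] at hi
      rcases hU01 i ω with h | h <;> rcases hU01 (i + 1) ω with h' | h' <;>
        simp only [h, h'] at hi ⊢ <;> (first | (exfalso; linarith) | simp)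
    have lo : t i ≤ f ω ∨ (i : ℕ) = 0 :=
      (Nat.eq_zero_or_pos (i : ℕ)).symm.imp (hU1 i ω hi1.1) id
    have hf := abs_le.1 (habs ω)
    rw [abs_le]
    beta_reduce
    split_ifs with hiN
    · have up := hU0 (i + 1) ω hi1.2 hiN
      have hmin := min_le_left (t i + ε) (‖f‖ + ε)
      have hge : f ω ≤ min (t i + ε) (‖f‖ + ε) := by
        refine le_min ?_ (by linarith)
        simp only [t] at up ⊢
        push_cast at up
        linarith
      rcases lo with lo | lo
      · constructor <;> linarith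
      · have : t i = -(‖f‖ + ε) := by simp [t, lo]
        constructor <;> linarith
    · have hiN' : (i : ℕ) = N := le_antisymm (Nat.lt_succ_iff.1 i.2) (not_lt.1 hiN)
      rcases lo with lo | lo
      · simp only [t, hiN'] at lo
        exfalso; linarith [norm_nonneg f]
      · rw [hiN'] at lo; subst lo
        push_cast at hN; exfalso; nlinarith [norm_nonneg f]
  · show |if (i : ℕ) < N then min (t i + ε) (‖f‖ + ε) else ‖f‖ + ε| ≤ ‖f‖ + ε
    rw [abs_le]
    split_ifs with h
    · have h2 : 0 ≤ ((i : ℕ) : ℝ) * ε := by positivity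
      refine ⟨le_min ?_ ?_, min_le_right _ _⟩ <;> linarith [norm_nonneg f]
    · constructor <;> linarith [norm_nonneg f]

end SMasa

end Vale.Agent.P078.T3
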