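import Mathlib
import Vale.Agent.P078.Type3.Defs
import Vale.Agent.P078.Masa

/-! Graph operators: finite sums of weighted partial translations coming from normalisers of the
maximal abelian subalgebra, with their Radon–Nikodym densities, and their kernels on `Ω`. -/

noncomputable section

open scoped ComplexOrder
open Classical

namespace Vale.Agent.P078.T3

universe u v w

variable {M : Type u} [CStarAlgebra M] [PartialOrder M] [StarOrderedRing M]
  {Ω : Type v} [TopologicalSpace Ω] [CompactSpace Ω] [T2Space Ω]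

/-- A partial isometry normalising the subalgebra, together with the partial homeomorphism it
induces and its density: `dens b` is the mass at `toDom b` relative to the mass at `b`. -/
structure GElt (T : SMasa M Ω) where
  W : M
  dom : C(Ω, ℝ)
  ran : C(Ω, ℝ)
  dom_idem : dom * dom = dom
  ran_idem : ran * ran = ran
  toDom : C(Ω, Ω)
  toRan : C(Ω, Ω)
  star_W_mul : star W * W = T.emb dom
  W_mul_star : W * star W = T.emb ran
  conj : ∀ f, W * T.emb f * star W = T.emb (ran * f.comp toDom)
  conj' : ∀ f, star W * T.emb f * W = T.emb (dom * f.comp toRan)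
  dom_toDom : ∀ b, ran b = 1 → dom (toDom b) = 1
  ran_toRan : ∀ a, dom a = 1 → ran (toRan a) = 1
  toRan_toDom : ∀ b, ran b = 1 → toRan (toDom b) = b
  toDom_toRan : ∀ a, dom a = 1 → toDom (toRan a) = a
  dens : C(Ω, ℝ)
  dens' : C(Ω, ℝ)
  dens_pos : ∀ b, 0 < dens b
  dens'_pos : ∀ a, 0 < dens' a
  dens_inv : ∀ b, ran b = 1 → dens b * dens' (toDom b) = 1
  tau_dens : ∀ f, T.tau (ran * f.comp toDom * dens) = T.tau (dom * f)
  tau_dens' : ∀ f, T.tau (dom * f.comp toRan * dens') = T.tau (ran * f)

namespace GElt

variable {T : SMasa M Ω}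

/-- the identity -/
def one (T : SMasa M Ω) : GElt T where
  W := 1
  dom := 1
  ran := 1
  dom_idem := mul_one 1
  ran_idem := mul_one 1
  toDom := ContinuousMap.id Ω
  toRan := ContinuousMap.id Ω
  star_W_mul := by simp
  W_mul_star := by simp
  conj f := by simp
  conj' f := by simp
  dom_toDom _ _ := rfl
  ran_toRan _ _ := rfl
  toRan_toDom _ _ := rfl
  toDom_toRan _ _ := rfl
  dens := 1
  dens' := 1
  dens_pos _ := one_pos
  dens'_pos _ := one_pos
  dens_inv _ _ := mul_one 1
  tau_dens f := by simp
  tau_dens' f := by simp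

/-- the inverse -/
def inv (g : GElt T) : GElt T where
  W := star g.W
  dom := g.ran
  ran := g.dom
  dom_idem := g.ran_idem
  ran_idem := g.dom_idem
  toDom := g.toRan
  toRan := g.toDom
  star_W_mul := by rw [star_star]; exact g.W_mul_star
  W_mul_star := by rw [star_star]; exact g.star_W_mul
  conj f := by rw [star_star]; exact g.conj' f
  conj' f := by rw [star_star]; exact g.conj f
  dom_toDom := g.ran_toRan
  ran_toRan := g.dom_toDom
  toRan_toDom := g.toDom_toRan
  toDom_toRan := g.toRan_toDom
  dens := g.dens'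
  dens' := g.dens
  dens_pos := g.dens'_pos
  dens'_pos := g.dens_pos
  dens_inv a ha := by
    have h := g.dens_inv (g.toRan a) (g.ran_toRan a ha)
    rw [g.toDom_toRan a ha] at h
    rw [mul_comm]; exact h
  tau_dens := g.tau_dens'
  tau_dens' := g.tau_dens

/-- the composition: first `h`, then `g` (the operators multiply in this order) -/
def mul (g h : GElt T) : GElt T where
  W := g.W * h.W
  dom := h.dom * g.dom.comp h.toRan
  ran := g.ran * h.ran.comp g.toDom
  dom_idem := by rw [mul_mul_mul_comm, h.dom_idem, ← ContinuousMap.mul_comp, g.dom_idem]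
  ran_idem := by rw [mul_mul_mul_comm, g.ran_idem, ← ContinuousMap.mul_comp, h.ran_idem]
  toDom := h.toDom.comp g.toDom
  toRan := g.toRan.comp h.toRan
  star_W_mul := by
    rw [star_mul, mul_assoc, ← mul_assoc (star g.W), g.star_W_mul, ← mul_assoc, h.conj']
  W_mul_star := by
    rw [star_mul, mul_assoc, ← mul_assoc h.W, h.W_mul_star, ← mul_assoc, g.conj]
  conj f := by
    rw [star_mul, show g.W * h.W * T.emb f * (star h.W * star g.W)
      = g.W * (h.W * T.emb f * star h.W) * star g.W by simp only [mul_assoc], h.conj, g.conj,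
      ContinuousMap.mul_comp, ← mul_assoc, ContinuousMap.comp_assoc]
  conj' f := by
    rw [star_mul, show star h.W * star g.W * T.emb f * (g.W * h.W)
      = star h.W * (star g.W * T.emb f * g.W) * h.W by simp only [mul_assoc], g.conj', h.conj',
      ContinuousMap.mul_comp, ← mul_assoc, ContinuousMap.comp_assoc]
  dom_toDom b hb := by
    simp only [ContinuousMap.mul_apply, ContinuousMap.comp_apply] at hb ⊢
    rcases idem_zero_or_one g.ran_idem b with h1 | h1
    · rw [h1, zero_mul] at hb; exact absurd hb zero_ne_one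
    · rw [h1, one_mul] at hb
      rw [h.dom_toDom _ hb, h.toRan_toDom _ hb, g.dom_toDom _ h1, one_mul]
  ran_toRan a ha := by
    simp only [ContinuousMap.mul_apply, ContinuousMap.comp_apply] at ha ⊢
    rcases idem_zero_or_one h.dom_idem a with h1 | h1
    · rw [h1, zero_mul] at ha; exact absurd ha zero_ne_one
    · rw [h1, one_mul] at ha
      rw [g.ran_toRan _ ha, g.toDom_toRan _ ha, h.ran_toRan _ h1, one_mul]
  toRan_toDom b hb := by
    simp only [ContinuousMap.mul_apply, ContinuousMap.comp_apply] at hb ⊢
    rcases idem_zero_or_one g.ran_idem b with h1 | h1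
    · rw [h1, zero_mul] at hb; exact absurd hb zero_ne_one
    · rw [h1, one_mul] at hb
      rw [h.toRan_toDom _ hb, g.toRan_toDom _ h1]
  toDom_toRan a ha := by
    simp only [ContinuousMap.mul_apply, ContinuousMap.comp_apply] at ha ⊢
    rcases idem_zero_or_one h.dom_idem a with h1 | h1
    · rw [h1, zero_mul] at ha; exact absurd ha zero_ne_one
    · rw [h1, one_mul] at ha
      rw [g.toDom_toRan _ ha, h.toDom_toRan _ h1]
  dens := g.dens * h.dens.comp g.toDom
  dens' := h.dens' * g.dens'.comp h.toRan
  dens_pos b := mul_pos (g.dens_pos b) (h.dens_pos _)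
  dens'_pos a := mul_pos (h.dens'_pos a) (g.dens'_pos _)
  dens_inv b hb := by
    simp only [ContinuousMap.mul_apply, ContinuousMap.comp_apply] at hb ⊢
    rcases idem_zero_or_one g.ran_idem b with h1 | h1
    · rw [h1, zero_mul] at hb; exact absurd hb zero_ne_one
    · rw [h1, one_mul] at hb
      rw [h.toRan_toDom _ hb]
      calc _ = (g.dens b * g.dens' (g.toDom b))
            * (h.dens (g.toDom b) * h.dens' (h.toDom (g.toDom b))) := by ring
        _ = 1 := by rw [g.dens_inv _ h1, h.dens_inv _ hb, mul_one]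
  tau_dens f := by
    have e : g.ran * h.ran.comp g.toDom * f.comp (h.toDom.comp g.toDom)
        * (g.dens * h.dens.comp g.toDom)
        = g.ran * (h.ran * f.comp h.toDom * h.dens).comp g.toDom * g.dens := by
      ext b; simp only [ContinuousMap.mul_apply, ContinuousMap.comp_apply]; ring
    rw [e, g.tau_dens]
    have e2 : g.dom * (h.ran * f.comp h.toDom * h.dens)
        = h.ran * (g.dom.comp h.toRan * f).comp h.toDom * h.dens := by
      ext b
      simp only [ContinuousMap.mul_apply, ContinuousMap.comp_apply]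
      rcases idem_zero_or_one h.ran_idem b with h1 | h1
      · simp [h1]
      · rw [h.toRan_toDom _ h1]; ring
    rw [e2, h.tau_dens, mul_assoc]
  tau_dens' f := by
    have e : h.dom * g.dom.comp h.toRan * f.comp (g.toRan.comp h.toRan)
        * (h.dens' * g.dens'.comp h.toRan)
        = h.dom * (g.dom * f.comp g.toRan * g.dens').comp h.toRan * h.dens' := by
      ext b; simp only [ContinuousMap.mul_apply, ContinuousMap.comp_apply]; ring
    rw [e, h.tau_dens']
    have e2 : h.ran * (g.dom * f.comp g.toRan * g.dens')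
        = g.dom * (h.ran.comp g.toDom * f).comp g.toRan * g.dens' := by
      ext b
      simp only [ContinuousMap.mul_apply, ContinuousMap.comp_apply]
      rcases idem_zero_or_one g.dom_idem b with h1 | h1
      · simp [h1]
      · rw [g.toDom_toRan _ h1]; ring
    rw [e2, g.tau_dens', mul_assoc]

end GElt

/-- one weighted translation from column `col` to row `row` -/
structure Term (T : SMasa M Ω) (ι : Type w) (κ : Type w) where
  row : ι
  col : κ
  coef : C(Ω, ℝ)
  g : GElt T

/-- a graph operator: a finite sum of weighted translations -/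
abbrev GOp (T : SMasa M Ω) (ι : Type w) (κ : Type w) := List (Term T ι κ)

namespace GOp

variable {T : SMasa M Ω} {ι κ lab : Type w}

/-- the kernel -/
def ker (S : GOp T ι κ) (x : Ω × ι) (y : Ω × κ) : ℝ :=
  (S.map fun t => if t.row = x.2 ∧ t.col = y.2 ∧ t.g.toDom x.1 = y.1
    then t.coef x.1 * t.g.ran x.1 else 0).sum

/-- the action on functions -/
def app (S : GOp T ι κ) (u : κ → C(Ω, ℝ)) (i : ι) : C(Ω, ℝ) :=
  (S.map fun t => if t.row = i then t.coef * t.g.ran * (u t.col).comp t.g.toDom else 0).sum

/-- scalar multiple -/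
def smul (c : ℝ) (S : GOp T ι κ) : GOp T ι κ := S.map fun t => { t with coef := c • t.coef }

/-- sum -/
def add (S R : GOp T ι κ) : GOp T ι κ := S ++ R

/-- product -/
def mul (S : GOp T ι κ) (R : GOp T κ lab) : GOp T ι lab :=
  S.flatMap fun s => R.filterMap fun t => if s.col = t.row then
    some ⟨s.row, t.col, s.coef * t.coef.comp s.g.toDom, s.g.mul t.g⟩ else none

/-- transpose for the counting measure of the orbits -/
def tp (S : GOp T ι κ) : GOp T κ ι :=
  S.map fun t => ⟨t.col, t.row, t.coef.comp t.g.toRan, t.g.inv⟩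

/-- weighting of every entry `(b, a)` by the mass at `a` relative to `b` -/
def wgt (S : GOp T ι κ) : GOp T ι κ := S.map fun t => { t with coef := t.coef * t.g.dens }

/-- multiplication operators -/
def diag [Fintype ι] (f : ι → C(Ω, ℝ)) : GOp T ι ι :=
  (Finset.univ : Finset ι).toList.map fun i => ⟨i, i, f i, GElt.one T⟩

/-- powers -/
def pow [Fintype ι] (S : GOp T ι ι) : ℕ → GOp T ι ι
  | 0 => diag fun _ => 1
  | n + 1 => mul S (pow S n)

end GOp

/-- a bound for the operator norm of a kernel on square summable sequences -/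
def OpBd {X Y : Type*} (k : X → Y → ℝ) (c : ℝ) : Prop :=
  ∀ (s : Finset X) (t : Finset Y) (f : X → ℝ) (g : Y → ℝ),
    |∑ x ∈ s, ∑ y ∈ t, f x * k x y * g y|
      ≤ c * Real.sqrt (∑ x ∈ s, f x ^ 2) * Real.sqrt (∑ y ∈ t, g y ^ 2)

/-- trilinear forms `∑ tr (A u B v C)` -/
def form3 (T : SMasa M Ω) (F : List (M × M × M)) (u v : C(Ω, ℝ)) : ℝ :=
  (F.map fun a => T.tr (a.1 * T.emb u * a.2.1 * T.emb v * a.2.2)).sum

/-- the rows of the linear constraint: `∑ⱼ (cⱼ - φⱼ Kⱼ) (onⱼ uⱼ)` on `rows` -/
def rowOp {T : SMasa M Ω} {r : ℕ} (rows : C(Ω, ℝ)) (on c φ : Fin r → C(Ω, ℝ))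
    (K : Fin r → GOp T Unit Unit) : GOp T Unit (Fin r) :=
  (List.finRange r).flatMap fun j =>
    ⟨(), j, rows * on j * c j, GElt.one T⟩ :: (K j).map fun t =>
      ⟨(), j, -(rows * φ j * t.coef * (on j).comp t.g.toDom), t.g⟩

end Vale.Agent.P078.T3
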