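import Mathlib
import Vale.Agent.P078.Type3.GraphDefs
import Vale.Agent.P078.Type3.Expect
import Vale.Agent.P078.Type3.Spectral

/-! The statements of the modules of the trace-free walk. Every `…Spec` below is proved in a file
of its own; none of them is assumed in a hand-in. -/

noncomputable section

open scoped ComplexOrder
open Classical Filter

namespace Vale.Agent.P078.T3

universe u v

variable {M : Type u} [CStarAlgebra M] [PartialOrder M] [StarOrderedRing M]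
  {Ω : Type v} [TopologicalSpace Ω] [CompactSpace Ω] [T2Space Ω]

namespace GOp

variable {T : SMasa M Ω} {r : ℕ}

/-- the action of a graph operator without labels -/
def app1 (K : GOp T Unit Unit) (f : C(Ω, ℝ)) : C(Ω, ℝ) := K.app (fun _ => f) ()

/-- `1 - (Tm^t Tm) / B` -/
def yOp (Tm : GOp T Unit (Fin r)) (B : ℝ) : GOp T (Fin r) (Fin r) :=
  add (diag fun _ => 1) (smul (-(1 / B)) (mul (tp Tm) Tm))

/-- `1 - (1 - Tm^t Tm / B) ^ n` -/
def levOp (Tm : GOp T Unit (Fin r)) (B : ℝ) (n : ℕ) : GOp T (Fin r) (Fin r) :=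
  add (diag fun _ => 1) (smul (-1) (pow (yOp Tm B) n))

end GOp

/-- finitely many graphs separate distinct images on fine partitions -/
def SepSpec (T : SMasa M Ω) : Prop :=
  ∀ L : List (GElt T), ∀ᶠ P : Part Ω in atTop, ∀ g ∈ L, ∀ h ∈ L, ∀ (b : Ω) (i : Fin P.n),
    g.ran b = 1 → h.ran b = 1 → P.e i (g.toDom b) = 1 → P.e i (h.toDom b) = 1 →
      g.toDom b = h.toDom b

/-- the density is determined by the pair of points -/
def DensSpec (T : SMasa M Ω) : Prop :=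
  ∀ (g h : GElt T) (b : Ω), g.ran b = 1 → h.ran b = 1 → g.toDom b = h.toDom b → g.dens b = h.dens b

/-- the expected square of a graph operator applied to random signs is the diagonal of `S S^t` -/
def ExactSpec (T : SMasa M Ω) : Prop :=
  ∀ {n k : ℕ} (S : GOp T (Fin n) (Fin k)), ∀ᶠ P : Part Ω in atTop, ∀ (i : Fin n) (b : Ω),
    ∑ j, ∑ e, (S.app (Pi.single j (P.e e)) i b) ^ 2 = (S.mul S.tp).ker (b, i) (b, i)

/-- the atomic part of `f ↦ E (X f X)` by graphs -/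
def AtomSpec (T : SMasa M Ω) : Prop :=
  ∀ X : M, IsSelfAdjoint X → ∀ η : ℝ, 0 < η → ∃ K : GOp T Unit Unit,
    (∀ t ∈ K, 0 ≤ t.coef) ∧ (∀ x y, K.ker x y = K.ker y x) ∧
    (∀ f, 0 ≤ f → K.app1 f ≤ T.K X f) ∧
    ∀ᶠ P : Part Ω in atTop, ∀ f : Fin P.n → C(Ω, ℝ), (∀ e ω, |f e ω| ≤ P.e e ω) →
      ∑ e, T.tau ((T.K X (f e) - K.app1 (f e)) * (T.K X (f e) - K.app1 (f e))) ≤ η

/-- the complexified expectation, as an element of the algebra -/
def SMasa.EC (T : SMasa M Ω) (B : M) : M :=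
  T.emb (T.E B) + Complex.I • T.emb (T.E ((-Complex.I) • B))

/-- positive forms are monotone in the covariance -/
def FormSpec (T : SMasa M Ω) : Prop :=
  ∀ (F : List (M × M × M)) (G : C(Ω, ℝ) →ₗ[ℝ] ℝ), (∀ f, 0 ≤ f → 0 ≤ G f) →
    (∀ u, 0 ≤ form3 T F u u ∧ form3 T F u u ≤ G (u * u)) →
    ∀ {k : ℕ} (S : GOp T Unit (Fin k)), OpBd S.ker 1 → ∀ η : ℝ, 0 < η →
      ∀ᶠ P : Part Ω in atTop,
        ∑ j, ∑ e, form3 T F (S.app (Pi.single j (P.e e)) ()) (S.app (Pi.single j (P.e e)) ())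
          ≤ ∑ e, form3 T F (P.e e) (P.e e) + η

/-- the limit of a diagonal sum of a trilinear form -/
def FormLimSpec (T : SMasa M Ω) : Prop :=
  ∀ F : List (M × M × M), Tendsto (fun P : Part Ω => ∑ e, form3 T F (P.e e) (P.e e)) atTop
    (nhds (F.map fun a => T.tr (a.1 * T.EC a.2.1 * a.2.2)).sum)

/-- the weighted rank bound -/
def RankSpec (T : SMasa M Ω) : Prop :=
  ∀ {r : ℕ} (Tm : GOp T Unit (Fin r)) (H : GOp T (Fin r) (Fin r)) (Tb Tres : GOp T Unit (Fin r))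
    (rows Λ res : C(Ω, ℝ)) (hb : Fin r → C(Ω, ℝ)) (B G : ℝ) (n m : ℕ) (d : Fin r → C(Ω, ℝ)),
    0 < B → 1 ≤ G → rows * rows = rows → 0 ≤ Λ →
    OpBd Tm.ker (Real.sqrt B) →
    (∀ x y, (Tm.add (Tm.mul H)).ker x y = Tb.ker x y + Tres.ker x y) →
    (∀ t ∈ Tb, ∀ b, t.coef b * t.g.ran b ≠ 0 →
      rows b = 1 ∧ Λ (t.g.toDom b) * t.g.dens b ≤ 2 * G * Λ b) →
    (∀ j b, ((H.mul (GOp.diag fun _ => Λ)).wgt.mul H.tp).ker (b, j) (b, j) ≤ hb j b) →
    (∀ b, ((Tres.mul (GOp.diag fun _ => Λ)).wgt.mul Tres.tp).ker (b, ()) (b, ()) ≤ res b) →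
    (∀ j b, d j b = (GOp.levOp Tm B n).ker (b, j) (b, j)) →
    T.tau (Λ * ∑ j, d j) ≤ 16 * G * T.tau (Λ * rows) + 4 * (∑ j, T.tau (hb j))
      + 4 * ((m : ℝ) / B) * T.tau res + 2 * n / (m + 1) * r * T.tau Λ

end Vale.Agent.P078.T3
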