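import Mathlib
import Vale.Agent.P078.SingDefs
import Vale.Agent.P078.SemiL2

/-! A functional dominated by square summable vectors is given by square summable vectors. -/

noncomputable section

open scoped InnerProductSpace ComplexOrder
open Filter Topology

namespace Vale.Agent.P078.Type3

universe u

variable {H : Type u} [NormedAddCommGroup H] [InnerProductSpace ℂ H] [CompleteSpace H]

/-- the Hilbert space of square summable sequences of vectors -/
abbrev Amp (H : Type u) [NormedAddCommGroup H] [InnerProductSpace ℂ H] :=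
  lp (fun _ : ℕ => H) 2

lemma memℓp_two {v : ℕ → H} (h : Summable fun n => ‖v n‖ ^ 2) : Memℓp v 2 := by
  refine memℓp_gen ?_
  simpa using h

lemma summable_amp (v : Amp H) : Summable fun n => ‖v n‖ ^ 2 := by
  simpa using (lp.memℓp v).summable (by norm_num)

lemma summable_apply (y : H →L[ℂ] H) {v : ℕ → H} (h : Summable fun n => ‖v n‖ ^ 2) :
    Summable fun n => ‖y (v n)‖ ^ 2 :=
  Summable.of_nonneg_of_le (fun n => sq_nonneg _)
    (fun n => (pow_le_pow_left₀ (norm_nonneg _) (y.le_opNorm _) 2).trans_eq (mul_pow _ _ 2))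
    (h.mul_left (‖y‖ ^ 2))

lemma norm_amp_sq (v : Amp H) : ‖v‖ ^ 2 = ∑' n, ‖v n‖ ^ 2 := by
  have h := lp.norm_rpow_eq_tsum (p := 2) (by norm_num) v
  simpa using h

/-- an operator acting in every coordinate -/
def amp (y : H →L[ℂ] H) : Amp H →L[ℂ] Amp H :=
  LinearMap.mkContinuous
    { toFun := fun v => ⟨fun n => y (v n), memℓp_two (summable_apply y (summable_amp v))⟩
      map_add' := fun v w => by ext n; exact y.map_add _ _
      map_smul' := fun c v => by ext n; exact y.map_smul _ _ }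
    ‖y‖ fun v => by
      refine (pow_le_pow_iff_left₀ (norm_nonneg _) (by positivity) two_ne_zero).1 ?_
      rw [mul_pow, norm_amp_sq, norm_amp_sq, ← tsum_mul_left]
      refine Summable.tsum_le_tsum (fun n => ?_) (summable_apply y (summable_amp v))
        ((summable_amp v).mul_left _)
      rw [← mul_pow]
      exact pow_le_pow_left₀ (norm_nonneg _) (y.le_opNorm _) 2

lemma amp_apply (y : H →L[ℂ] H) (v : Amp H) (n : ℕ) : amp y v n = y (v n) := rfl

lemma amp_mul (x y : H →L[ℂ] H) : amp (x * y) = amp x * amp y := by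
  ext v n
  rfl

lemma star_amp (y : H →L[ℂ] H) : star (amp y) = amp (star y) := by
  rw [ContinuousLinearMap.star_eq_adjoint, eq_comm, ContinuousLinearMap.eq_adjoint_iff]
  intro v w
  rw [lp.inner_eq_tsum, lp.inner_eq_tsum]
  refine tsum_congr fun n => ?_
  rw [amp_apply, amp_apply, ContinuousLinearMap.star_eq_adjoint,
    ContinuousLinearMap.adjoint_inner_left]

/-- positive operators have commuting roots -/
lemma exists_root {E : Type*} [NormedAddCommGroup E] [InnerProductSpace ℂ E] [CompleteSpace E]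
    (T : E →L[ℂ] E) (hT : T.IsPositive) :
    ∃ S : E →L[ℂ] E, ContinuousLinearMap.adjoint S * S = T ∧
      ∀ x, Commute T x → S * x = x * S := by
  have hT0 : 0 ≤ T := (ContinuousLinearMap.nonneg_iff_isPositive T).2 hT
  refine ⟨cfc Real.sqrt T, ?_, fun x hx => (hx.cfc_real Real.sqrt).eq⟩
  rw [← ContinuousLinearMap.star_eq_adjoint, (IsSelfAdjoint.cfc (f := Real.sqrt) (a := T)).star_eq,
    ← cfc_mul _ _ T Real.continuous_sqrt.continuousOn Real.continuous_sqrt.continuousOn]
  exact (cfc_congr fun t ht => Real.mul_self_sqrt (spectrum_nonneg_of_nonneg hT0 ht)).trans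
    (cfc_id' ℝ T (IsSelfAdjoint.of_nonneg hT0))

/-- the algebra as a submodule -/
abbrev carrierMod (M : VonNeumannAlgebra H) : Submodule ℂ (H →L[ℂ] H) :=
  M.toStarSubalgebra.toSubalgebra.toSubmodule

/-- A positive functional dominated by a square summable family is a family of vectors. -/
theorem exists_vectors (M : VonNeumannAlgebra H) (φ : (H →L[ℂ] H) →ₗ[ℂ] ℂ)
    (hpos : ∀ y ∈ M, ∃ t : ℝ, 0 ≤ t ∧ φ (star y * y) = (t : ℂ)) {ζ : ℕ → H}
    (hζ : Summable fun n => ‖ζ n‖ ^ 2)
    (hdom : ∀ y ∈ M, (φ (star y * y)).re ≤ ∑' n, ‖y (ζ n)‖ ^ 2)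
    (hcs : ∀ y ∈ M, ∀ z ∈ M,
      ‖φ (star y * z)‖ ^ 2 ≤ (φ (star y * y)).re * (φ (star z * z)).re) :
    ∃ η : ℕ → H, Summable (fun n => ‖η n‖ ^ 2) ∧
      ∀ y ∈ M, φ y = ∑' n, ⟪η n, y (η n)⟫_ℂ := by
  classical
  set Z : Amp H := ⟨ζ, memℓp_two hζ⟩ with hZ
  let J₀ : carrierMod M →ₗ[ℂ] Amp H :=
    { toFun := fun y => amp y.1 Z
      map_add' := fun y z => by ext n; rfl
      map_smul' := fun c y => by ext n; rfl }
  set K : Submodule ℂ (Amp H) := (LinearMap.range J₀).topologicalClosure with hK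
  have : CompleteSpace K := (Submodule.isClosed_topologicalClosure _).completeSpace_coe
  let J : carrierMod M →ₗ[ℂ] K :=
    J₀.codRestrict K fun y => Submodule.le_topologicalClosure _ (LinearMap.mem_range_self _ y)
  have hdense : DenseRange J := by
    rw [DenseRange, dense_iff_closure_eq]
    refine Set.eq_univ_of_forall fun v => ?_
    rw [closure_subtype]
    refine closure_mono ?_ (show (v : Amp H) ∈ closure (LinearMap.range J₀ : Set (Amp H)) from v.2)
    rintro _ ⟨y, rfl⟩
    exact ⟨J y, ⟨y, rfl⟩, rfl⟩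
  have hJn : ∀ y : carrierMod M, ‖J y‖ ^ 2 = ∑' n, ‖y.1 (ζ n)‖ ^ 2 := fun y => by
    exact norm_amp_sq (J₀ y)
  set sc : carrierMod M → ℝ := fun a => (φ (star a.1 * a.1)).re with hsc
  have hsc0 : ∀ a, 0 ≤ sc a := fun a => by
    obtain ⟨t, ht, e⟩ := hpos a.1 a.2
    simp only [hsc, e, Complex.ofReal_re]
    exact ht
  have hscJ : ∀ a, Real.sqrt (sc a) ≤ ‖J a‖ := fun a => by
    rw [← Real.sqrt_sq (norm_nonneg (J a)), hJn]
    exact Real.sqrt_le_sqrt (hdom a.1 a.2)
  let gl : carrierMod M → (carrierMod M →ₗ[ℂ] ℂ) := fun a =>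
    { toFun := fun z => φ (star a.1 * z.1)
      map_add' := fun z z' => by simp [mul_add]
      map_smul' := fun c z => by simp }
  have hgb : ∀ a z, ‖gl a z‖ ≤ Real.sqrt (sc a) * ‖J z‖ := by
    intro a z
    have h : ‖gl a z‖ ≤ Real.sqrt (sc a) * Real.sqrt (sc z) := by
      rw [← Real.sqrt_mul (hsc0 a)]
      exact Real.le_sqrt_of_sq_le (hcs a.1 a.2 z.1 z.2)
    exact h.trans (mul_le_mul_of_nonneg_left (hscJ z) (Real.sqrt_nonneg _))
  set g : carrierMod M → (K →L[ℂ] ℂ) := fun a => (gl a).extendOfNorm J with hg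
  have hge : ∀ a z, g a (J z) = φ (star a.1 * z.1) := fun a z =>
    LinearMap.extendOfNorm_eq hdense ⟨_, hgb a⟩ z
  set w : carrierMod M → K := fun a => (InnerProductSpace.toDual ℂ K).symm (g a) with hw
  have hwi : ∀ a z, ⟪w a, J z⟫_ℂ = φ (star a.1 * z.1) := fun a z => by
    rw [hw, InnerProductSpace.toDual_symm_apply, hge]
  have hext : ∀ u u' : K, (∀ z, ⟪u, J z⟫_ℂ = ⟪u', J z⟫_ℂ) → u = u' := by
    intro u u' h
    refine ext_inner_right ℂ fun v => ?_
    exact congrFun (hdense.equalizer (by fun_prop) (by fun_prop) (funext h)) v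
  have hwn : ∀ a, ‖w a‖ ≤ Real.sqrt (sc a) := by
    intro a
    rw [hw, LinearIsometryEquiv.norm_map]
    refine ContinuousLinearMap.opNorm_le_bound _ (Real.sqrt_nonneg _) fun v => ?_
    refine hdense.induction_on v (isClosed_le (by fun_prop) (by fun_prop)) fun z => ?_
    rw [hge]
    exact hgb a z
  let wl : carrierMod M →ₗ[ℂ] K :=
    { toFun := w
      map_add' := fun a b => hext _ _ fun z => by
        rw [inner_add_left, hwi, hwi, hwi, Submodule.coe_add, star_add, add_mul, map_add]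
      map_smul' := fun c a => hext _ _ fun z => by
        rw [RingHom.id_apply, inner_smul_left, hwi, hwi, Submodule.coe_smul, star_smul,
          smul_mul_assoc, map_smul, smul_eq_mul]
        rfl }
  set T : K →L[ℂ] K := wl.extendOfNorm J with hT
  have hTJ : ∀ a, T (J a) = w a := fun a =>
    LinearMap.extendOfNorm_eq hdense ⟨1, fun a => by
      rw [one_mul]; exact (hwn a).trans (hscJ a)⟩ a
  set T' : Amp H →L[ℂ] Amp H := K.subtypeL ∘L (T ∘L K.orthogonalProjectionOnto) with hT'
  have hTJ' : ∀ a, T' (J₀ a) = (w a : Amp H) := fun a => by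
    show ((T (K.orthogonalProjectionOnto (J a : Amp H))) : Amp H) = _
    rw [Submodule.orthogonalProjectionOnto_mem_subspace_eq_self, hTJ]
  have hsym : ∀ a z, ⟪T (J a), J z⟫_ℂ = φ (star a.1 * z.1) := fun a z => by rw [hTJ, hwi]
  have hTpos : T'.IsPositive := by
    refine ⟨?_, fun v => ?_⟩
    · intro v v'
      show ⟪((T (K.orthogonalProjectionOnto v)) : Amp H), v'⟫_ℂ =
        ⟪v, ((T (K.orthogonalProjectionOnto v')) : Amp H)⟫_ℂ
      rw [← Submodule.inner_orthogonalProjectionOnto_eq_of_mem_left,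
        ← Submodule.inner_orthogonalProjectionOnto_eq_of_mem_right]
      generalize K.orthogonalProjectionOnto v = p
      generalize K.orthogonalProjectionOnto v' = p'
      refine hdense.induction_on p (isClosed_eq (by fun_prop) (by fun_prop)) fun a => ?_
      refine hdense.induction_on p' (isClosed_eq (by fun_prop) (by fun_prop)) fun z => ?_
      rw [hsym, ← inner_conj_symm (J a), hsym]
      obtain ⟨t, -, e1⟩ := hpos (a.1 + z.1) (add_mem a.2 z.2)
      obtain ⟨t', -, e2⟩ := hpos (a.1 + Complex.I • z.1)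
        (add_mem a.2 (SMulMemClass.smul_mem (s := M.toStarSubalgebra) _ z.2))
      obtain ⟨t₁, -, e3⟩ := hpos a.1 a.2
      obtain ⟨t₂, -, e4⟩ := hpos z.1 z.2
      simp only [star_add, add_mul, mul_add, map_add, e3, e4] at e1
      simp only [star_add, star_smul, add_mul, mul_add, smul_mul_assoc, mul_smul_comm, map_add,
        map_smul, smul_eq_mul, Complex.star_def, Complex.conj_I, e3, e4] at e2
      set P := φ (star a.1 * z.1)
      set P' := φ (star z.1 * a.1)
      have i1 := congrArg Complex.im e1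
      have i2 := congrArg Complex.im e2
      simp at i1 i2
      apply Complex.ext <;> simp <;> linarith
    · rw [ContinuousLinearMap.reApplyInnerSelf_apply]
      show 0 ≤ RCLike.re ⟪((T (K.orthogonalProjectionOnto v)) : Amp H), v⟫_ℂ
      rw [← Submodule.inner_orthogonalProjectionOnto_eq_of_mem_left]
      generalize K.orthogonalProjectionOnto v = p
      refine hdense.induction_on p (isClosed_le (by fun_prop) (by fun_prop)) fun a => ?_
      rw [hsym]
      exact hsc0 a
  have hcomm : ∀ x ∈ M, Commute T' (amp x) := by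
    intro x hx
    have inv : ∀ x ∈ M, ∀ v ∈ K, amp x v ∈ K := by
      intro x hx v hv
      refine map_mem_closure (amp x).continuous hv ?_
      rintro _ ⟨y, rfl⟩
      exact ⟨⟨x * y.1, (mul_mem hx y.2 : x * y.1 ∈ M)⟩, by ext n; rfl⟩
    have hP := Semi.commute_starProjection K (inv x hx) (fun v hv => by
      rw [star_amp]; exact inv _ (star_mem hx) v hv)
    have hPc : ∀ v, (K.orthogonalProjectionOnto (amp x v) : Amp H) =
        amp x (K.orthogonalProjectionOnto v) := fun v =>
      (congrArg (fun U : Amp H →L[ℂ] Amp H => U v) hP).symm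
    refine ContinuousLinearMap.ext fun v => ?_
    show ((T (K.orthogonalProjectionOnto (amp x v))) : Amp H) =
      amp x ((T (K.orthogonalProjectionOnto v)) : Amp H)
    have e : K.orthogonalProjectionOnto (amp x v) =
        ⟨amp x (K.orthogonalProjectionOnto v), inv x hx _ (K.orthogonalProjectionOnto v).2⟩ :=
      Subtype.ext (hPc v)
    rw [e]
    generalize K.orthogonalProjectionOnto v = p
    refine hdense.induction_on p (isClosed_eq (by fun_prop) (by fun_prop)) fun a => ?_
    have e1 : (⟨amp x (J a), inv x hx _ (J a).2⟩ : K) = J ⟨x * a.1, (mul_mem hx a.2 : x * a.1 ∈ M)⟩ := by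
      apply Subtype.ext
      ext n
      rfl
    rw [e1]
    show _ = ((⟨amp x (T (J a)), inv x hx _ (T (J a)).2⟩ : K) : Amp H)
    refine congrArg Subtype.val (hext _ _ fun z => ?_)
    rw [hsym]
    have e2 : ⟪(⟨amp x (T (J a)), inv x hx _ (T (J a)).2⟩ : K), J z⟫_ℂ =
        ⟪T (J a), J ⟨star x * z.1, (mul_mem (star_mem hx) z.2 : star x * z.1 ∈ M)⟩⟫_ℂ := by
      rw [Submodule.coe_inner, Submodule.coe_inner]
      show ⟪amp x (T (J a) : Amp H), amp z.1 Z⟫_ℂ = ⟪(T (J a) : Amp H), amp (star x * z.1) Z⟫_ℂ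
      rw [amp_mul, mul_apply_eq_comp, ← star_amp, ContinuousLinearMap.star_eq_adjoint,
        ContinuousLinearMap.adjoint_inner_right]
    rw [e2, hsym, star_mul, mul_assoc]
  obtain ⟨S, hSS, hSc'⟩ := exists_root T' hTpos
  have hSc : ∀ x ∈ M, S * amp x = amp x * S := fun x hx => hSc' _ (hcomm x hx)
  refine ⟨fun n => S Z n, summable_amp _, fun y hy => ?_⟩
  have h1 : (1 : H →L[ℂ] H) ∈ carrierMod M := one_mem M
  have e : (∑' n, ⟪S Z n, y (S Z n)⟫_ℂ) = ⟪S Z, amp y (S Z)⟫_ℂ :=
    (lp.inner_eq_tsum (𝕜 := ℂ) (S Z) (amp y (S Z))).symm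
  rw [e, ← mul_apply_eq_comp (amp y) S, ← hSc y hy, mul_apply_eq_comp,
    ← ContinuousLinearMap.adjoint_inner_left, ← mul_apply_eq_comp (ContinuousLinearMap.adjoint S),
    hSS]
  have hZ1 : T' Z = (w ⟨1, h1⟩ : Amp H) := by
    rw [← hTJ']
    congr 1
  rw [hZ1]
  show _ = ⟪(w ⟨1, h1⟩ : Amp H), (J ⟨y, hy⟩ : Amp H)⟫_ℂ
  rw [← Submodule.coe_inner, hwi]
  simp

end Vale.Agent.P078.Type3
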