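import Mathlib
import Vale.Agent.P078.SingCentral
import Vale.Agent.P078.Type3.VecRep

/-! Centralised functionals given by vectors. -/

noncomputable section

open scoped InnerProductSpace ComplexOrder
open Filter Topology

namespace Vale.Agent.P078.Type3

universe u

open Semi Semi.Ctx Sing

variable {H : Type u} [NormedAddCommGroup H] [InnerProductSpace ℂ H] [CompleteSpace H]
variable {M : VonNeumannAlgebra H} {A : StarSubalgebra ℂ (H →L[ℂ] H)}
variable (F : Finset H) {r : H →L[ℂ] H}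

/-- a square summable family whose functional on `M` is centralised by `A` -/
def IsCentralFamily (M : VonNeumannAlgebra H) (A : StarSubalgebra ℂ (H →L[ℂ] H)) (η : ℕ → H) :
    Prop :=
  Summable (fun n => ‖η n‖ ^ 2) ∧ ∀ a ∈ A, ∀ x ∈ M,
    (∑' n, ⟪η n, (a * x) (η n)⟫_ℂ) = ∑' n, ⟪η n, (x * a) (η n)⟫_ℂ

/-- `A` lies in the centraliser of a faithful normal positive functional given by vectors. -/
def HasFaithfulCentralState (M : VonNeumannAlgebra H) (A : StarSubalgebra ℂ (H →L[ℂ] H)) : Prop :=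
  ∃ η : ℕ → H, IsCentralFamily M A η ∧ ∀ x ∈ M, (∀ n, x (η n) = 0) → x = 0

lemma sqrt_nn_add_le (hAc : ∀ a ∈ A, ∀ b ∈ A, a * b = b * a) (v w : H →L[ℂ] H) :
    Real.sqrt (nn F hAc (v + w)) ≤ Real.sqrt (nn F hAc v) + Real.sqrt (nn F hAc w) := by
  rw [Real.sqrt_le_left (by positivity)]
  have e : nn F hAc (v + w) = nn F hAc v + nn F hAc w +
      ((om F hAc (star v * w)).re + (om F hAc (star w * v)).re) := by
    simp only [nn, star_add, add_mul, mul_add, om_add, Complex.add_re]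
    ring
  have h1 := (Complex.re_le_norm _).trans (norm_om_le_sqrt F hAc v w)
  have h2 := (Complex.re_le_norm _).trans (norm_om_le_sqrt F hAc w v)
  rw [e, add_sq, Real.sq_sqrt (nn_nonneg F hAc v), Real.sq_sqrt (nn_nonneg F hAc w)]
  linarith

lemma dominated_zz (hA : IsMASA M A) (hrp : IsStarProjection r) (hrM : r ∈ M) (η : H)
    (hdom : ∀ w ∈ M, w * r = w → nn F hA.2.1 w ≤ ‖w η‖ ^ 2) (Q : WPart A (1 : H →L[ℂ] H))
    {y : H →L[ℂ] H} (hy : y ∈ M) :
    nn F hA.2.1 (y * zz r Q) ≤ Q.n * ∑ k, ‖y (Q.f k (r η))‖ ^ 2 := by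
  have e : y * zz r Q = ∑ k, y * (Q.f k * r * Q.f k) := by
    rw [zz, WPart.pinch, Finset.mul_sum]
  rw [e]
  refine (nn_sum_le F hA.2.1 _ _).trans ?_
  rw [Finset.card_univ, Fintype.card_fin]
  refine mul_le_mul_of_nonneg_left (Finset.sum_le_sum fun k _ => ?_) (Nat.cast_nonneg _)
  rw [show y * (Q.f k * r * Q.f k) = (y * Q.f k * r) * Q.f k by simp only [mul_assoc]]
  refine (nn_mul_proj_le F hA.2.1 (Q.mem k) (Q.proj k) _).trans ?_
  exact hdom _ (mul_mem (mul_mem hy (hA.1 (Q.mem k))) hrM)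
    (by rw [mul_assoc, hrp.isIdempotentElem.eq])

/-- a centralised limit of sandwiched functionals, with a rate -/
theorem exists_sandwich_limit (hA : IsMASA M A) (hrp : IsStarProjection r) (hrM : r ∈ M) (η : H)
    (hdom : ∀ w ∈ M, w * r = w → nn F hA.2.1 w ≤ ‖w η‖ ^ 2) (hpos : 0 < nn F hA.2.1 r) :
    ∃ (φ : (H →L[ℂ] H) →ₗ[ℂ] ℂ) (Q : ℕ → WPart A (1 : H →L[ℂ] H)), φ 1 ≠ 0 ∧
      (∀ y, Tendsto (fun n => fQ F hA.2.1 r (Q n) y) atTop (𝓝 (φ y))) ∧
      (∀ n, nn F hA.2.1 (zz r (Q (n + 1)) - zz r (Q n)) ≤ (1 / 16) ^ n) ∧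
      ∀ a ∈ A, ∀ y ∈ M, φ (a * y) = φ (y * a) := by
  classical
  have hAc := hA.2.1
  have hrs := hrp.isSelfAdjoint
  set b : WPart A (1 : H →L[ℂ] H) → ℝ := fun Q => nn F hAc (zz r Q) with hb
  have hb0 : ∀ Q, 0 ≤ b Q := fun Q => nn_nonneg F hAc _
  set β := ⨅ Q, b Q with hβ
  have hbdd : BddBelow (Set.range b) := ⟨0, by rintro _ ⟨Q, rfl⟩; exact hb0 Q⟩
  have hβle : ∀ Q, β ≤ b Q := fun Q => ciInf_le hbdd Q
  have hchoice : ∀ n : ℕ, ∃ Q, b Q < β + (1 / 16) ^ n := fun n =>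
    exists_lt_of_ciInf_lt (by rw [← hβ]; linarith [show (0 : ℝ) < (1 / 16) ^ n by positivity])
  choose Q₀ hQ₀ using hchoice
  set Q : ℕ → WPart A (1 : H →L[ℂ] H) := fun n =>
    Nat.rec (Q₀ 0) (fun k P => P.meet hAc (Q₀ (k + 1))) n with hQ
  have hQstep : ∀ n, Q n ≤ Q (n + 1) := fun n => WPart.le_meet_left hAc (Q n) (Q₀ (n + 1))
  have hQmono : Monotone Q := monotone_nat_of_le_succ hQstep
  have hQb : ∀ n, b (Q n) ≤ β + (1 / 16) ^ n := by
    intro n
    cases n with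
    | zero => exact (hQ₀ 0).le
    | succ k =>
      exact (nn_zz_anti F hAc hrs (WPart.le_meet_right hAc (Q k) (Q₀ (k + 1)))).trans (hQ₀ (k + 1)).le
  set B := b (Q 0) with hB
  have hclose : ∀ n R, Q n ≤ R → ∀ y, ‖fQ F hAc r (Q n) y - fQ F hAc r R y‖ ≤
      2 * ‖y‖ * Real.sqrt B * Real.sqrt ((1 / 16) ^ n) := by
    intro n R hR y
    refine (norm_fQ_sub_le F hAc hrs hR (nn_zz_anti F hAc hrs (hQmono (Nat.zero_le n))) y).trans ?_
    refine mul_le_mul_of_nonneg_left (Real.sqrt_le_sqrt ?_) (by positivity)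
    have h1 := hQb n
    have h2 := hβle R
    simp only [hb] at h1 h2
    linarith
  have hsq : Tendsto (fun n : ℕ => Real.sqrt ((1 / 16 : ℝ) ^ n)) atTop (𝓝 0) := by
    simpa using (tendsto_pow_atTop_nhds_zero_of_lt_one (by norm_num : (0 : ℝ) ≤ 1 / 16) (by norm_num)).sqrt
  have hcau : ∀ y, CauchySeq fun n => fQ F hAc r (Q n) y := by
    intro y
    refine cauchySeq_of_le_tendsto_0' (fun n => 2 * ‖y‖ * Real.sqrt B * Real.sqrt ((1 / 16) ^ n))
      (fun n m hnm => ?_) (by simpa using hsq.const_mul (2 * ‖y‖ * Real.sqrt B))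
    rw [dist_eq_norm]
    exact hclose n (Q m) (hQmono hnm) y
  choose f hf using fun y => cauchySeq_tendsto_of_complete (hcau y)
  let φ : (H →L[ℂ] H) →ₗ[ℂ] ℂ :=
    { toFun := f
      map_add' := fun y z => tendsto_nhds_unique (hf (y + z))
        (((hf y).add (hf z)).congr fun n => ((fQ F hAc r (Q n)).map_add y z).symm)
      map_smul' := fun c y => tendsto_nhds_unique (hf (c • y))
        (((hf y).const_mul c).congr fun n => ((fQ F hAc r (Q n)).map_smul c y).symm) }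
  have hφ : ∀ y, Tendsto (fun n => fQ F hAc r (Q n) y) atTop (𝓝 (φ y)) := hf
  have hφclose : ∀ n y, ‖fQ F hAc r (Q n) y - φ y‖ ≤
      2 * ‖y‖ * Real.sqrt B * Real.sqrt ((1 / 16) ^ n) := fun n y =>
    le_of_tendsto ((tendsto_const_nhds.sub (hφ y)).norm)
      ((eventually_ge_atTop n).mono fun m hm => hclose n (Q m) (hQmono hm) y)
  refine ⟨φ, Q, ?_, hφ, fun n => ?_, ?_⟩
  · have hone : ∀ n, fQ F hAc r (Q n) 1 = (b (Q n) : ℂ) := fun n => by
      rw [fQ_apply, mul_one]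
      conv_lhs => arg 3; arg 1; rw [← zz_star hrs]
      exact om_self F hAc _
    have hmass : 0 < mass F := by
      refine lt_of_le_of_ne (mass_nonneg F) fun h => ?_
      have := nn_le_of_norm_le F hAc (a := r) (b := 1) (c := ‖r‖) fun v => by
        simpa using r.le_opNorm v
      rw [nn_one, ← h, mul_zero] at this
      linarith
    have hlow : ∀ R, nn F hAc r ^ 2 / mass F ≤ b R := by
      intro R
      rw [div_le_iff₀ hmass]
      have e : om F hAc (star 1 * zz r R) = (nn F hAc r : ℂ) := by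
        rw [star_one, one_mul, zz, om_pinch, ← om_self F hAc r, hrs.star_eq,
          hrp.isIdempotentElem.eq]
      have := norm_om_star_mul_sq_le F hAc 1 (zz r R)
      rw [e, nn_one, Complex.norm_real, Real.norm_eq_abs, sq_abs] at this
      linarith
    intro h0
    have h1 : Tendsto (fun n => b (Q n)) atTop (𝓝 0) := by
      have h2 := (Complex.continuous_re.tendsto _).comp (hφ 1)
      rw [h0] at h2
      simpa [Function.comp_def, hone] using h2
    have h3 : nn F hAc r ^ 2 / mass F ≤ 0 :=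
      ge_of_tendsto h1 (Eventually.of_forall fun n => hlow _)
    have : 0 < nn F hAc r ^ 2 / mass F := by positivity
    linarith
  · have e : zz r (Q (n + 1)) - zz r (Q n) = -(zz r (Q n) - zz r (Q (n + 1))) := (neg_sub _ _).symm
    have e' : nn F hAc (zz r (Q (n + 1)) - zz r (Q n)) =
        nn F hAc (zz r (Q n)) - nn F hAc (zz r (Q (n + 1))) := by
      rw [← nn_zz_sub F hAc hrs (hQstep n), e]
      simp only [nn, star_neg, neg_mul_neg]
    rw [e']
    have h1 := hQb n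
    have h2 := hβle (Q (n + 1))
    simp only [hb] at h1 h2
    linarith
  · intro a ha y _
    have hproj : ∀ e ∈ A, IsStarProjection e → φ (e * y) = φ (y * e) := by
      intro e he hep
      refine tendsto_nhds_unique (hφ (e * y)) ?_
      refine tendsto_of_tendsto_of_dist (hφ (y * e)) ?_
      refine squeeze_zero (fun _ => dist_nonneg) (fun n => ?_)
        (by simpa only [mul_zero] using hsq.const_mul (2 * Real.sqrt B * (‖y * e‖ + ‖e * y‖)))
      set R := (Q n).meet hAc (WPart.split hAc (one_mem A) (IsStarProjection.one _) e he hep)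
      have hc : e * zz r R = zz r R * e := by
        rw [zz, WPart.pinch, Finset.mul_sum, Finset.sum_mul]
        refine Finset.sum_congr rfl fun k _ => ?_
        have e1 := WPart.eq_or_zero_of_split hAc (one_mem A) (IsStarProjection.one _) e he hep
          (WPart.le_meet_right hAc (Q n) _ : _ ≤ R) k
        have e2 : R.f k * e = e * R.f k := hAc _ (R.mem k) _ he
        rw [← mul_assoc, ← mul_assoc, mul_assoc (R.f k * r), e2]
        rcases e1 with h | h <;> rw [h] <;> simp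
      have heq : fQ F hAc r R (e * y) = fQ F hAc r R (y * e) := by
        rw [fQ_apply, fQ_apply]
        calc om F hAc (zz r R * (e * y) * zz r R) = om F hAc (e * (zz r R * y * zz r R)) := by
              rw [← mul_assoc (zz r R) e y, ← hc]; simp only [mul_assoc]
          _ = om F hAc (zz r R * y * zz r R * e) := om_comm F hAc he hep _
          _ = _ := by
              rw [mul_assoc (zz r R * y), ← hc]; simp only [mul_assoc]
      rw [dist_eq_norm]
      have b1 := hclose n R (WPart.le_meet_left hAc _ _) (y * e)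
      have b2 := hclose n R (WPart.le_meet_left hAc _ _) (e * y)
      have := norm_sub_le_norm_sub_add_norm_sub (fQ F hAc r (Q n) (y * e)) (fQ F hAc r R (y * e))
        (fQ F hAc r (Q n) (e * y))
      rw [norm_sub_rev (fQ F hAc r R (y * e))] at this
      rw [heq] at b2
      linarith
    refine central_extend hA φ (hb0 (Q 0)) (fun z => ?_) hproj ha
    refine le_of_tendsto' (hφ z).norm fun n => ?_
    have hbn : nn F hAc (zz r (Q n)) ≤ B := nn_zz_anti F hAc hrs (hQmono (Nat.zero_le n))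
    rw [fQ_apply, mul_assoc]
    conv_lhs => arg 1; arg 3; arg 1; rw [← zz_star hrs]
    refine (norm_om_le_sqrt F hAc _ _).trans ?_
    have : Real.sqrt (nn F hAc (z * zz r (Q n))) ≤ ‖z‖ * Real.sqrt B := by
      rw [← Real.sqrt_sq (norm_nonneg z), ← Real.sqrt_mul (sq_nonneg _)]
      exact Real.sqrt_le_sqrt ((nn_mul_left_le F hAc _ _).trans
        (mul_le_mul_of_nonneg_left hbn (sq_nonneg _)))
    refine (mul_le_mul (Real.sqrt_le_sqrt hbn) this (Real.sqrt_nonneg _)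
      (Real.sqrt_nonneg _)).trans_eq ?_
    rw [mul_comm ‖z‖, ← mul_assoc, Real.mul_self_sqrt (hb0 _)]


/-- a finite family as a sequence -/
def pad {n : ℕ} (v : Fin n → H) (m : ℕ) : H := if h : m < n then v ⟨m, h⟩ else 0

lemma summable_pad {n : ℕ} (v : Fin n → H) : Summable fun m => ‖pad v m‖ ^ 2 := by
  refine summable_of_ne_finset_zero (s := Finset.range n) fun m hm => ?_
  rw [pad, dif_neg (by simpa using hm)]
  simp

lemma tsum_pad {n : ℕ} (v : Fin n → H) (y : H →L[ℂ] H) :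
    ∑' m, ‖y (pad v m)‖ ^ 2 = ∑ k, ‖y (v k)‖ ^ 2 := by
  rw [tsum_eq_sum (s := Finset.range n) fun m hm => by
    rw [pad, dif_neg (by simpa using hm)]; simp, Finset.sum_range]
  exact Finset.sum_congr rfl fun k _ => by rw [pad, dif_pos k.2]

lemma dominated_zz' (hA : IsMASA M A) (hrp : IsStarProjection r) (hrM : r ∈ M) (η : H)
    (hdom : ∀ w ∈ M, w * r = w → nn F hA.2.1 w ≤ ‖w η‖ ^ 2) (Q Q' : WPart A (1 : H →L[ℂ] H)) :
    ∃ v : ℕ → H, Summable (fun n => ‖v n‖ ^ 2) ∧ ∀ y ∈ M,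
      2 * nn F hA.2.1 (y * zz r Q) + 2 * nn F hA.2.1 (y * zz r Q') ≤
        ∑' n, ‖y (v n)‖ ^ 2 := by
  set u : Fin Q.n → H := fun k => ((Real.sqrt (2 * Q.n) : ℝ) : ℂ) • Q.f k (r η) with hu
  set u' : Fin Q'.n → H := fun k => ((Real.sqrt (2 * Q'.n) : ℝ) : ℂ) • Q'.f k (r η) with hu'
  refine ⟨pad (Fin.append u u'), summable_pad _, fun y hy => ?_⟩
  rw [tsum_pad, Fin.sum_univ_add]
  simp only [Fin.append_left, Fin.append_right]
  have key : ∀ (m : ℕ) (w : H),
      ‖y (((Real.sqrt (2 * m) : ℝ) : ℂ) • w)‖ ^ 2 = 2 * m * ‖y w‖ ^ 2 := by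
    intro m w
    rw [map_smul, norm_smul, mul_pow, Complex.norm_real, Real.norm_eq_abs,
      abs_of_nonneg (Real.sqrt_nonneg _), Real.sq_sqrt (by positivity)]
  simp only [hu, hu', key, ← Finset.mul_sum, mul_assoc]
  exact add_le_add (mul_le_mul_of_nonneg_left (dominated_zz F hA hrp hrM η hdom Q hy) zero_le_two)
    (mul_le_mul_of_nonneg_left (dominated_zz F hA hrp hrM η hdom Q' hy) zero_le_two)

lemma nn_sub_le (hAc : ∀ a ∈ A, ∀ b ∈ A, a * b = b * a) (v w : H →L[ℂ] H) :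
    nn F hAc (v - w) ≤ 2 * nn F hAc v + 2 * nn F hAc w := by
  have e3 : nn F hAc (-w) = nn F hAc w := by simp only [nn, star_neg, neg_mul_neg]
  have h2 := sqrt_nn_add_le F hAc v (-w)
  rw [← sub_eq_add_neg, e3] at h2
  have h3 := pow_le_pow_left₀ (Real.sqrt_nonneg _) h2 2
  rw [Real.sq_sqrt (nn_nonneg F hAc _), add_sq, Real.sq_sqrt (nn_nonneg F hAc _),
    Real.sq_sqrt (nn_nonneg F hAc _)] at h3
  nlinarith [sq_nonneg (Real.sqrt (nn F hAc v) - Real.sqrt (nn F hAc w)),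
    Real.sq_sqrt (nn_nonneg F hAc v), Real.sq_sqrt (nn_nonneg F hAc w)]

lemma step_vectors (hAc : ∀ a ∈ A, ∀ b ∈ A, a * b = b * a) (d : H →L[ℂ] H) {v : ℕ → H}
    (hv : Summable fun n => ‖v n‖ ^ 2)
    (hvdom : ∀ y ∈ M, nn F hAc (y * d) ≤ ∑' n, ‖y (v n)‖ ^ 2) :
    ∃ ζ : ℕ → H, Summable (fun n => ‖ζ n‖ ^ 2) ∧
      ∀ y ∈ M, nn F hAc (y * d) = ∑' n, ‖y (ζ n)‖ ^ 2 := by
  let ψ : (H →L[ℂ] H) →ₗ[ℂ] ℂ :=
    { toFun := fun y => om F hAc (star d * (y * d))
      map_add' := fun y z => by rw [add_mul, mul_add, om_add]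
      map_smul' := fun c y => by
        rw [smul_mul_assoc, mul_smul_comm]
        exact (omL F hAc).map_smul c _ }
  have e : ∀ y z : H →L[ℂ] H, ψ (star y * z) = om F hAc (star (y * d) * (z * d)) := by
    intro y z
    show om F hAc _ = _
    rw [star_mul]
    simp only [mul_assoc]
  have hself : ∀ y : H →L[ℂ] H, ψ (star y * y) = (nn F hAc (y * d) : ℂ) := fun y => by
    rw [e, om_self]
  obtain ⟨ζ, hζ, hζe⟩ := exists_vectors M ψ
    (fun y _ => ⟨_, nn_nonneg F hAc _, hself y⟩) hv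
    (fun y hy => by rw [hself, Complex.ofReal_re]; exact hvdom y hy)
    (fun y _ z _ => by
      rw [hself, hself, Complex.ofReal_re, Complex.ofReal_re, e]
      exact norm_om_star_mul_sq_le F hAc _ _)
  refine ⟨ζ, hζ, fun y hy => ?_⟩
  have h := congrArg Complex.re ((hself y).symm.trans (hζe _ (mul_mem (star_mem hy) hy)))
  rw [Complex.ofReal_re, Complex.re_tsum (by
    refine Summable.of_norm_bounded (hζ.mul_left ‖star y * y‖) fun n => ?_
    refine (norm_inner_le_norm _ _).trans ?_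
    rw [pow_two, mul_left_comm]
    exact mul_le_mul_of_nonneg_left ((star y * y).le_opNorm _) (norm_nonneg _))] at h
  rw [h]
  refine tsum_congr fun n => ?_
  rw [mul_apply_eq_comp, ContinuousLinearMap.star_eq_adjoint,
    ContinuousLinearMap.adjoint_inner_right, inner_self_eq_norm_sq_to_K]
  norm_cast

/-- adding geometrically many families -/
lemma combine (ζ : ℕ → ℕ → H) (hζ : ∀ j, Summable fun n => ‖ζ j n‖ ^ 2) {B : ℝ}
    (hbd : ∀ j, ∑' n, ‖ζ j n‖ ^ 2 ≤ B * (1 / 16) ^ j) :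
    ∃ Z : ℕ → H, Summable (fun p => ‖Z p‖ ^ 2) ∧ ∀ (y : H →L[ℂ] H) (m : ℕ),
      (∑ j ∈ Finset.range m, Real.sqrt (∑' n, ‖y (ζ j n)‖ ^ 2)) ^ 2 ≤ ∑' p, ‖y (Z p)‖ ^ 2 := by
  set Z : ℕ → H := fun p => ((Real.sqrt (2 * 2 ^ (Nat.pairEquiv.symm p).1) : ℝ) : ℂ) •
    ζ (Nat.pairEquiv.symm p).1 (Nat.pairEquiv.symm p).2 with hZ
  have hnorm : ∀ (y : H →L[ℂ] H) (j n : ℕ),
      ‖y (((Real.sqrt (2 * 2 ^ j) : ℝ) : ℂ) • ζ j n)‖ ^ 2 = 2 * 2 ^ j * ‖y (ζ j n)‖ ^ 2 := by
    intro y j n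
    rw [map_smul, norm_smul, mul_pow, Complex.norm_real, Real.norm_eq_abs,
      abs_of_nonneg (Real.sqrt_nonneg _), Real.sq_sqrt (by positivity)]
  have hpair : Summable fun p : ℕ × ℕ => 2 * (2 : ℝ) ^ p.1 * ‖ζ p.1 p.2‖ ^ 2 := by
    have h0 : 0 ≤ fun p : ℕ × ℕ => 2 * (2 : ℝ) ^ p.1 * ‖ζ p.1 p.2‖ ^ 2 := fun p =>
      mul_nonneg (mul_nonneg zero_le_two (pow_nonneg zero_le_two _)) (sq_nonneg _)
    have h1 : ∀ j, Summable fun n => 2 * (2 : ℝ) ^ j * ‖ζ j n‖ ^ 2 := fun j => (hζ j).mul_left _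
    refine (summable_prod_of_nonneg h0).2 ⟨h1, ?_⟩
    show Summable fun j => ∑' n, 2 * (2 : ℝ) ^ j * ‖ζ j n‖ ^ 2
    refine Summable.of_nonneg_of_le (fun j => tsum_nonneg fun n =>
        mul_nonneg (mul_nonneg zero_le_two (pow_nonneg zero_le_two _)) (sq_nonneg _)) (fun j => ?_)
      ((summable_geometric_of_lt_one (by norm_num : (0 : ℝ) ≤ 1 / 8) (by norm_num)).mul_left
        (2 * B))
    rw [tsum_mul_left]
    refine (mul_le_mul_of_nonneg_left (hbd j) (by positivity)).trans_eq ?_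
    rw [show (1 / 8 : ℝ) = 2 * (1 / 16) by norm_num, mul_pow]
    ring
  have hy : ∀ y : H →L[ℂ] H, Summable fun p : ℕ × ℕ => 2 * (2 : ℝ) ^ p.1 * ‖y (ζ p.1 p.2)‖ ^ 2 := by
    intro y
    refine Summable.of_nonneg_of_le
      (fun p => mul_nonneg (mul_nonneg zero_le_two (pow_nonneg zero_le_two _)) (sq_nonneg _))
      (fun p => ?_)
      (hpair.mul_left (‖y‖ ^ 2))
    calc _ ≤ 2 * (2 : ℝ) ^ p.1 * (‖y‖ ^ 2 * ‖ζ p.1 p.2‖ ^ 2) := by
          rw [← mul_pow]
          gcongr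
          exact y.le_opNorm _
      _ = _ := by ring
  refine ⟨Z, ?_, fun y m => ?_⟩
  · exact (Nat.pairEquiv.symm.summable_iff.2 hpair).congr fun p =>
      (by simpa [hZ] using (hnorm 1 (Nat.pairEquiv.symm p).1 (Nat.pairEquiv.symm p).2).symm)
  have e : (∑' p, ‖y (Z p)‖ ^ 2) = ∑' j, ∑' k, 2 * (2 : ℝ) ^ j * ‖y (ζ j k)‖ ^ 2 := by
    refine Eq.trans ?_ (hy y).tsum_prod
    rw [← Nat.pairEquiv.symm.tsum_eq
      (fun p : ℕ × ℕ => 2 * (2 : ℝ) ^ p.1 * ‖y (ζ p.1 p.2)‖ ^ 2)]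
    exact tsum_congr fun p => hnorm y _ _
  rw [e]
  have hn0 : ∀ j, 0 ≤ ∑' n, ‖y (ζ j n)‖ ^ 2 := fun j => tsum_nonneg fun n => sq_nonneg _
  refine le_trans ?_ ((hy y).prod.sum_le_tsum (Finset.range m)
    fun j _ => tsum_nonneg fun k =>
      mul_nonneg (mul_nonneg zero_le_two (pow_nonneg zero_le_two _)) (sq_nonneg _))
  have h1 := Finset.sum_mul_sq_le_sq_mul_sq (Finset.range m)
    (fun j => Real.sqrt ((1 / 2) ^ j)) (fun j => Real.sqrt (2 ^ j * ∑' n, ‖y (ζ j n)‖ ^ 2))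
  have e1 : ∀ j, Real.sqrt ((1 / 2 : ℝ) ^ j) * Real.sqrt (2 ^ j * ∑' n, ‖y (ζ j n)‖ ^ 2) =
      Real.sqrt (∑' n, ‖y (ζ j n)‖ ^ 2) := fun j => by
    rw [← Real.sqrt_mul (by positivity), ← mul_assoc, ← mul_pow]
    norm_num
  simp only [e1] at h1
  refine h1.trans ?_
  have e2 : ∀ j, Real.sqrt ((1 / 2 : ℝ) ^ j) ^ 2 = (1 / 2) ^ j := fun j => Real.sq_sqrt (by positivity)
  have e3 : ∀ j, Real.sqrt (2 ^ j * ∑' n, ‖y (ζ j n)‖ ^ 2) ^ 2 = 2 ^ j * ∑' n, ‖y (ζ j n)‖ ^ 2 :=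
    fun j => Real.sq_sqrt (mul_nonneg (by positivity) (hn0 j))
  simp only [e2, e3]
  rw [Finset.mul_sum]
  refine Finset.sum_le_sum fun j _ => ?_
  rw [tsum_mul_left, mul_assoc]
  exact mul_le_mul_of_nonneg_right (sum_geometric_two_le _) (mul_nonneg (by positivity) (hn0 j))

/-- domination on a corner gives a nonzero centralised family of vectors -/
theorem family_of_dominated (hA : IsMASA M A) (hrp : IsStarProjection r) (hrM : r ∈ M) (η : H)
    (hdom : ∀ w ∈ M, w * r = w → nn F hA.2.1 w ≤ ‖w η‖ ^ 2) (hpos : 0 < nn F hA.2.1 r) :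
    ∃ ζ : ℕ → H, IsCentralFamily M A ζ ∧ ∃ n, ζ n ≠ 0 := by
  obtain ⟨φ, Q, hφ1, hφ, hrate, hcen⟩ := exists_sandwich_limit F hA hrp hrM η hdom hpos
  have hAc := hA.2.1
  have hrs := hrp.isSelfAdjoint
  set d : ℕ → H →L[ℂ] H := fun j =>
    Nat.rec (zz r (Q 0)) (fun i _ => zz r (Q (i + 1)) - zz r (Q i)) j with hd
  have hzd : ∀ n, zz r (Q n) = ∑ j ∈ Finset.range (n + 1), d j := by
    intro n
    induction n with
    | zero => simp [hd]
    | succ n ih => rw [Finset.sum_range_succ, ← ih, hd]; simp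
  have hstep : ∀ j, ∃ ζ : ℕ → H, Summable (fun n => ‖ζ n‖ ^ 2) ∧
      ∀ y ∈ M, nn F hAc (y * d j) = ∑' n, ‖y (ζ n)‖ ^ 2 := by
    intro j
    cases j with
    | zero =>
      obtain ⟨v, hv, h⟩ := dominated_zz' F hA hrp hrM η hdom (Q 0) (Q 0)
      refine step_vectors F hAc _ hv fun y hy => le_trans ?_ (h y hy)
      have := nn_nonneg F hAc (y * zz r (Q 0))
      show nn F hAc (y * zz r (Q 0)) ≤ _
      linarith
    | succ i =>
      obtain ⟨v, hv, h⟩ := dominated_zz' F hA hrp hrM η hdom (Q (i + 1)) (Q i)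
      refine step_vectors F hAc _ hv fun y hy => le_trans ?_ (h y hy)
      show nn F hAc (y * (zz r (Q (i + 1)) - zz r (Q i))) ≤ _
      rw [mul_sub]
      exact nn_sub_le F hAc _ _
  choose ζ hζ hζe using hstep
  have hbd : ∀ j, ∑' n, ‖ζ j n‖ ^ 2 ≤ (nn F hAc (d 0) + 16) * (1 / 16) ^ j := by
    intro j
    have e := hζe j 1 (one_mem M)
    rw [one_mul] at e
    simp only [one_apply_eq_self] at e
    rw [← e]
    cases j with
    | zero => rw [pow_zero, mul_one]; linarith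
    | succ i =>
      have h1 := hrate i
      have h2 : (16 : ℝ) * (1 / 16) ^ (i + 1) = (1 / 16) ^ i := by rw [pow_succ]; ring
      have h3 : 0 ≤ nn F hAc (d 0) * (1 / 16 : ℝ) ^ (i + 1) :=
        mul_nonneg (nn_nonneg F hAc _) (by positivity)
      show nn F hAc (zz r (Q (i + 1)) - zz r (Q i)) ≤ _
      linarith
  obtain ⟨Z, hZs, hZ⟩ := combine ζ hζ hbd
  have hdom' : ∀ y ∈ M, ∀ n, nn F hAc (y * zz r (Q n)) ≤ ∑' p, ‖y (Z p)‖ ^ 2 := by
    intro y hy n
    have hsub : ∀ m, Real.sqrt (nn F hAc (y * ∑ j ∈ Finset.range m, d j)) ≤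
        ∑ j ∈ Finset.range m, Real.sqrt (∑' k, ‖y (ζ j k)‖ ^ 2) := by
      intro m
      induction m with
      | zero =>
        have h0 : nn F hAc (0 : H →L[ℂ] H) = 0 := by
          rw [nn, mul_zero, ← omL_apply, map_zero, Complex.zero_re]
        simp [h0]
      | succ m ih =>
        rw [Finset.sum_range_succ, Finset.sum_range_succ, mul_add, ← hζe m y hy]
        exact (sqrt_nn_add_le F hAc _ _).trans (add_le_add ih le_rfl)
    rw [hzd n]
    refine le_trans ?_ (hZ y (n + 1))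
    exact (Real.sq_sqrt (nn_nonneg F hAc _)).symm.trans_le
      (pow_le_pow_left₀ (Real.sqrt_nonneg _) (hsub _) 2)
  have hfs : ∀ (y z : H →L[ℂ] H) n, fQ F hAc r (Q n) (star y * z) =
      om F hAc (star (y * zz r (Q n)) * (z * zz r (Q n))) := by
    intro y z n
    rw [fQ_apply, star_mul, zz_star hrs]
    simp only [mul_assoc]
  have hre : ∀ y : H →L[ℂ] H, Tendsto (fun n => nn F hAc (y * zz r (Q n))) atTop
      (𝓝 (φ (star y * y)).re) := fun y =>
    ((Complex.continuous_re.tendsto _).comp (hφ (star y * y))).congr fun n => by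
      simp only [Function.comp_def, hfs, om_self, Complex.ofReal_re]
  obtain ⟨η', hη', hφe⟩ := exists_vectors M φ (fun y _ => by
      refine ⟨(φ (star y * y)).re, ge_of_tendsto' (hre y) fun n => nn_nonneg F hAc _,
        Complex.ext (by simp) ?_⟩
      rw [Complex.ofReal_im]
      refine tendsto_nhds_unique ((Complex.continuous_im.tendsto _).comp (hφ (star y * y)))
        (tendsto_const_nhds.congr fun n => ?_)
      simp only [Function.comp_def, hfs, om_self, Complex.ofReal_im]) hZs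
    (fun y hy => le_of_tendsto' (hre y) (hdom' y hy))
    (fun y _ z _ => le_of_tendsto_of_tendsto' ((hφ (star y * z)).norm.pow 2)
      ((hre y).mul (hre z)) fun n => by rw [hfs]; exact norm_om_star_mul_sq_le F hAc _ _)
  refine ⟨η', ⟨hη', fun a ha x hx => ?_⟩, ?_⟩
  · rw [← hφe _ (mul_mem (hA.1 ha) hx), ← hφe _ (mul_mem hx (hA.1 ha))]
    exact hcen a ha x hx
  · by_contra h
    push Not at h
    refine hφ1 ?_
    rw [hφe 1 (one_mem M)]
    simp [h]

end Vale.Agent.P078.Type3
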