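import Mathlib
import Vale.Agent.P078.Bridge
import Vale.Agent.P078.Type3.Defs
import Vale.Agent.P078.Type3.VecCentral

/-! From a faithful centralised family of vectors to the abstract interface. -/

noncomputable section

open scoped InnerProductSpace ComplexOrder
open Filter Topology

namespace Vale.Agent.P078.T3

universe u

variable {H : Type u} [NormedAddCommGroup H] [InnerProductSpace ℂ H] [CompleteSpace H]

section Small

variable {η : ℕ → H} (hη : Summable fun n => ‖η n‖ ^ 2)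
include hη

open Bridge

/-- contractions small in the 2-norm are small on each vector -/
lemma exists_delta' (M : VonNeumannAlgebra H)
    (hfaith : ∀ x ∈ M, (∀ n, x (η n) = 0) → x = 0) (ξ : H) {δ : ℝ} (hδ : 0 < δ) :
    ∃ d > 0, ∀ s ∈ M, ‖s‖ ≤ 1 → trFun η (star s * s) ≤ d → ‖s ξ‖ < δ := by
  have key : ∀ v ∈ (Submodule.span ℂ {v : H | ∃ y ∈ M.commutant, ∃ n, v = y (η n)} :
      Submodule ℂ H), ∀ ε > 0, ∃ d > 0, ∀ s ∈ M,
        trFun η (star s * s) ≤ d → ‖s v‖ < ε := by
    intro v hv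
    induction hv using Submodule.span_induction with
    | mem v hv =>
      obtain ⟨y, hy, n, rfl⟩ := hv
      intro ε hε
      refine ⟨(ε / (‖y‖ + 1)) ^ 2, by positivity, fun s hs hd => ?_⟩
      have h1 : ‖s (η n)‖ ≤ ε / (‖y‖ + 1) := by
        refine (pow_le_pow_iff_left₀ (norm_nonneg _) (by positivity) two_ne_zero).1 ?_
        rw [trFun_star_mul_self] at hd
        exact ((summable_sq hη s).le_tsum n fun m _ => sq_nonneg _).trans hd
      have h2 : s (y (η n)) = y (s (η n)) :=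
        (congrArg (fun T : H →L[ℂ] H => T (η n)) (commute_of_mem hs hy)).symm
      rw [h2]
      calc ‖y (s (η n))‖ ≤ ‖y‖ * ‖s (η n)‖ := y.le_opNorm _
        _ ≤ ‖y‖ * (ε / (‖y‖ + 1)) := by gcongr
        _ < ε := by
          rw [mul_div_assoc', div_lt_iff₀ (by positivity)]
          nlinarith [norm_nonneg y]
    | zero => exact fun ε hε => ⟨1, one_pos, fun s _ _ => by simpa using hε⟩
    | add a b _ _ ha hb =>
      intro ε hε
      obtain ⟨d₁, hd₁, h₁⟩ := ha (ε / 2) (half_pos hε)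
      obtain ⟨d₂, hd₂, h₂⟩ := hb (ε / 2) (half_pos hε)
      refine ⟨min d₁ d₂, lt_min hd₁ hd₂, fun s hs hd => ?_⟩
      rw [map_add]
      exact (norm_add_le _ _).trans_lt (by
        linarith [h₁ s hs (hd.trans (min_le_left _ _)), h₂ s hs (hd.trans (min_le_right _ _))])
    | smul c a _ ha =>
      intro ε hε
      obtain ⟨d, hd, h⟩ := ha (ε / (‖c‖ + 1)) (by positivity)
      refine ⟨d, hd, fun s hs hd' => ?_⟩
      rw [map_smul, norm_smul]
      have := h s hs hd'
      rw [lt_div_iff₀ (by positivity)] at this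
      nlinarith [norm_nonneg c, norm_nonneg (s a)]
  obtain ⟨v, hv, hvξ⟩ := Metric.mem_closure_iff.1 (dense_commutant_span M η hfaith ξ) (δ / 2)
    (half_pos hδ)
  obtain ⟨d, hd, h⟩ := key v hv (δ / 2) (half_pos hδ)
  refine ⟨d, hd, fun s hs hs1 hd' => ?_⟩
  have h3 : ‖s (ξ - v)‖ ≤ dist ξ v := by
    rw [dist_eq_norm]
    exact (s.le_opNorm _).trans (mul_le_of_le_one_left (norm_nonneg _) hs1)
  calc ‖s ξ‖ = ‖s (ξ - v) + s v‖ := by rw [← map_add, sub_add_cancel]
    _ ≤ ‖s (ξ - v)‖ + ‖s v‖ := norm_add_le _ _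
    _ < δ := by linarith [h s hs hd']

/-- conjugation by a fixed element keeps small contractions small -/
lemma exists_small_conj (M : VonNeumannAlgebra H)
    (hfaith : ∀ x ∈ M, (∀ n, x (η n) = 0) → x = 0) (z : H →L[ℂ] H) {ε : ℝ} (hε : 0 < ε) :
    ∃ d, 0 < d ∧ ∀ s ∈ M, ‖s‖ ≤ 1 → trFun η (star s * s) ≤ d →
      trFun η (star z * (star s * s) * z) ≤ ε := by
  have hz : Summable fun n => ‖z (η n)‖ ^ 2 := summable_sq hη z
  obtain ⟨S, hS⟩ : ∃ S : Finset ℕ, ∑' n, ‖z (η n)‖ ^ 2 < (∑ n ∈ S, ‖z (η n)‖ ^ 2) + ε / 2 := by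
    have := (hz.hasSum.eventually (eventually_gt_nhds
      (show ∑' n, ‖z (η n)‖ ^ 2 - ε / 2 < ∑' n, ‖z (η n)‖ ^ 2 by linarith))).exists
    obtain ⟨S, hS⟩ := this
    exact ⟨S, by linarith⟩
  set b : ℝ := Real.sqrt (ε / (2 * ((S.card : ℝ) + 1))) with hb
  have hb0 : 0 < b := by positivity
  choose d hd hds using fun n => exists_delta' hη M hfaith (z (η n)) hb0
  obtain ⟨d', hd', hd'S⟩ : ∃ d' > 0, ∀ n ∈ S, d' ≤ d n := by
    rcases S.eq_empty_or_nonempty with rfl | hne
    · exact ⟨1, one_pos, by simp⟩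
    · exact ⟨S.inf' hne d, (Finset.lt_inf'_iff hne).2 fun ξ _ => hd ξ,
        fun ξ hξ => Finset.inf'_le d hξ⟩
  refine ⟨d', hd', fun s hs hs1 hsd => ?_⟩
  have e : trFun η (star z * (star s * s) * z) = ∑' n, ‖s (z (η n))‖ ^ 2 := by
    rw [← mul_assoc (star z), mul_assoc (star z * star s), ← star_mul, trFun_star_mul_self]
    rfl
  rw [e]
  have hsz : Summable fun n => ‖s (z (η n))‖ ^ 2 := summable_sq hη (s * z)
  rw [← hsz.sum_add_tsum_compl (s := S)]
  have h1 : ∑ n ∈ S, ‖s (z (η n))‖ ^ 2 ≤ ε / 2 := by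
    refine (Finset.sum_le_sum (g := fun _ => b ^ 2) fun n hn => ?_).trans ?_
    · exact pow_le_pow_left₀ (norm_nonneg _) (hds n s hs hs1 (hsd.trans (hd'S n hn))).le 2
    · rw [Finset.sum_const, nsmul_eq_mul, hb, Real.sq_sqrt (by positivity), mul_div_assoc',
        div_le_iff₀ (by positivity)]
      nlinarith [Nat.cast_nonneg (α := ℝ) S.card]
  have h2 : ∑' n : ↑((S : Set ℕ)ᶜ), ‖s (z (η n))‖ ^ 2 ≤ ε / 2 := by
    refine le_trans (Summable.tsum_le_tsum (g := fun n : ↑((S : Set ℕ)ᶜ) => ‖z (η n)‖ ^ 2)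
      (fun n => pow_le_pow_left₀ (norm_nonneg _)
        ((s.le_opNorm _).trans (mul_le_of_le_one_left (norm_nonneg _) hs1)) 2)
      (hsz.subtype _) (hz.subtype _)) ?_
    linarith [hz.sum_add_tsum_compl (s := S)]
  linarith

end Small

section Main

variable {M : VonNeumannAlgebra H} {A : StarSubalgebra ℂ (H →L[ℂ] H)}
  (Ω : Type u) [TopologicalSpace Ω] [CompactSpace Ω] [T2Space Ω]

open Bridge in
/-- The transfer, for any presentation of the self-adjoint part of `A`. -/
lemma soPavable_aux3 {ε : ℝ} {r : ℕ}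
    (hcore : ∀ (M : Type u) [CStarAlgebra M] [PartialOrder M] [StarOrderedRing M]
      (Ω : Type u) [TopologicalSpace Ω] [CompactSpace Ω] [T2Space Ω] (T : SMasa M Ω) (x : M),
      IsSelfAdjoint x → T.Pavable x ε r)
    {η : ℕ → H} (hη : Summable fun n => ‖η n‖ ^ 2) (hη1 : ∑' n, ‖η n‖ ^ 2 = 1)
    (hcen : Type3.IsCentralFamily M A η)
    (hfaith : ∀ x ∈ M, (∀ n, x (η n) = 0) → x = 0) (hA : IsMASA M A)
    (e : C(Ω, ℝ) →ₐ[ℝ] (H →L[ℂ] H)) (heA : ∀ f, e f ∈ A) (hesa : ∀ f, IsSelfAdjoint (e f))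
    (henorm : ∀ f, ‖e f‖ = ‖f‖)
    (hrep : ∀ a ∈ A, ∃ f g, a = e f + Complex.I • e g ∧ (IsSelfAdjoint a → a = e f))
    (x : H →L[ℂ] H) (hxM : x ∈ M) (hx : IsSelfAdjoint x) : SoPavable M A x ε r := by
  have : IsClosed ((M.toStarSubalgebra : Set (H →L[ℂ] H))) := isClosed_vna M
  let _ : CStarAlgebra M.toStarSubalgebra := StarSubalgebra.cstarAlgebra M.toStarSubalgebra
  let _ : PartialOrder M.toStarSubalgebra := CStarAlgebra.spectralOrder M.toStarSubalgebra
  have : StarOrderedRing M.toStarSubalgebra := CStarAlgebra.spectralOrderedRing M.toStarSubalgebra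
  let emb : C(Ω, ℝ) →ₐ[ℝ] M.toStarSubalgebra :=
    e.codRestrict (M.toStarSubalgebra.toSubalgebra.restrictScalars ℝ) fun f => hA.1 (heA f)
  have hemb : ∀ f, ((emb f : M.toStarSubalgebra) : H →L[ℂ] H) = e f := fun f => rfl
  let T : SMasa M.toStarSubalgebra Ω :=
    { tr :=
        { toFun := fun y => trFun η (y : H →L[ℂ] H)
          map_add' := fun y z => trFun_add hη _ _
          map_smul' := fun c y => by
            simp only [trFun, smul_eq_mul, RingHom.id_apply, ← tsum_mul_left]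
            refine tsum_congr fun n => ?_
            simp [inner_smul_right_eq_smul] }
      emb := emb
      central := fun f y => by
        show trFun η (e f * (y : H →L[ℂ] H)) = trFun η ((y : H →L[ℂ] H) * e f)
        rw [trFun, trFun, ← Complex.re_tsum (summable_inner hη _),
          ← Complex.re_tsum (summable_inner hη _)]
        exact congrArg Complex.re (hcen.2 _ (heA f) _ y.2)
      tr_star := fun y => trFun_star _
      tr_one := by
        show trFun η (1 : H →L[ℂ] H) = 1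
        rw [trFun, ← hη1]
        refine tsum_congr fun n => ?_
        simp [inner_self_eq_norm_sq_to_K, ← Complex.ofReal_pow]
      tr_star_mul_self := fun y => by
        show 0 ≤ trFun η (star (y : H →L[ℂ] H) * y)
        rw [trFun_star_mul_self]
        exact tsum_nonneg fun n => sq_nonneg _
      tr_faithful := fun y hy => by
        have hy : trFun η (star (y : H →L[ℂ] H) * y) = 0 := hy
        rw [trFun_star_mul_self] at hy
        refine Subtype.ext (hfaith _ y.2 fun n => ?_)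
        have h1 := (summable_sq hη (y : H →L[ℂ] H)).le_tsum n fun m _ => sq_nonneg _
        rw [hy] at h1
        exact norm_eq_zero.1 (pow_eq_zero_iff two_ne_zero |>.1 (le_antisymm h1 (sq_nonneg _)))
      small := fun z ε hε => by
        obtain ⟨d, hd, h⟩ := exists_small_conj hη M hfaith (z : H →L[ℂ] H) hε
        refine ⟨d, hd, fun y hy hy1 hyd => ?_⟩
        have hs : IsSelfAdjoint (CFC.sqrt y) := (CFC.sqrt_nonneg y).isSelfAdjoint
        have hss : CFC.sqrt y * CFC.sqrt y = y := CFC.sqrt_mul_sqrt_self y hy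
        set s : H →L[ℂ] H := ((CFC.sqrt y : M.toStarSubalgebra) : H →L[ℂ] H) with hsdef
        have hsy : star s * s = (y : H →L[ℂ] H) := by
          have := congrArg Subtype.val ((congrArg (· * CFC.sqrt y) hs.star_eq).trans hss)
          exact this
        have hs1 : ‖s‖ ≤ 1 := by
          have h1 : ‖CFC.sqrt y‖ * ‖CFC.sqrt y‖ ≤ 1 := by
            rw [← CStarRing.norm_star_mul_self, hs.star_eq, hss]
            exact CStarAlgebra.norm_le_one_iff_of_nonneg y hy |>.2 hy1
          show ‖CFC.sqrt y‖ ≤ 1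
          nlinarith [norm_nonneg (CFC.sqrt y)]
        show trFun η (star (z : H →L[ℂ] H) * (y : H →L[ℂ] H) * (z : H →L[ℂ] H)) ≤ ε
        rw [← hsy]
        refine h s (CFC.sqrt y).2 hs1 ?_
        rw [hsy]
        exact hyd
      complete := fun u C hC hcau => by
        obtain ⟨y, hy, hyC, hlim⟩ := complete_ball hη M hfaith (fun n => (u n : H →L[ℂ] H))
          (fun n => (u n).2) C hC hcau
        exact ⟨⟨y, hy⟩, hyC, hlim⟩
      emb_selfAdjoint := fun f => Subtype.ext (hesa f).star_eq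
      emb_norm := henorm
      maximal := fun y hy hcy => by
        have hys : star (y : H →L[ℂ] H) = y := congrArg Subtype.val hy.star_eq
        have hya : ∀ a ∈ A, (y : H →L[ℂ] H) * a = a * y := by
          intro a ha
          obtain ⟨f, g, hfg, -⟩ := hrep a ha
          have h1 : (y : H →L[ℂ] H) * e f = e f * y := congrArg Subtype.val (hcy f).eq
          have h2 : (y : H →L[ℂ] H) * e g = e g * y := congrArg Subtype.val (hcy g).eq
          rw [hfg, mul_add, add_mul, mul_smul_comm, smul_mul_assoc, h1, h2]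
        obtain ⟨f, g, -, hf⟩ := hrep _ (mem_masa_of_commute hA y.2 hys hya)
        exact ⟨f, Subtype.ext (hf hys).symm⟩ }
  intro F δ hδ
  choose d hd hdq using fun ξ : H => exists_delta hη M hfaith ξ hδ
  obtain ⟨δ', hδ', hδ'F⟩ : ∃ δ' > 0, ∀ ξ ∈ F, δ' ≤ d ξ := by
    rcases F.eq_empty_or_nonempty with rfl | hne
    · exact ⟨1, one_pos, by simp⟩
    · exact ⟨F.inf' hne d, (Finset.lt_inf'_iff hne).2 fun ξ _ => hd ξ,
        fun ξ hξ => Finset.inf'_le d hξ⟩
  obtain ⟨p, hp, a, ha, q, hq, hqtr, hbound⟩ :=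
    hcore M.toStarSubalgebra Ω T ⟨x, hxM⟩ (Subtype.ext hx.star_eq) δ' hδ'
  have hqproj : IsStarProjection (q : H →L[ℂ] H) :=
    ⟨congrArg Subtype.val hq.isIdempotentElem.eq, congrArg Subtype.val hq.isSelfAdjoint.star_eq⟩
  refine ⟨fun i => e (p i), fun i => ⟨heA _, ?_, hesa _⟩, fun i j hij => ?_, ?_,
    e a, heA _, hesa a, ?_,
    q, q.2, hqproj, fun ξ hξ => hdq ξ q q.2 hqproj (hqtr.trans (hδ'F ξ hξ)), ?_⟩
  · show e (p i) * e (p i) = e (p i)
    rw [← map_mul, hp.idem]
  · show e (p i) * e (p j) = 0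
    rw [← map_mul, hp.orth i j hij, map_zero]
  · rw [← map_sum, hp.sum_one, map_one]
  · rw [henorm]; exact ha
  · refine le_of_eq_of_le ?_ hbound
    show _ = ‖((q * ((∑ i, emb (p i) * ⟨x, hxM⟩ * emb (p i)) - emb a) * q :
      M.toStarSubalgebra) : H →L[ℂ] H)‖
    simp [hemb]

end Main

open Bridge in
/-- So-paving over centralised faithful families follows from the abstract statement. -/
theorem soPavable_of_smasa {ε : ℝ} {r : ℕ}
    (hcore : ∀ (M : Type u) [CStarAlgebra M] [PartialOrder M] [StarOrderedRing M]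
      (Ω : Type u) [TopologicalSpace Ω] [CompactSpace Ω] [T2Space Ω] (T : SMasa M Ω) (x : M),
      IsSelfAdjoint x → T.Pavable x ε r) (hr : 0 < r) :
    ∀ (H : Type u) [NormedAddCommGroup H] [InnerProductSpace ℂ H] [CompleteSpace H]
      (M : VonNeumannAlgebra H) (A : StarSubalgebra ℂ (H →L[ℂ] H)),
      Type3.HasFaithfulCentralState M A → IsMASA M A →
        ∀ x ∈ M, IsSelfAdjoint x → SoPavable M A x ε r := by
  intro H _ _ _ M A hM hA x hxM hx
  obtain ⟨η, hcen, hfaith⟩ := hM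
  set t := ∑' n, ‖η n‖ ^ 2 with ht
  rcases (tsum_nonneg fun n => sq_nonneg ‖η n‖ : 0 ≤ t).eq_or_lt with h0 | h0
  · have h1 : (1 : H →L[ℂ] H) = 0 := hfaith _ (one_mem M) fun n => by
      have := congrFun ((hasSum_zero_iff_of_nonneg fun n => sq_nonneg ‖η n‖).1
        (h0.symm ▸ hcen.1.hasSum)) n
      simpa using this
    have hz : ∀ T : H →L[ℂ] H, T = 0 := fun T => by rw [← one_mul T, h1, zero_mul]
    intro F δ hδ
    refine ⟨fun _ => 0, fun _ => ⟨zero_mem A, IsStarProjection.zero _⟩, fun i j _ => by simp,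
      (hz _).trans (hz 1).symm, 0, zero_mem A, IsSelfAdjoint.zero _, by simp, 0, zero_mem M,
      IsStarProjection.zero _, fun ξ _ => by rw [hz (1 - 0), zero_apply, norm_zero]; exact hδ, ?_⟩
    rw [hz x]
    simp
  · set c : ℂ := (((Real.sqrt t)⁻¹ : ℝ) : ℂ) with hc
    set η' : ℕ → H := fun n => c • η n with hη'
    have hn : ∀ n, ‖η' n‖ ^ 2 = t⁻¹ * ‖η n‖ ^ 2 := fun n => by
      rw [hη', norm_smul, mul_pow, hc, Complex.norm_real, Real.norm_eq_abs, sq_abs, inv_pow,
        Real.sq_sqrt h0.le]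
    have hη : Summable fun n => ‖η' n‖ ^ 2 := (hcen.1.mul_left t⁻¹).congr fun n => (hn n).symm
    have hη1 : ∑' n, ‖η' n‖ ^ 2 = 1 := by
      rw [tsum_congr hn, tsum_mul_left]; exact inv_mul_cancel₀ h0.ne'
    have hcen' : Type3.IsCentralFamily M A η' := by
      refine ⟨hη, fun a ha y hy => ?_⟩
      have e : ∀ T : H →L[ℂ] H, (∑' n, ⟪η' n, T (η' n)⟫_ℂ) =
          (starRingEnd ℂ c * c) * ∑' n, ⟪η n, T (η n)⟫_ℂ := fun T => by
        rw [← tsum_mul_left]
        refine tsum_congr fun n => ?_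
        rw [hη', map_smul, inner_smul_left, inner_smul_right, mul_assoc]
      rw [e, e, hcen.2 a ha y hy]
    have hc0 : c ≠ 0 := by
      rw [hc, Ne, Complex.ofReal_eq_zero, inv_eq_zero]
      exact (Real.sqrt_pos.2 h0).ne'
    have hfaith' : ∀ y ∈ M, (∀ n, y (η' n) = 0) → y = 0 := fun y hy h => hfaith y hy fun n => by
      have := h n
      rw [hη', map_smul] at this
      exact (smul_eq_zero.1 this).resolve_left hc0
    have : IsClosed (A : Set (H →L[ℂ] H)) := isClosed_masa hA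
    let _ : CommCStarAlgebra A :=
      { StarSubalgebra.cstarAlgebra A with
        mul_comm := fun a b => Subtype.ext (hA.2.1 a a.2 b b.2) }
    refine soPavable_aux3 (WeakDual.characterSpace ℂ A) hcore hη hη1 hcen' hfaith' hA
      ((A.subtype.toAlgHom.restrictScalars ℝ).comp (realEmb A)) (fun f => (realEmb A f).2)
      (fun f => congrArg Subtype.val (realEmb_selfAdjoint f).star_eq) (fun f => realEmb_norm f)
      (fun a ha => ?_) x hxM hx
    obtain ⟨f, g, hfg, hf⟩ := realEmb_rep (⟨a, ha⟩ : A)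
    exact ⟨f, g, congrArg Subtype.val hfg,
      fun h => congrArg Subtype.val (hf (Subtype.ext h.star_eq))⟩

end Vale.Agent.P078.T3
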