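import Mathlib
import Vale.Agent.P078.TwoWeights
import Vale.Agent.P078.Type3.Expect
import Vale.Agent.P078.Type3.Spectral

/-! States, potential, derivative and step specification of the trace-free two-sided walk. -/

noncomputable section

open scoped ComplexOrder

set_option linter.unusedSectionVars false

namespace Vale.Agent.P078.T3

open Chan
open TMasa (ypm vpm)

universe u v

variable {M : Type u} [CStarAlgebra M] [PartialOrder M] [StarOrderedRing M]
  {Ω : Type v} [TopologicalSpace Ω] [CompactSpace Ω] [T2Space Ω]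

/-- parameters of the walk -/
structure Params where
  ε : ℝ
  r : ℕ
  L : ℝ

/-- small parameters of the walk -/
structure Smalls where
  μ : ℝ
  γ : ℝ
  A : ℝ

namespace Params

/-- the bonus of a vanishing channel, and the lower bound of an active one -/
def β₀ (P : Params) : ℝ := P.ε ^ 2 / 400

/-- the offset of the linear part of the potential -/
def off (P : Params) : ℝ := 5 * P.r

/-- the budget of the potential -/
def K₀ (P : Params) : ℝ := 12 * P.r + 1

/-- the bound on the second order loss of one channel -/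
def Cl (P : Params) : ℝ := 1000000 / P.ε ^ 10

/-- the bound on the derivative of one channel -/
def Cc (P : Params) : ℝ := 200 / P.ε ^ 6

/-- the push of the band -/
def rho (P : Params) (γ : ℝ) : ℝ := 1000000 * γ / P.ε ^ 10

/-- the hypotheses on the parameters -/
structure Ok (P : Params) : Prop where
  ε_pos : 0 < P.ε
  ε_le : P.ε ≤ 1 / 16
  r_pos : 1 ≤ P.r
  L_ge : 8 ≤ P.L
  start : P.L + 1 ≤ P.r * (P.ε ^ 2 / 20)
  zeros : P.r * P.β₀ ≤ P.L / 4

end Params

namespace SMasa

variable (T : SMasa M Ω) (P : Params) (x : M)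

/-- the shifted operator of a channel and a sign -/
def Zop (st : TSt M Ω P.r) (i : Fin P.r) (s : Bool) : M :=
  ((1 + P.ε) / 2) • (1 : M) - vpm x s * T.emb (st.sig i) * vpm x s + st.R i s

/-- the barrier of a channel and a sign -/
def aval (st : TSt M Ω P.r) (i : Fin P.r) (s : Bool) : C(Ω, ℝ) :=
  T.E (vpm x s * Res.res (T.Zop P x st i s) * vpm x s)

/-- the barrier of a channel -/
def Asum (st : TSt M Ω P.r) (i : Fin P.r) : C(Ω, ℝ) :=
  T.aval P x st i true + T.aval P x st i false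

/-- the contribution of one channel to the constraint -/
def fval (st : TSt M Ω P.r) (i : Fin P.r) : C(Ω, ℝ) :=
  cpsi2 P.ε (st.sig i) - cphi2 (st.sig i) * T.Asum P x st i

/-- the support of the positive part -/
def act (st : TSt M Ω P.r) (i : Fin P.r) : C(Ω, ℝ) := T.pos (st.sig i)

/-- the constraint -/
def Fval (st : TSt M Ω P.r) : C(Ω, ℝ) :=
  (∑ i, T.fval P x st i) + P.β₀ • ∑ i, (1 - T.act P st i)

/-- the deficit -/
def xval (st : TSt M Ω P.r) : C(Ω, ℝ) := ContinuousMap.const Ω P.L - T.Fval P x st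

/-- the potential -/
def Vpot (S : Smalls) (st : TSt M Ω P.r) : ℝ :=
  T.tau (st.live * (chub2 (T.xval P x st) + S.μ • (T.xval P x st + ContinuousMap.const Ω P.off)))
    + S.μ * (∑ i, T.tau (st.sig i))
    + S.μ * (∑ i, T.tau (T.Asum P x st i))
    + S.A * S.μ * (∑ i, (T.n2 (st.R i true * vpm x true) ^ 2
        + T.n2 (st.R i false * vpm x false) ^ 2))

/-- the invariant -/
structure Inv (S : Smalls) (st : TSt M Ω P.r) : Prop where
  live_idem : st.live * st.live = st.live
  sig_nonneg : ∀ i, 0 ≤ st.sig i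
  sig_le : ∀ i ω, st.sig i ω ≤ 1 - 2 * P.ε
  assigned : ∀ ω, st.live ω = 0 → ∃ i, st.sig i ω = 1 - 2 * P.ε ∧ ∀ j, j ≠ i → st.sig j ω = 0
  R_sa : ∀ i s, IsSelfAdjoint (st.R i s)
  gap : ∀ i s, S.γ • (1 : M) ≤ T.Zop P x st i s

/-- every channel which is switched on pays at least the bonus of a vanishing one -/
def Clean (st : TSt M Ω P.r) : Prop :=
  ∀ i ω, st.live ω = 1 → st.sig i ω = 0 ∨ P.β₀ ≤ T.fval P x st i ω

/-- the corrected expectation of `y` -/
def ddv (st : TSt M Ω P.r) (N : Fin P.r → Bool → M) (i : Fin P.r) (s : Bool) : C(Ω, ℝ) :=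
  T.E (vpm x s * N i s * vpm x s)
    - ((1 + P.ε) / 2)⁻¹ • T.E (vpm x s * (N i s * st.R i s * N i s) * vpm x s)

/-- the absolute value -/
def cabs (f : C(Ω, ℝ)) : C(Ω, ℝ) := ⟨fun ω => |f ω|, by fun_prop⟩

/-- where the corrected expectations are within tolerance -/
def good (st : TSt M Ω P.r) (N : Fin P.r → Bool → M) (i : Fin P.r) : C(Ω, ℝ) :=
  (1 - T.pos (cabs (T.ddv P x st N i true - ContinuousMap.const Ω (1 / 2))
      - ContinuousMap.const Ω (Two.tol P.ε)))
    * (1 - T.pos (cabs (T.ddv P x st N i false - ContinuousMap.const Ω (1 / 2))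
      - ContinuousMap.const Ω (Two.tol P.ε)))

/-- the standing assumptions at a step -/
structure Ctx (S : Smalls) (st : TSt M Ω P.r) (N : Fin P.r → Bool → M) : Prop where
  ok : P.Ok
  sa : IsSelfAdjoint x
  norm_le : ‖x‖ ≤ 1
  centered : T.E x = 0
  inv : T.Inv P x S st
  clean : T.Clean P x st
  band : ∀ i s, Band S.γ (T.Zop P x st i s) (N i s)
  μ_pos : 0 < S.μ
  μ_le : S.μ ≤ 1
  A_nonneg : 0 ≤ S.A

/-- live, switched on and within tolerance -/
def ActGood (st : TSt M Ω P.r) (N : Fin P.r → Bool → M) (i : Fin P.r) (ω : Ω) : Prop :=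
  st.live ω = 1 ∧ 0 < st.sig i ω ∧ T.good P x st N i ω = 1

/-- the weight of the constraint in the potential -/
def Lam (S : Smalls) (st : TSt M Ω P.r) : C(Ω, ℝ) :=
  st.live * (comp1 Profile.dhub (T.xval P x st) + ContinuousMap.const Ω S.μ)

/-- where the Huber function is curved -/
def bandSet (st : TSt M Ω P.r) : C(Ω, ℝ) :=
  st.live * (T.pos (T.xval P x st + ContinuousMap.const Ω (1 / 2))
    * T.pos (ContinuousMap.const Ω (3 / 2) - T.xval P x st))

/-- the regularised sandwich -/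
def Xb (st : TSt M Ω P.r) (N : Fin P.r → Bool → M) (i : Fin P.r) (s : Bool) : M :=
  Xp (vpm x s) (T.Zop P x st i s) (N i s)

/-- the linear action of a channel on its barrier -/
def Kch (st : TSt M Ω P.r) (N : Fin P.r → Bool → M) (i : Fin P.r) : Module.End ℝ C(Ω, ℝ) :=
  T.K (T.Xb P x st N i true) + T.K (T.Xb P x st N i false)

/-- the quadratic action of a channel on its barrier -/
def Cch (st : TSt M Ω P.r) (N : Fin P.r → Bool → M) (i : Fin P.r) (h : C(Ω, ℝ)) : C(Ω, ℝ) :=
  T.E (T.Xb P x st N i true * T.emb h * T.Xb P x st N i true * T.emb h * T.Xb P x st N i true)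
    + T.E (T.Xb P x st N i false * T.emb h * T.Xb P x st N i false * T.emb h
      * T.Xb P x st N i false)

/-- the banded squared resolvent of a channel -/
def Bch (st : TSt M Ω P.r) (N : Fin P.r → Bool → M) (i : Fin P.r) : C(Ω, ℝ) :=
  T.E (Bop (vpm x true) (T.Zop P x st i true) (N i true))
    + T.E (Bop (vpm x false) (T.Zop P x st i false) (N i false))

/-- the diagonal coefficient of the derivative -/
def cch (st : TSt M Ω P.r) (i : Fin P.r) : C(Ω, ℝ) :=
  comp1 (Two.dpsiC P.ε) (st.sig i) - comp1 Two.dphi (st.sig i) * T.Asum P x st i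

/-- the derivative of the constraint in one channel -/
def Jch (st : TSt M Ω P.r) (N : Fin P.r → Bool → M) (i : Fin P.r) (h : C(Ω, ℝ)) : C(Ω, ℝ) :=
  T.cch P x st i * h - cphi2 (st.sig i) * T.Kch P x st N i h

/-- the quadratic second order part of the constraint -/
def Fq (st : TSt M Ω P.r) (N : Fin P.r → Bool → M) (i : Fin P.r) (h : C(Ω, ℝ)) : C(Ω, ℝ) :=
  (comp1 (Two.hpsiC P.ε) (st.sig i) + (2 : ℝ) • T.Asum P x st i) * (h * h)
    - comp1 Two.dphi (st.sig i) * (h * T.Kch P x st N i h)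
    - cphi2 (st.sig i) * T.Cch P x st N i h

/-- the curvature of straight lines in the reciprocal variable -/
def gam (st : TSt M Ω P.r) (i : Fin P.r) : C(Ω, ℝ) :=
  comp1 (fun u => (max u (P.β₀ / 4))⁻¹) (st.sig i)

/-- the drift -/
def beta (st : TSt M Ω P.r) (i : Fin P.r) : C(Ω, ℝ) :=
  T.Asum P x st i - comp1 (fun u => Two.m₁Of P.ε (Two.clip P.ε u)) (st.sig i)

/-- the second order of the constraint -/
def F22 (st : TSt M Ω P.r) (N : Fin P.r → Bool → M) (ρ : ℝ) (i : Fin P.r) (h h2 : C(Ω, ℝ)) :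
    C(Ω, ℝ) :=
  T.Jch P x st N i h2 + ρ • (cphi2 (st.sig i) * T.Bch P x st N i) + T.Fq P x st N i h

/-- the part of a perturbation outside the band, applied to the square root -/
def offv (v N : M) (h : C(Ω, ℝ)) : M :=
  (v * T.emb h * v - N * (v * T.emb h * v) * N) * v

/-- the linear part of a move -/
def lin (S : Smalls) (st : TSt M Ω P.r) (N : Fin P.r → Bool → M) (h : Fin P.r → C(Ω, ℝ)) : ℝ :=
  - T.tau (T.Lam P x S st * ∑ i, T.Jch P x st N i (h i))
    + S.μ * (∑ i, T.tau (h i))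
    + S.μ * (∑ i, T.tau (T.Kch P x st N i (h i)))
    + S.A * S.μ * (∑ i, ∑ s, 2 * T.ip (st.R i s * vpm x s) (T.offv (vpm x s) (N i s) (h i)))

/-- the second order part of a move -/
def sec (S : Smalls) (st : TSt M Ω P.r) (N : Fin P.r → Bool → M) (ρ : ℝ)
    (h h2 : Fin P.r → C(Ω, ℝ)) : ℝ :=
  T.tau (T.bandSet P x st
      * ((∑ i, T.Jch P x st N i (h i)) * ∑ i, T.Jch P x st N i (h i))) / 2
    - T.tau (T.Lam P x S st * ∑ i, T.F22 P x st N ρ i (h i) (h2 i))
    + S.μ * (∑ i, T.tau (h2 i))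
    + S.μ * (∑ i, T.tau (T.Kch P x st N i (h2 i) + T.Cch P x st N i (h i)
        - ρ • T.Bch P x st N i))
    + S.A * S.μ * (∑ i, ∑ s, (T.n2 (T.offv (vpm x s) (N i s) (h i)) ^ 2
        + 2 * T.ip (st.R i s * vpm x s)
            (T.offv (vpm x s) (N i s) (h2 i) + ρ • ((1 - N i s) * vpm x s))))

/-- the state after a move -/
def move (st : TSt M Ω P.r) (N : Fin P.r → Bool → M) (ρ t : ℝ) (h h2 : Fin P.r → C(Ω, ℝ)) :
    TSt M Ω P.r where
  sig i := st.sig i + (t • h i + t ^ 2 • h2 i)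
  R i s := st.R i s + (vpm x s * (t • T.emb (h i) + t ^ 2 • T.emb (h2 i)) * vpm x s
    - Dop (vpm x s) (N i s) ρ t (T.emb (h i)) (T.emb (h2 i)))
  live := st.live

/-- the one-step property -/
def StepSpec : Prop :=
  ∀ ηf A₀ : ℝ, 0 < ηf →
    ∃ (S : Smalls) (c₀ : ℝ), 0 < S.μ ∧ S.μ ≤ 1 ∧ 0 < S.γ ∧ S.γ ≤ 1 / 4 ∧ A₀ ≤ S.A ∧ 0 < S.A ∧
      0 < c₀ ∧ ∀ st : TSt M Ω P.r, T.Inv P x S st → T.Vpot P x S st ≤ S.μ * P.K₀ →
        ηf ≤ T.tau st.live →
          ∃ st' : TSt M Ω P.r, T.Inv P x S st' ∧ T.Vpot P x S st' ≤ T.Vpot P x S st - c₀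

end SMasa

end Vale.Agent.P078.T3
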