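import Mathlib
import Vale.Agent.P078.TwoWeights
import Vale.Agent.P078.Type3.State

/-! The covariance weight of a channel. -/

noncomputable section

open scoped ComplexOrder

set_option linter.unusedSectionVars false

namespace Vale.Agent.P078.T3

open Chan

universe u v

variable {M : Type u} [CStarAlgebra M] [PartialOrder M] [StarOrderedRing M]
  {Ω : Type v} [TopologicalSpace Ω] [CompactSpace Ω] [T2Space Ω]

namespace Params

/-- the scale of the covariance -/
def kap (P : Params) : ℝ := P.ε ^ 4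

end Params

namespace SMasa

variable (T : SMasa M Ω) (P : Params) (x : M)

/-- the profile of a channel, kept away from zero -/
def spX (st : TSt M Ω P.r) (i : Fin P.r) : C(Ω, ℝ) :=
  comp1 (fun u => max (Two.spOf P.ε (Two.clip P.ε u)) (P.β₀ / 2)) (st.sig i)

/-- the denominator of the weight -/
def dnF (st : TSt M Ω P.r) (i : Fin P.r) : C(Ω, ℝ) :=
  comp1 (Two.densC P.ε) (st.sig i)
    + comp1 (Two.densS P.ε) (st.sig i) * comp1 (fun b => max b 0)
      (T.Asum P x st i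
        - (2 : ℝ) • comp1 (fun u => Two.m₁Of P.ε (Two.clip P.ε u)) (st.sig i))

/-- the loss of one unit of covariance -/
def lcF (st : TSt M Ω P.r) (i : Fin P.r) : C(Ω, ℝ) :=
  T.dnF P x st i * comp1 (fun u => (max u (P.β₀ / 2))⁻¹) (spX P st i)

/-- the square of the weight -/
def w2F (st : TSt M Ω P.r) (i : Fin P.r) : C(Ω, ℝ) :=
  P.kap • (spX P st i * comp1 (fun u => (max u (P.ε ^ 4))⁻¹) (T.dnF P x st i))

/-- the weight -/
def wF (st : TSt M Ω P.r) (i : Fin P.r) : C(Ω, ℝ) := comp1 Real.sqrt (T.w2F P x st i)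

variable {T P x} {st : TSt M Ω P.r}

lemma half_ok (h : P.Ok) : P.ε ≤ 1 / 2 := by linarith [h.ε_le]

lemma half_β₀_pos (h : P.Ok) : 0 < P.β₀ / 2 := by
  have := h.ε_pos
  unfold Params.β₀
  positivity

lemma kap_pos (h : P.Ok) : 0 < P.kap := pow_pos h.ε_pos 4

lemma spX_apply (h : P.Ok) (i : Fin P.r) (ω : Ω) :
    spX P st i ω = max (Two.spOf P.ε (Two.clip P.ε (st.sig i ω))) (P.β₀ / 2) := by
  rw [spX, comp1_apply ((Two.continuous_spClip h.ε_pos (half_ok h)).max continuous_const)]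

lemma spX_bounds (h : P.Ok) (i : Fin P.r) (ω : Ω) :
    0 < spX P st i ω ∧ P.β₀ / 2 ≤ spX P st i ω ∧ spX P st i ω ≤ 1 / 3 := by
  rw [spX_apply h]
  refine ⟨lt_max_of_lt_right (half_β₀_pos h), le_max_right _ _, max_le ?_ ?_⟩
  · exact Two.spOf_le_third h.ε_pos (le_max_left _ _) (Two.clip_le (half_ok h))
  · have h1 := pow_le_pow_left₀ h.ε_pos.le h.ε_le 2
    unfold Params.β₀
    linarith

lemma dnF_apply (h : P.Ok) (i : Fin P.r) (ω : Ω) :
    T.dnF P x st i ω = Two.dens P.ε (Two.clip P.ε (st.sig i ω))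
      (T.Asum P x st i ω - 2 * Two.m₁Of P.ε (Two.clip P.ε (st.sig i ω))) := by
  rw [dnF, ContinuousMap.add_apply, ContinuousMap.mul_apply,
    comp1_apply (Two.continuous_densC h.ε_pos (half_ok h)),
    comp1_apply (Two.continuous_densS h.ε_pos (half_ok h)), comp1_apply (by fun_prop),
    ContinuousMap.sub_apply, ContinuousMap.smul_apply,
    comp1_apply (Two.continuous_m₁Clip h.ε_pos (half_ok h)), smul_eq_mul]
  rfl

lemma dnF_ge (h : P.Ok) (i : Fin P.r) (ω : Ω) :
    P.ε ^ 4 ≤ T.dnF P x st i ω ∧ 0 < T.dnF P x st i ω := by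
  have h1 : P.ε ^ 4 ≤ T.dnF P x st i ω := by
    rw [dnF_apply h]
    exact Two.dens_ge h.ε_pos h.ε_le (le_max_left _ _) (Two.clip_le (half_ok h)) _
  exact ⟨h1, lt_of_lt_of_le (pow_pos h.ε_pos 4) h1⟩

lemma lcF_apply (h : P.Ok) (i : Fin P.r) (ω : Ω) :
    T.lcF P x st i ω = T.dnF P x st i ω / spX P st i ω := by
  rw [lcF, ContinuousMap.mul_apply, comp1_apply (Two.continuous_invMax (half_β₀_pos h)),
    max_eq_left (spX_bounds h i ω).2.1, div_eq_mul_inv]

lemma w2F_apply (h : P.Ok) (i : Fin P.r) (ω : Ω) :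
    T.w2F P x st i ω = P.kap * spX P st i ω / T.dnF P x st i ω := by
  rw [w2F, ContinuousMap.smul_apply, ContinuousMap.mul_apply,
    comp1_apply (Two.continuous_invMax (pow_pos h.ε_pos 4)), max_eq_left (dnF_ge h i ω).1,
    smul_eq_mul]
  ring

lemma w2F_bounds (h : P.Ok) (i : Fin P.r) (ω : Ω) :
    0 < T.w2F P x st i ω ∧ T.w2F P x st i ω ≤ 1 := by
  obtain ⟨hs, -, hs1⟩ := spX_bounds (st := st) h i ω
  obtain ⟨hd, hd0⟩ := dnF_ge (T := T) (x := x) (st := st) h i ω
  rw [w2F_apply h]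
  refine ⟨div_pos (mul_pos (kap_pos h) hs) hd0, ?_⟩
  rw [div_le_one hd0]
  exact (mul_le_of_le_one_right (kap_pos h).le (by linarith)).trans hd

lemma wF_apply (i : Fin P.r) (ω : Ω) :
    T.wF P x st i ω = Real.sqrt (T.w2F P x st i ω) := comp1_apply Real.continuous_sqrt _ _

lemma wF_bounds (h : P.Ok) (i : Fin P.r) (ω : Ω) :
    0 < T.wF P x st i ω ∧ T.wF P x st i ω ≤ 1 := by
  rw [wF_apply]
  exact ⟨Real.sqrt_pos.2 (w2F_bounds h i ω).1, Real.sqrt_le_one.2 (w2F_bounds h i ω).2⟩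

lemma wF_sq (h : P.Ok) (i : Fin P.r) (ω : Ω) :
    T.wF P x st i ω * T.wF P x st i ω = P.kap * spX P st i ω / T.dnF P x st i ω := by
  rw [wF_apply, Real.mul_self_sqrt (w2F_bounds h i ω).1.le, w2F_apply h]

lemma lcF_mul_wF (h : P.Ok) (i : Fin P.r) (ω : Ω) :
    T.lcF P x st i ω * (T.wF P x st i ω * T.wF P x st i ω) = P.kap := by
  rw [wF_sq h, lcF_apply h]
  have := (spX_bounds (st := st) h i ω).1.ne'
  have := (dnF_ge (T := T) (x := x) (st := st) h i ω).2.ne'
  field_simp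

end SMasa

end Vale.Agent.P078.T3
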