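import Mathlib
import Vale.Agent.P078.Type3.State
import Vale.Agent.P078.Type3.Weight

/-! The statements of the pointwise, move and end modules of the trace-free walk. -/

noncomputable section

open scoped ComplexOrder

set_option linter.unusedSectionVars false

namespace Vale.Agent.P078.T3

open Chan
open TMasa (ypm vpm)

universe u v

variable {M : Type u} [CStarAlgebra M] [PartialOrder M] [StarOrderedRing M]
  {Ω : Type v} [TopologicalSpace Ω] [CompactSpace Ω] [T2Space Ω]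

namespace SMasa

variable (T : SMasa M Ω) (P : Params) (x : M)

/-- what is known at a channel which is switched on -/
def ActSpec : Prop :=
  ∀ S st N, T.Ctx P x S st N → ∀ i ω, st.live ω = 1 → 0 < st.sig i ω →
    P.β₀ / 4 ≤ st.sig i ω ∧ 0 ≤ T.Asum P x st i ω ∧ T.Asum P x st i ω ≤ 1 / P.ε ∧
    |T.cch P x st i ω| ≤ P.Cc ∧ P.ε * P.β₀ ≤ cphi2 (st.sig i) ω ∧
    cphi2 (st.sig i) ω ≤ 1 / 2

/-- the pointwise bound on the second order loss of one channel -/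
def LossSpec : Prop :=
  ∀ S st N, T.Ctx P x S st N → ∀ i (h : C(Ω, ℝ)),
    (∀ ω, h ω ≠ 0 → T.ActGood P x st N i ω) →
    ∀ ω, T.Jch P x st N i (gam P st i * (h * h)) ω + T.Fq P x st N i h ω
      ≤ T.lcF P x st i ω * h ω ^ 2

/-- the deterministic second order at full covariance `D` -/
def gainFun (st : TSt M Ω P.r) (N : Fin P.r → Bool → M) (ρ : ℝ) (i : Fin P.r) (D : C(Ω, ℝ)) :
    C(Ω, ℝ) :=
  T.Jch P x st N i (gam P st i * D - (T.beta P x st i + gam P st i) * D)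
    + (comp1 (Two.hpsiC P.ε) (st.sig i) + (2 : ℝ) • T.Asum P x st i) * D
    - comp1 Two.dphi (st.sig i) * (D * (T.E (T.Xb P x st N i true) * T.E (T.Xb P x st N i true)
        + T.E (T.Xb P x st N i false) * T.E (T.Xb P x st N i false)))
    - cphi2 (st.sig i)
      * (T.K (T.Xb P x st N i true) (D * T.E (T.Xb P x st N i true))
        + T.K (T.Xb P x st N i false) (D * T.E (T.Xb P x st N i false)))
    + ρ • (cphi2 (st.sig i) * T.Bch P x st N i)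

/-- the gain of one channel at full covariance -/
def GainSpec : Prop :=
  ∀ S st N, T.Ctx P x S st N → ∀ i (D : C(Ω, ℝ)), (∀ ω, 0 ≤ D ω ∧ D ω ≤ 1) →
    (∀ ω, D ω ≠ 0 → T.ActGood P x st N i ω) →
    (∀ ω, D ω * T.dnF P x st i ω / 12 ≤ T.gainFun P x st N (P.rho S.γ) i D ω) ∧
    (∀ s ω, D ω * T.E (T.Xb P x st N i s) ω ≤ D ω * T.beta P x st i ω)

/-- the sites outside the tolerance and the mass of the band -/
def BadSpec : Prop :=
  ∀ S st N, T.Ctx P x S st N → ∀ i,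
    (∀ s, T.tr (vpm x s * (1 - N i s) * vpm x s) ≤ 2 * S.γ * T.tau (T.aval P x st i s)) ∧
    Two.tol P.ε * T.tau (1 - T.good P x st N i) ≤ ∑ s : Bool,
      (T.tr (vpm x s * (1 - N i s) * vpm x s)
        + 8 * (T.n2 (st.R i s * vpm x s) + Real.sqrt (T.tr (vpm x s * (1 - N i s) * vpm x s))))

/-- the effect of a move on the potential -/
def MoveSpec : Prop :=
  P.Ok → ∀ (S : Smalls) (H R₀ : ℝ), 0 ≤ S.μ → S.μ ≤ 1 → 0 < S.γ → 0 ≤ S.A → 0 ≤ H → 0 ≤ R₀ →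
    ∃ C t₀ : ℝ, 0 ≤ C ∧ 0 < t₀ ∧ ∀ (st : TSt M Ω P.r) (N : Fin P.r → Bool → M),
      T.Ctx P x S st N → ∀ (ρ t : ℝ) (h h2 : Fin P.r → C(Ω, ℝ)),
        0 ≤ ρ → ρ ≤ R₀ → 0 ≤ t → t ≤ t₀ → (∀ i, ‖h i‖ ≤ H) → (∀ i, ‖h2 i‖ ≤ H) →
        (∀ i ω, (st.sig i ω = 0 ∨ st.live ω = 0) → h i ω = 0 ∧ h2 i ω = 0) →
        (∀ i, 0 ≤ (T.move P x st N ρ t h h2).sig i) ∧
        (∀ i ω, (T.move P x st N ρ t h h2).sig i ω ≤ 1 - P.ε) ∧
        (∀ i s, IsSelfAdjoint ((T.move P x st N ρ t h h2).R i s)) ∧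
        (∀ i s, S.γ • (1 : M) ≤ T.Zop P x (T.move P x st N ρ t h h2) i s) ∧
        (∀ ω, st.live ω = 0 →
          ∃ i, (T.move P x st N ρ t h h2).sig i ω = 1 - 2 * P.ε ∧
            ∀ j, j ≠ i → (T.move P x st N ρ t h h2).sig j ω = 0) ∧
        T.Vpot P x S (T.move P x st N ρ t h h2) ≤
          T.Vpot P x S st + t * T.lin P x S st N h + t ^ 2 * T.sec P x S st N ρ h h2 + C * t ^ 3

/-- a moved state is brought back into the invariant at no cost -/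
def AssignSpec : Prop :=
  P.Ok → ∀ (S : Smalls) (st : TSt M Ω P.r), 0 ≤ S.μ → 0 < S.γ → 0 ≤ S.A →
    IsSelfAdjoint x → ‖x‖ ≤ 1 →
    st.live * st.live = st.live → (∀ i, 0 ≤ st.sig i) → (∀ i ω, st.sig i ω ≤ 1 - P.ε) →
    (∀ i s, IsSelfAdjoint (st.R i s)) → (∀ i s, S.γ • (1 : M) ≤ T.Zop P x st i s) →
    (∀ ω, st.live ω = 0 → ∃ i, st.sig i ω = 1 - 2 * P.ε ∧ ∀ j, j ≠ i → st.sig j ω = 0) →
    ∃ st', T.Inv P x S st' ∧ T.Vpot P x S st' ≤ T.Vpot P x S st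

/-- channels which cost more than they bring are switched off at no cost -/
def CleanSpec : Prop :=
  P.Ok → ∀ (S : Smalls) (st : TSt M Ω P.r), 0 ≤ S.μ → 0 < S.γ → 0 ≤ S.A →
    IsSelfAdjoint x → ‖x‖ ≤ 1 → T.Inv P x S st →
    ∃ st', T.Inv P x S st' ∧ T.Vpot P x S st' ≤ T.Vpot P x S st ∧ st'.live = st.live ∧
      T.Clean P x st'

/-- paving from the one-step property -/
def EndSpec : Prop :=
  P.Ok → IsSelfAdjoint x → ‖x‖ ≤ 1 → T.E x = 0 → T.StepSpec P x → ∀ δ : ℝ, 0 < δ →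
    ∃ p : Fin P.r → C(Ω, ℝ), IsPartition p ∧ ∃ q : M, IsStarProjection q ∧ T.tr (1 - q) ≤ δ ∧
      ‖q * (∑ i, T.emb (p i) * x * T.emb (p i)) * q‖ ≤ 5 * P.ε

end SMasa

end Vale.Agent.P078.T3
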