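import Mathlib
import Vale.Agent.P078.SingMain
import Vale.Agent.P078.SingNull

/-! Relabelling that also balances finitely many prescribed families of vectors. -/

noncomputable section

open scoped InnerProductSpace ComplexOrder
open Filter Topology

namespace Vale.Agent.P078.Type3

universe u

open Semi Semi.Ctx Sing

variable {H : Type u} [NormedAddCommGroup H] [InnerProductSpace ℂ H] [CompleteSpace H]
variable {M : VonNeumannAlgebra H} {A : StarSubalgebra ℂ (H →L[ℂ] H)}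
variable {w q x : H →L[ℂ] H}

/-- total squared length of finitely many families -/
def famMass {ι : Type*} [Fintype ι] {r : ℕ} (V : ι → Fin r → H) : ℝ := ∑ j, ∑ i, ‖V j i‖ ^ 2

lemma famMass_nonneg {ι : Type*} [Fintype ι] {r : ℕ} (V : ι → Fin r → H) : 0 ≤ famMass V :=
  Finset.sum_nonneg fun _ _ => Finset.sum_nonneg fun _ _ => sq_nonneg _

/-- the error of one step -/
def stepErr {ι : Type*} [Fintype ι] (F : Finset H) (r : ℕ) (c : ℝ) (x : H →L[ℂ] H)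
    (V : ι → Fin r → H) : ℝ :=
  c * ((2 * r + 4) * (1 + ‖x‖) * (1 + mass F + famMass V))

lemma stepErr_nonneg {ι : Type*} [Fintype ι] {F : Finset H} {r : ℕ} {c : ℝ} {V : ι → Fin r → H}
    (hc : 0 ≤ c) : 0 ≤ stepErr F r c x V := by
  have := mass_nonneg F
  have := famMass_nonneg V
  unfold stepErr
  positivity

lemma bound_le_stepErr {ι : Type*} [Fintype ι] (F : Finset H) {r : ℕ} (hr : 0 < r) (c : ℝ)
    (x : H →L[ℂ] H) (V : ι → Fin r → H) :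
    (4 * (r : ℝ) ^ 2 + 16) * (c * ‖x‖) ^ 2 * mass F + r * c ^ 2 * famMass V ≤
      stepErr F r c x V ^ 2 := by
  have hm := mass_nonneg F
  have hv := famMass_nonneg V
  have hn := norm_nonneg x
  have hr1 : (1 : ℝ) ≤ r := by exact_mod_cast hr
  have e0 : (4 * (r : ℝ) ^ 2 + 16) ≤ (2 * (r : ℝ) + 4) ^ 2 := by nlinarith
  have e1 : ‖x‖ ^ 2 ≤ (1 + ‖x‖) ^ 2 := by nlinarith
  have e2 : mass F + famMass V ≤ (1 + mass F + famMass V) ^ 2 := by nlinarith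
  have e3 : (r : ℝ) ≤ (2 * (r : ℝ) + 4) ^ 2 * (1 + ‖x‖) ^ 2 := by
    have h1 : (1 : ℝ) ≤ (1 + ‖x‖) ^ 2 := one_le_pow₀ (by linarith)
    calc (r : ℝ) ≤ (2 * (r : ℝ) + 4) ^ 2 := by nlinarith
      _ ≤ _ := le_mul_of_one_le_right (sq_nonneg _) h1
  calc (4 * (r : ℝ) ^ 2 + 16) * (c * ‖x‖) ^ 2 * mass F + r * c ^ 2 * famMass V
      ≤ (2 * (r : ℝ) + 4) ^ 2 * (1 + ‖x‖) ^ 2 * c ^ 2 * mass F +
        (2 * (r : ℝ) + 4) ^ 2 * (1 + ‖x‖) ^ 2 * c ^ 2 * famMass V := by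
        refine add_le_add ?_ ?_
        · rw [mul_pow c, mul_comm (c ^ 2), ← mul_assoc (4 * (r : ℝ) ^ 2 + 16)]
          exact mul_le_mul_of_nonneg_right (mul_le_mul_of_nonneg_right
            (mul_le_mul e0 e1 (sq_nonneg _) (sq_nonneg _)) (sq_nonneg _)) hm
        · exact mul_le_mul_of_nonneg_right (mul_le_mul_of_nonneg_right e3 (sq_nonneg _)) hv
    _ = (2 * (r : ℝ) + 4) ^ 2 * (1 + ‖x‖) ^ 2 * c ^ 2 * (mass F + famMass V) := by ring
    _ ≤ (2 * (r : ℝ) + 4) ^ 2 * (1 + ‖x‖) ^ 2 * c ^ 2 * (1 + mass F + famMass V) ^ 2 :=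
        mul_le_mul_of_nonneg_left e2 (by positivity)
    _ = _ := by rw [stepErr]; ring

lemma cross_vec (Q : WPart A (1 : H →L[ℂ] H)) {r : ℕ} (L old : Fin Q.n → Fin r) (u : ℝ)
    {μ : Fin Q.n → Fin r → ℝ}
    (hμ : μ = fun l i => u * (if old l = i then 1 else 0) + (1 - u) / r) (V : Fin r → H) :
    q (∑ i, Q.piece L i (V i)) - ((u : ℂ) • q (∑ i, Q.piece old i (V i)) +
        (((1 - u) / r : ℝ) : ℂ) • ∑ i, q (V i)) =
      ∑ k, ∑ i, (dev μ k i (L k) : ℂ) • q (Q.f k (V i)) := by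
  have e1 : ∀ (L : Fin Q.n → Fin r), q (∑ i, Q.piece L i (V i)) =
      ∑ k, ∑ i, ((if L k = i then (1 : ℝ) else 0 : ℝ) : ℂ) • q (Q.f k (V i)) := by
    intro L
    rw [map_sum, Finset.sum_comm]
    refine Finset.sum_congr rfl fun i _ => ?_
    simp only [WPart.piece, sum_apply, smul_apply, map_sum, map_smul]
    exact Finset.sum_congr rfl fun k _ => by split_ifs <;> simp
  have e2 : ∑ i, q (V i) = ∑ k, ∑ i, q (Q.f k (V i)) := by
    rw [Finset.sum_comm]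
    refine Finset.sum_congr rfl fun i _ => ?_
    rw [← map_sum, ← sum_apply, Q.sum, one_apply_eq_self]
  rw [e1, e1, e2]
  simp only [Finset.smul_sum, smul_smul, ← Finset.sum_add_distrib, ← Finset.sum_sub_distrib,
    ← add_smul, ← sub_smul]
  refine Finset.sum_congr rfl fun k _ => Finset.sum_congr rfl fun i _ => ?_
  congr 1
  simp only [dev, hμ]
  push_cast
  split_ifs <;> simp

/-- one relabelling step -/
theorem rand_step' {ι : Type*} [Fintype ι] (F : Finset H) (hA : IsMASA M A) (Q : WPart A (1 : H →L[ℂ] H)) {r : ℕ}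
    (hr : 0 < r) (old : Fin Q.n → Fin r) {u : ℝ} (hu0 : 0 ≤ u) (hu1 : u ≤ 1)
    (hq : q ∈ M) (hqp : IsStarProjection q) {c : ℝ} (hc : 0 ≤ c)
    (hsmall : ∀ k v, ‖q (Q.f k v)‖ ≤ c * ‖v‖) (hx : IsSelfAdjoint x) (hxM : x ∈ M)
    (V : ι → Fin r → H) :
    ∃ L : Fin Q.n → Fin r, ∃ Y ∈ M, ∃ Z ∈ M,
      q * (∑ i, Q.piece L i * x * Q.piece L i) * q -
        (((u ^ 2 : ℝ) : ℂ) • (q * (∑ i, Q.piece old i * x * Q.piece old i) * q) +
          ((1 - u ^ 2 : ℝ) : ℂ) • (((1 / r : ℝ) : ℂ) • (q * x * q) +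
            ((1 - 1 / r : ℝ) : ℂ) • (q * Q.pinch x * q))) = Y + star Y + Z ∧
      (∀ ξ ∈ F, ‖Y ξ‖ ≤ stepErr F r c x V ∧ ‖Z ξ‖ ≤ stepErr F r c x V) ∧
      ∀ j, ‖q (∑ i, Q.piece L i (V j i)) - ((u : ℂ) • q (∑ i, Q.piece old i (V j i)) +
        (((1 - u) / r : ℝ) : ℂ) • ∑ i, q (V j i))‖ ≤ stepErr F r c x V := by
  set μ : Fin Q.n → Fin r → ℝ := fun l i =>
    u * (if old l = i then 1 else 0) + (1 - u) / r with hμ
  have hr' : (0 : ℝ) < r := Nat.cast_pos.2 hr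
  have h0 : ∀ k i, 0 ≤ μ k i := fun k i => by
    have : 0 ≤ (1 - u) / r := div_nonneg (by linarith) hr'.le
    simp only [hμ]; split_ifs <;> linarith
  have h1 : ∀ k, ∑ i, μ k i = 1 := fun k => by
    simp only [hμ, Finset.sum_add_distrib, mul_ite, mul_one, mul_zero, Finset.sum_ite_eq,
      Finset.mem_univ, if_true, Finset.sum_const, Finset.card_univ, Fintype.card_fin, nsmul_eq_mul]
    field_simp
    ring
  have hμ1 : ∀ k i, μ k i ≤ 1 := fun k i =>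
    h1 k ▸ Finset.single_le_sum (fun j _ => h0 k j) (Finset.mem_univ i)
  have hfM : ∀ l, Q.f l ∈ M := fun l => hA.1 (Q.mem l)
  have hqs : star q = q := hqp.isSelfAdjoint.star_eq
  have smulM : ∀ (t : ℂ) {y : H →L[ℂ] H}, y ∈ M → t • y ∈ M := fun t _ hy =>
    SMulMemClass.smul_mem (s := M.toStarSubalgebra) t hy
  have hqf : ∀ k (v : H), ‖q (Q.f k v)‖ ≤ c * ‖Q.f k v‖ := by
    intro k v
    have := hsmall k (Q.f k v)
    rwa [← mul_apply_eq_comp (Q.f k) (Q.f k), Q.idem] at this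
  -- the operators
  set T : Fin Q.n → Fin r → H →L[ℂ] H := fun k i =>
    ∑ l, ((if l = k then 0 else μ l i : ℝ) : ℂ) • (q * Q.f k * x * Q.f l * q) with hT
  set Yop : (Fin Q.n → Fin r) → H →L[ℂ] H := fun L =>
    ∑ k, ∑ i, (dev μ k i (L k) : ℂ) • T k i with hY
  set Z1 : (Fin Q.n → Fin r) → H →L[ℂ] H := fun L =>
    ∑ a ∈ ltSet Q.n, (pr μ L a.1 a.2 : ℂ) • (q * Q.f a.1 * x * Q.f a.2 * q) with hZ1
  set Z2 : (Fin Q.n → Fin r) → H →L[ℂ] H := fun L =>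
    ∑ a ∈ gtSet Q.n, (pr μ L a.1 a.2 : ℂ) • (q * Q.f a.1 * x * Q.f a.2 * q) with hZ2
  have hblkM : ∀ k l, q * Q.f k * x * Q.f l * q ∈ M := fun k l =>
    mul_mem (mul_mem (mul_mem (mul_mem hq (hfM k)) hxM) (hfM l)) hq
  have hTM : ∀ k i, T k i ∈ M := fun k i => sum_mem fun l _ => smulM _ (hblkM k l)
  -- second moments
  have hT2 : ∀ (i : Fin r) (v : H), ∑ k, ‖T k i v‖ ^ 2 ≤ 4 * (c * ‖x‖ * ‖v‖) ^ 2 := by
    intro i v
    set a : H →L[ℂ] H := ∑ l, (μ l i : ℂ) • Q.f l with ha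
    have hqv : ‖q v‖ ≤ ‖v‖ := proj_apply_norm_le hqp v
    have hav : ‖a (q v)‖ ≤ ‖v‖ := by
      refine (pow_le_pow_iff_left₀ (norm_nonneg _) (norm_nonneg _) two_ne_zero).1 ?_
      have e : a (q v) = ∑ l, Q.f l ((μ l i : ℂ) • q v) := by simp [ha, sum_apply]
      rw [e, Q.norm_sum_sq]
      calc ∑ l, ‖Q.f l ((μ l i : ℂ) • q v)‖ ^ 2 ≤ ∑ l, ‖Q.f l (q v)‖ ^ 2 := by
            refine Finset.sum_le_sum fun l _ => pow_le_pow_left₀ (norm_nonneg _) ?_ 2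
            rw [map_smul, norm_smul, Complex.norm_real, Real.norm_eq_abs, abs_of_nonneg (h0 l i)]
            exact mul_le_of_le_one_left (norm_nonneg _) (hμ1 l i)
        _ = ‖q v‖ ^ 2 := by rw [Q.sum_norm_sq, one_apply_eq_self]
        _ ≤ ‖v‖ ^ 2 := pow_le_pow_left₀ (norm_nonneg _) hqv 2
    have hk : ∀ k, ‖T k i v‖ ^ 2 ≤
        c ^ 2 * (2 * ‖Q.f k (x (a (q v)))‖ ^ 2 + 2 * (‖x‖ * ‖Q.f k (q v)‖) ^ 2) := by
      intro k
      have eT : T k i v = q (Q.f k (x (a (q v)))) - (μ k i : ℂ) • q (Q.f k (x (Q.f k (q v)))) := by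
        rw [eq_sub_iff_add_eq, hT, ha]
        simp only [sum_apply, smul_apply, mul_apply_eq_comp, map_sum, map_smul]
        rw [← Finset.sum_erase_add _ _ (Finset.mem_univ k), if_pos rfl, Complex.ofReal_zero,
          zero_smul, add_zero, Finset.sum_congr rfl fun l hl => by
            rw [if_neg (Finset.ne_of_mem_erase hl)], Finset.sum_erase_add _ _ (Finset.mem_univ k)]
      have b1 : ‖q (Q.f k (x (a (q v))))‖ ≤ c * ‖Q.f k (x (a (q v)))‖ := hqf k _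
      have b2 : ‖(μ k i : ℂ) • q (Q.f k (x (Q.f k (q v))))‖ ≤ c * (‖x‖ * ‖Q.f k (q v)‖) := by
        rw [norm_smul, Complex.norm_real, Real.norm_eq_abs, abs_of_nonneg (h0 k i)]
        refine (mul_le_of_le_one_left (norm_nonneg _) (hμ1 k i)).trans ((hsmall k _).trans ?_)
        exact mul_le_mul_of_nonneg_left (x.le_opNorm _) hc
      have b3 : ‖T k i v‖ ≤ c * (‖Q.f k (x (a (q v)))‖ + ‖x‖ * ‖Q.f k (q v)‖) := by
        rw [eT, mul_add]
        exact (norm_sub_le _ _).trans (add_le_add b1 b2)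
      refine (pow_le_pow_left₀ (norm_nonneg _) b3 2).trans ?_
      rw [mul_pow]
      refine mul_le_mul_of_nonneg_left ?_ (sq_nonneg c)
      nlinarith [sq_nonneg (‖Q.f k (x (a (q v)))‖ - ‖x‖ * ‖Q.f k (q v)‖)]
    refine (Finset.sum_le_sum fun k _ => hk k).trans ?_
    rw [← Finset.mul_sum, Finset.sum_add_distrib, ← Finset.mul_sum, ← Finset.mul_sum]
    simp only [mul_pow ‖x‖]
    rw [← Finset.mul_sum, Q.sum_norm_sq, Q.sum_norm_sq, one_apply_eq_self, one_apply_eq_self]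
    have b4 : ‖x (a (q v))‖ ^ 2 ≤ (‖x‖ * ‖v‖) ^ 2 := pow_le_pow_left₀ (norm_nonneg _)
      ((x.le_opNorm _).trans (mul_le_mul_of_nonneg_left hav (norm_nonneg _))) 2
    have b5 : ‖x‖ ^ 2 * ‖q v‖ ^ 2 ≤ (‖x‖ * ‖v‖) ^ 2 := by
      rw [mul_pow]
      exact mul_le_mul_of_nonneg_left (pow_le_pow_left₀ (norm_nonneg _) hqv 2) (sq_nonneg _)
    calc _ ≤ c ^ 2 * (2 * (‖x‖ * ‖v‖) ^ 2 + 2 * (‖x‖ * ‖v‖) ^ 2) :=
          mul_le_mul_of_nonneg_left (by linarith) (sq_nonneg c)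
      _ = _ := by ring
  have hB2 : ∀ v : H, ∑ k, ∑ l, ‖vblk Q q x v k l‖ ^ 2 ≤ (c * ‖x‖ * ‖v‖) ^ 2 := by
    intro v
    rw [Finset.sum_comm]
    have hl : ∀ l, ∑ k, ‖vblk Q q x v k l‖ ^ 2 ≤ c ^ 2 * (‖x‖ ^ 2 * ‖Q.f l (q v)‖ ^ 2) := by
      intro l
      refine (Finset.sum_le_sum (g := fun k => c ^ 2 * ‖Q.f k (x (Q.f l (q v)))‖ ^ 2)
        fun k _ => ?_).trans ?_
      · rw [← mul_pow, vblk]
        simp only [mul_apply_eq_comp]
        exact pow_le_pow_left₀ (norm_nonneg _) (hqf k _) 2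
      · rw [← Finset.mul_sum, Q.sum_norm_sq, one_apply_eq_self, ← mul_pow ‖x‖]
        exact mul_le_mul_of_nonneg_left
          (pow_le_pow_left₀ (norm_nonneg _) (x.le_opNorm _) 2) (sq_nonneg c)
    refine (Finset.sum_le_sum fun l _ => hl l).trans ?_
    rw [← Finset.mul_sum, ← Finset.mul_sum, Q.sum_norm_sq, one_apply_eq_self, mul_pow, mul_pow,
      mul_assoc]
    exact mul_le_mul_of_nonneg_left (mul_le_mul_of_nonneg_left
      (pow_le_pow_left₀ (norm_nonneg _) (proj_apply_norm_le hqp v) 2) (sq_nonneg _)) (sq_nonneg _)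
  set B : ℝ := (4 * (r : ℝ) ^ 2 + 16) * (c * ‖x‖) ^ 2 * mass F with hB
  have hEx : Ex μ (fun L => ∑ ξ ∈ F, (‖Yop L ξ‖ ^ 2 + (2 * ‖Z1 L ξ‖ ^ 2 + 2 * ‖Z2 L ξ‖ ^ 2))) ≤
      B := by
    rw [Ex_sum, hB, mass, Finset.mul_sum]
    refine Finset.sum_le_sum fun ξ _ => ?_
    rw [Ex_add, Ex_add, Ex_smul, Ex_smul]
    have p1 : Ex μ (fun L => ‖Yop L ξ‖ ^ 2) ≤ (r : ℝ) * (r * (4 * (c * ‖x‖ * ‖ξ‖) ^ 2)) := by
      have e : (fun L => ‖Yop L ξ‖ ^ 2) =
          fun L => ‖∑ k, ∑ i, (dev μ k i (L k) : ℂ) • T k i ξ‖ ^ 2 := by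
        funext L; simp [hY, sum_apply]
      rw [e]
      refine (Ex_linear_le h0 h1 fun k i => T k i ξ).trans
        (mul_le_mul_of_nonneg_left ?_ hr'.le)
      rw [Finset.sum_comm]
      exact (Finset.sum_le_sum fun i _ => hT2 i ξ).trans_eq (by simp)
    have p2 : Ex μ (fun L => ‖Z1 L ξ‖ ^ 2) ≤ 4 * (c * ‖x‖ * ‖ξ‖) ^ 2 := by
      have e : (fun L => ‖Z1 L ξ‖ ^ 2) =
          fun L => ‖∑ a ∈ ltSet Q.n, (pr μ L a.1 a.2 : ℂ) • vblk Q q x ξ a.1 a.2‖ ^ 2 := by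
        funext L; simp [hZ1, sum_apply, vblk]
      rw [e]
      exact (Ex_pairs_le h0 h1 (ltSet Q.n) (fun a ha => ((Finset.mem_filter.1 ha).2).ne)
        (fun a ha ha' => lt_asymm (Finset.mem_filter.1 ha).2 (Finset.mem_filter.1 ha').2)
          (vblk Q q x ξ)).trans (mul_le_mul_of_nonneg_left (hB2 ξ) (by norm_num))
    have p3 : Ex μ (fun L => ‖Z2 L ξ‖ ^ 2) ≤ 4 * (c * ‖x‖ * ‖ξ‖) ^ 2 := by
      have e : (fun L => ‖Z2 L ξ‖ ^ 2) =
          fun L => ‖∑ a ∈ gtSet Q.n, (pr μ L a.1 a.2 : ℂ) • vblk Q q x ξ a.1 a.2‖ ^ 2 := by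
        funext L; simp [hZ2, sum_apply, vblk]
      rw [e]
      exact (Ex_pairs_le h0 h1 (gtSet Q.n) (fun a ha => ((Finset.mem_filter.1 ha).2).ne')
        (fun a ha ha' => lt_asymm (Finset.mem_filter.1 ha).2 (Finset.mem_filter.1 ha').2)
          (vblk Q q x ξ)).trans (mul_le_mul_of_nonneg_left (hB2 ξ) (by norm_num))
    calc _ ≤ (r : ℝ) * (r * (4 * (c * ‖x‖ * ‖ξ‖) ^ 2)) +
          (2 * (4 * (c * ‖x‖ * ‖ξ‖) ^ 2) + 2 * (4 * (c * ‖x‖ * ‖ξ‖) ^ 2)) := by linarith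
      _ = _ := by ring
  set C : (Fin Q.n → Fin r) → ι → H := fun L j =>
    ∑ k, ∑ i, (dev μ k i (L k) : ℂ) • q (Q.f k (V j i)) with hC
  have hExV : Ex μ (fun L => ∑ j, ‖C L j‖ ^ 2) ≤ r * c ^ 2 * famMass V := by
    rw [Ex_sum, famMass, Finset.mul_sum]
    refine Finset.sum_le_sum fun j _ => (Ex_linear_le h0 h1 fun k i => q (Q.f k (V j i))).trans ?_
    rw [Finset.sum_comm, mul_assoc]
    refine mul_le_mul_of_nonneg_left ?_ hr'.le
    rw [Finset.mul_sum]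
    refine Finset.sum_le_sum fun i _ => ?_
    refine (Finset.sum_le_sum (g := fun k => c ^ 2 * ‖Q.f k (V j i)‖ ^ 2) fun k _ => ?_).trans ?_
    · rw [← mul_pow]
      exact pow_le_pow_left₀ (norm_nonneg _) (hqf k _) 2
    · rw [← Finset.mul_sum, Q.sum_norm_sq, one_apply_eq_self]
  obtain ⟨L, hL⟩ := exists_le_Ex h0 h1 fun L =>
    (∑ ξ ∈ F, (‖Yop L ξ‖ ^ 2 + (2 * ‖Z1 L ξ‖ ^ 2 + 2 * ‖Z2 L ξ‖ ^ 2))) + ∑ j, ‖C L j‖ ^ 2
  rw [Ex_add] at hL
  have hK0 : 0 ≤ stepErr F r c x V := stepErr_nonneg hc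
  have hBK : B + r * c ^ 2 * famMass V ≤ stepErr F r c x V ^ 2 := bound_le_stepErr F hr c x V
  have hN : 0 ≤ ∑ ξ ∈ F, (‖Yop L ξ‖ ^ 2 + (2 * ‖Z1 L ξ‖ ^ 2 + 2 * ‖Z2 L ξ‖ ^ 2)) :=
    Finset.sum_nonneg fun _ _ => by positivity
  have hV0 : 0 ≤ ∑ j, ‖C L j‖ ^ 2 := Finset.sum_nonneg fun _ _ => sq_nonneg _
  refine ⟨L, Yop L, sum_mem fun k _ => sum_mem fun i _ => smulM _ (hTM k i), Z1 L + Z2 L,
    add_mem (sum_mem fun a _ => smulM _ (hblkM _ _)) (sum_mem fun a _ => smulM _ (hblkM _ _)),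
    ?_, fun ξ hξ => ?_, fun j => ?_⟩
  · ext v
    rw [sub_apply, add_apply, add_apply, smul_apply, smul_apply, add_apply, smul_apply, smul_apply,
      vec_decomp Q hr L old u hμ v]
    congr 1
    · have es : star (Yop L) = ∑ k, ∑ i, (dev μ k i (L k) : ℂ) •
          ∑ l, ((if l = k then 0 else μ l i : ℝ) : ℂ) • (q * Q.f l * x * Q.f k * q) := by
        simp only [hY, hT, star_sum, star_smul, star_mul, Complex.star_def, Complex.conj_ofReal,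
          hqs, Q.star_f, hx.star_eq, mul_assoc]
      rw [es]
      simp only [hY, hT, add_apply, sum_apply, smul_apply, linV, vblk, smul_add,
        Finset.sum_add_distrib]
    · simp only [hZ1, hZ2, add_apply, sum_apply, smul_apply, vblk]
  · have h2 : ‖Yop L ξ‖ ^ 2 + (2 * ‖Z1 L ξ‖ ^ 2 + 2 * ‖Z2 L ξ‖ ^ 2) ≤ stepErr F r c x V ^ 2 := by
      have := Finset.single_le_sum (f := fun ξ => ‖Yop L ξ‖ ^ 2 +
        (2 * ‖Z1 L ξ‖ ^ 2 + 2 * ‖Z2 L ξ‖ ^ 2)) (fun _ _ => by positivity) hξ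
      linarith
    constructor
    · refine (pow_le_pow_iff_left₀ (norm_nonneg _) hK0 two_ne_zero).1 ?_
      linarith [sq_nonneg ‖Z1 L ξ‖, sq_nonneg ‖Z2 L ξ‖]
    · refine (pow_le_pow_iff_left₀ (norm_nonneg _) hK0 two_ne_zero).1 ?_
      have h3 : ‖(Z1 L + Z2 L) ξ‖ ^ 2 ≤ 2 * ‖Z1 L ξ‖ ^ 2 + 2 * ‖Z2 L ξ‖ ^ 2 := by
        rw [add_apply]
        have := pow_le_pow_left₀ (norm_nonneg _) (norm_add_le (Z1 L ξ) (Z2 L ξ)) 2
        nlinarith [sq_nonneg (‖Z1 L ξ‖ - ‖Z2 L ξ‖)]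
      linarith [sq_nonneg ‖Yop L ξ‖]
  · rw [cross_vec Q L old u (μ := μ) hμ (V j)]
    refine (pow_le_pow_iff_left₀ (norm_nonneg _) hK0 two_ne_zero).1 ?_
    have := Finset.single_le_sum (f := fun j => ‖C L j‖ ^ 2) (fun _ _ => sq_nonneg _) (Finset.mem_univ j)
    show ‖C L j‖ ^ 2 ≤ _
    linarith

/-- averaging over nested partitions -/
lemma exists_avg'' {ι : Type*} [Fintype ι] (F : Finset H) (hA : IsMASA M A) (hq : q ∈ M) (hqp : IsStarProjection q)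
    (hx : IsSelfAdjoint x) (hxM : x ∈ M) {r : ℕ} (hr : 0 < r) {c : ℝ} (hc : 0 ≤ c)
    (Q : ℕ → WPart A (1 : H →L[ℂ] H)) (hmono : ∀ t, Q t ≤ Q (t + 1))
    (hsmall : ∀ t k v, ‖q ((Q t).f k v)‖ ≤ c * ‖v‖) (V : ι → Fin r → H) (k : ℕ) :
    ∃ L : Fin (Q k).n → Fin r, ∃ Y ∈ M, ∃ Z ∈ M,
      q * (∑ i, (Q k).piece L i * x * (Q k).piece L i) * q -
        (((1 / r : ℝ) : ℂ) • (q * x * q) + ((1 - 1 / r : ℝ) : ℂ) •
          (((1 / (k + 1) : ℝ) : ℂ) • ∑ t ∈ Finset.range (k + 1), q * (Q t).pinch x * q)) =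
          Y + star Y + Z ∧
      (∀ ξ ∈ F, ‖Y ξ‖ ≤ (k + 1) * stepErr F r c x V ∧ ‖Z ξ‖ ≤ (k + 1) * stepErr F r c x V) ∧
      ∀ j, ‖q (∑ i, (Q k).piece L i (V j i)) - ((1 / r : ℝ) : ℂ) • ∑ i, q (V j i)‖ ≤
        (k + 1) * stepErr F r c x V := by
  induction k with
  | zero =>
    obtain ⟨L, Y, hY, Z, hZ, e, hb, hv⟩ := rand_step' F hA (Q 0) hr (fun _ => ⟨0, hr⟩)
      (le_refl (0 : ℝ)) zero_le_one hq hqp hc (hsmall 0) hx hxM V
    refine ⟨L, Y, hY, Z, hZ, ?_, fun ξ hξ => ?_, fun j => ?_⟩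
    · rw [← e]
      norm_num
    · simpa using hb ξ hξ
    · simpa using hv j
  | succ k ih =>
    obtain ⟨L₀, Y₀, hY₀, Z₀, hZ₀, e₀, hb₀, hv₀⟩ := ih
    set γ : ℝ := ((k : ℝ) + 1) / ((k : ℝ) + 2) with hγ
    have hγ0 : 0 ≤ γ := by positivity
    have hγ1 : γ ≤ 1 := by rw [hγ, div_le_one (by positivity)]; linarith
    set u := Real.sqrt γ with hu
    have huu : u ^ 2 = γ := Real.sq_sqrt hγ0
    obtain ⟨L, Y, hY, Z, hZ, e, hb, hv⟩ := rand_step' F hA (Q (k + 1)) hr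
      (fun l => L₀ (WPart.parent (hmono k) l)) (Real.sqrt_nonneg γ) (Real.sqrt_le_one.2 hγ1)
      hq hqp hc (hsmall (k + 1)) hx hxM V
    have hold : ∀ i, (Q (k + 1)).piece (fun l => L₀ (WPart.parent (hmono k) l)) i =
        (Q k).piece L₀ i := fun i => WPart.piece_parent (Q k) (hmono k) L₀ i
    simp only [hold] at e hv
    rw [huu] at e
    refine ⟨L, (γ : ℂ) • Y₀ + Y, add_mem (SMulMemClass.smul_mem (s := M.toStarSubalgebra) _ hY₀) hY,
      (γ : ℂ) • Z₀ + Z, add_mem (SMulMemClass.smul_mem (s := M.toStarSubalgebra) _ hZ₀) hZ, ?_,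
      fun ξ hξ => ?_, fun j => ?_⟩
    · have hgen : (γ : ℂ) • Y₀ + Y + star ((γ : ℂ) • Y₀ + Y) + ((γ : ℂ) • Z₀ + Z) =
          (γ : ℂ) • (Y₀ + star Y₀ + Z₀) + (Y + star Y + Z) := by
        rw [star_add, star_smul, Complex.star_def, Complex.conj_ofReal, smul_add, smul_add]
        abel
      rw [hgen, ← e₀, ← e, Finset.sum_range_succ _ (k + 1)]
      simp only [smul_add, smul_sub, smul_smul, ← Complex.ofReal_mul]
      have c1 : γ * ((1 - 1 / r) * (1 / (k + 1))) = (1 - 1 / r) * (1 / ((k + 1 : ℕ) + 1)) := by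
        rw [hγ]; push_cast; field_simp; ring
      have c2 : (1 - γ) * (1 - 1 / r) = (1 - 1 / r) * (1 / ((k + 1 : ℕ) + 1)) := by
        rw [hγ]; push_cast; field_simp; ring
      have c3 : ((γ * (1 / r) : ℝ) : ℂ) • (q * x * q) + (((1 - γ) * (1 / r) : ℝ) : ℂ) • (q * x * q) =
          ((1 / r : ℝ) : ℂ) • (q * x * q) := by
        rw [← add_smul, ← Complex.ofReal_add]
        congr 2; ring
      rw [c1, c2, ← c3]
      abel
    · obtain ⟨a1, a2⟩ := hb₀ ξ hξ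
      obtain ⟨b1, b2⟩ := hb ξ hξ
      have g1 : ∀ T : H →L[ℂ] H, ‖((γ : ℂ) • T) ξ‖ ≤ ‖T ξ‖ := fun T => by
        rw [smul_apply, norm_smul, Complex.norm_real, Real.norm_eq_abs, abs_of_nonneg hγ0]
        exact mul_le_of_le_one_left (norm_nonneg _) hγ1
      constructor
      · rw [add_apply]
        refine (norm_add_le _ _).trans ((add_le_add ((g1 Y₀).trans a1) b1).trans_eq ?_)
        push_cast; ring
      · rw [add_apply]
        refine (norm_add_le _ _).trans ((add_le_add ((g1 Z₀).trans a2) b2).trans_eq ?_)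
        push_cast; ring
    · have c4 : ((u * (1 / r) : ℝ) : ℂ) + (((1 - u) / r : ℝ) : ℂ) = ((1 / r : ℝ) : ℂ) := by
        rw [← Complex.ofReal_add]; congr 1; ring
      have e5 : q (∑ i, (Q (k + 1)).piece L i (V j i)) - ((1 / r : ℝ) : ℂ) • ∑ i, q (V j i) =
          (q (∑ i, (Q (k + 1)).piece L i (V j i)) -
            ((u : ℂ) • q (∑ i, (Q k).piece L₀ i (V j i)) +
              (((1 - u) / r : ℝ) : ℂ) • ∑ i, q (V j i))) +
          (u : ℂ) • (q (∑ i, (Q k).piece L₀ i (V j i)) - ((1 / r : ℝ) : ℂ) • ∑ i, q (V j i)) := by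
        conv_lhs => rw [← c4]
        rw [add_smul, Complex.ofReal_mul, mul_smul, smul_sub]
        abel
      rw [e5]
      refine (norm_add_le _ _).trans ((add_le_add (hv j) ?_).trans_eq
        (show stepErr F r c x V + (k + 1) * stepErr F r c x V = _ by push_cast; ring))
      rw [norm_smul, Complex.norm_real, Real.norm_eq_abs, hu, abs_of_nonneg (Real.sqrt_nonneg _)]
      exact (mul_le_of_le_one_left (norm_nonneg _) (Real.sqrt_le_one.2 hγ1)).trans (hv₀ j)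

/-- Data of a balanced relabelling: a partition, an element of the subalgebra, a projection
and two small operators. -/
theorem exists_relabel {ι : Type*} [Fintype ι] (hA : IsMASA M A)
    (hnd : ∀ F : Finset H, NoDominatedCorner F hA) (hx : IsSelfAdjoint x) (hxM : x ∈ M)
    {r : ℕ} (hr : 0 < r) (F : Finset H) (V : ι → Fin r → H) {τ : ℝ} (hτ : 0 < τ) :
    ∃ (P : Fin r → H →L[ℂ] H) (a q Y Z : H →L[ℂ] H),
      (∀ i, P i ∈ A ∧ IsStarProjection (P i)) ∧ (∀ i j, i ≠ j → P i * P j = 0) ∧ ∑ i, P i = 1 ∧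
      a ∈ A ∧ IsSelfAdjoint a ∧ ‖a‖ ≤ ‖x‖ ∧ q ∈ M ∧ IsStarProjection q ∧ Y ∈ M ∧ Z ∈ M ∧
      q * ((∑ i, P i * x * P i) - a) * q =
        ((1 / r : ℝ) : ℂ) • (q * (x - a) * q) + (Y + star Y + Z) ∧
      (∀ ξ ∈ F, ‖(1 - q) ξ‖ ≤ τ ∧ ‖Y ξ‖ ≤ τ ∧ ‖Z ξ‖ ≤ 2 * τ) ∧
      ∀ j, ‖q (∑ i, P i (V j i)) - ((1 / r : ℝ) : ℂ) • ∑ i, q (V j i)‖ ≤ τ := by
  obtain ⟨a, haA, has, han, -, -, hlim⟩ :=
    exists_pinch_wlim (M := M) hA (one_mem A) (IsStarProjection.one (H →L[ℂ] H)) hx hxM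
  have haM : a ∈ M := hA.1 haA
  have hm0 := mass_nonneg F
  have hv0 := famMass_nonneg V
  set K : ℝ := 4 * ‖x‖ ^ 2 * mass F + 2 with hK
  obtain ⟨n, hn⟩ : ∃ n : ℕ, K / τ ^ 2 < n := exists_nat_gt _
  set c : ℝ := τ / ((n + 1) * ((2 * r + 4) * (1 + ‖x‖) * (1 + mass F + famMass V))) with hc
  have hc0 : 0 < c := by positivity
  obtain ⟨q, hqM, hqp, hqξ, hev⟩ := exists_small_proj_gen F hA (hnd F) hτ hc0
  obtain ⟨Q, hmono, hsmall, hsum⟩ := exists_seq F hA hqp hev han hlim (n + 1)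
  obtain ⟨L, Y, hY, Z, hZ, heq, hb, hv⟩ :=
    exists_avg'' F hA hqM hqp hx hxM hr hc0.le Q hmono hsmall V n
  have hbound : ((n : ℝ) + 1) * stepErr F r c x V = τ := by
    rw [stepErr, hc]; field_simp
  rw [hbound] at hb hv
  set ρ : ℂ := ((1 - 1 / r : ℝ) : ℂ) with hρ
  set σ : ℂ := ((1 / ((n : ℝ) + 1) : ℝ) : ℂ) with hσ
  set E := σ • ∑ t ∈ Finset.range (n + 1), q * ((Q t).pinch x - a) * q with hE
  have hσn : σ * ((n + 1 : ℕ) : ℂ) = 1 := by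
    rw [hσ]
    push_cast
    exact one_div_mul_cancel (by exact_mod_cast Nat.succ_ne_zero n)
  have hE' : E = σ • (∑ t ∈ Finset.range (n + 1), q * (Q t).pinch x * q) - q * a * q := by
    rw [hE]
    simp only [mul_sub, sub_mul, Finset.sum_sub_distrib, Finset.sum_const, Finset.card_range,
      smul_sub, ← Nat.cast_smul_eq_nsmul ℂ, smul_smul, hσn, one_smul]
  have smulM : ∀ (t : ℂ) {y : H →L[ℂ] H}, y ∈ M → t • y ∈ M := fun t _ hy =>
    SMulMemClass.smul_mem (s := M.toStarSubalgebra) t hy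
  have hEM : E ∈ M := smulM _ (sum_mem fun t _ =>
    mul_mem (mul_mem hqM (sub_mem (pinch_mem' hA (Q t) hxM) haM)) hqM)
  refine ⟨fun i => (Q n).piece L i, a, q, Y, Z + ρ • E,
    fun i => ⟨WPart.piece_mem _ L i, WPart.piece_proj _ L i⟩,
    fun i j hij => by simp only [WPart.piece_mul_piece, if_neg hij], WPart.sum_piece _ L, haA, has,
    han, hqM, hqp, hY, add_mem hZ (smulM _ hEM), ?_, fun ξ hξ => ?_, hv⟩
  · have e2 : ((1 / r : ℝ) : ℂ) • (q * a * q) + ρ • (q * a * q) = q * a * q := by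
      rw [← add_smul, hρ, ← Complex.ofReal_add, add_sub_cancel, Complex.ofReal_one, one_smul]
    rw [← add_assoc (Y + star Y), ← heq, hE', mul_sub, sub_mul, mul_sub q x, sub_mul,
      smul_sub, smul_sub]
    conv_lhs => rw [← e2]
    abel
  · obtain ⟨b1, b2⟩ := hb ξ hξ
    refine ⟨(hqξ ξ hξ).le, b1, ?_⟩
    have hρ1 : ‖ρ‖ ≤ 1 := by
      have hr1 : (1 : ℝ) ≤ r := by exact_mod_cast hr
      have : 1 / (r : ℝ) ≤ 1 := by rw [div_le_one (by positivity)]; exact hr1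
      rw [hρ, Complex.norm_real, Real.norm_eq_abs, abs_of_nonneg (by linarith)]
      linarith [show 0 ≤ 1 / (r : ℝ) by positivity]
    have b3 : ‖E ξ‖ ≤ τ := by
      refine (pow_le_pow_iff_left₀ (norm_nonneg _) hτ.le two_ne_zero).1 ?_
      rw [hE, smul_apply, norm_smul, mul_pow, hσ, Complex.norm_real, Real.norm_eq_abs,
        abs_of_nonneg (by positivity)]
      refine (mul_le_mul_of_nonneg_left (hsum ξ hξ) (sq_nonneg _)).trans ?_
      have hξm : (2 * ‖x‖ * ‖ξ‖) ^ 2 + 2 ≤ K := by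
        have : ‖ξ‖ ^ 2 ≤ mass F :=
          Finset.single_le_sum (f := fun y : H => ‖y‖ ^ 2) (fun _ _ => sq_nonneg _) hξ
        rw [hK, mul_pow, mul_pow]
        nlinarith [sq_nonneg ‖x‖]
      rw [Nat.cast_add, Nat.cast_one]
      calc _ ≤ (1 / ((n : ℝ) + 1)) ^ 2 * (((n : ℝ) + 1) * K) := by gcongr
        _ = K / ((n : ℝ) + 1) := by field_simp
        _ ≤ τ ^ 2 := by
          rw [div_le_iff₀ (by positivity)]
          rw [div_lt_iff₀ (by positivity)] at hn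
          nlinarith [sq_nonneg τ]
    rw [add_apply, smul_apply]
    refine (norm_add_le _ _).trans ?_
    rw [norm_smul]
    have := mul_le_of_le_one_left (norm_nonneg (E ξ)) hρ1
    linarith

end Vale.Agent.P078.Type3
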