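import Mathlib
import Vale.Agent.P078.SingNull
import Vale.Agent.P078.SplitMain
import Vale.Agent.P078.Type3.VecCentral

/-! Supports of centralised families and their supremum. -/

noncomputable section

open scoped InnerProductSpace ComplexOrder
open Filter Topology

namespace Vale.Agent.P078.Type3

universe u

open Semi Semi.Ctx Sing

variable {H : Type u} [NormedAddCommGroup H] [InnerProductSpace ℂ H] [CompleteSpace H]
variable (M : VonNeumannAlgebra H) {A : StarSubalgebra ℂ (H →L[ℂ] H)}

/-- the closed span of a family under the commutant -/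
def suppK (η : ℕ → H) : Submodule ℂ H :=
  (Submodule.span ℂ {v | ∃ z ∈ M.commutant, ∃ n, v = z (η n)}).topologicalClosure

instance (η : ℕ → H) : CompleteSpace (suppK M η) :=
  (Submodule.isClosed_topologicalClosure _).completeSpace_coe

/-- the support projection of a family -/
def suppP (η : ℕ → H) : H →L[ℂ] H := (suppK M η).starProjection

variable {M}

lemma suppP_proj (η : ℕ → H) : IsStarProjection (suppP M η) := isStarProjection_starProjection

lemma suppK_inv {z : H →L[ℂ] H} (hz : z ∈ M.commutant) (η : ℕ → H) :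
    ∀ v ∈ suppK M η, z v ∈ suppK M η := by
  intro v hv
  refine map_mem_closure z.continuous hv fun u hu => ?_
  have : Submodule.span ℂ {v | ∃ z ∈ M.commutant, ∃ n, v = z (η n)} ≤
      (Submodule.span ℂ {v | ∃ z ∈ M.commutant, ∃ n, v = z (η n)}).comap z.toLinearMap := by
    refine Submodule.span_le.2 ?_
    rintro _ ⟨y, hy, n, rfl⟩
    exact Submodule.subset_span ⟨z * y, mul_mem hz hy, n, rfl⟩
  exact this hu

lemma suppP_mem (η : ℕ → H) : suppP M η ∈ M := Semi.mem_of_commute fun _ hy =>
  commute_starProjection _ (suppK_inv hy η) (suppK_inv (star_mem hy) η)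

lemma suppP_apply (η : ℕ → H) (n : ℕ) : suppP M η (η n) = η n :=
  Submodule.starProjection_eq_self_iff.2 (Submodule.le_topologicalClosure _
    (Submodule.subset_span ⟨1, one_mem _, n, rfl⟩))

lemma suppP_min {η : ℕ → H} {x : H →L[ℂ] H} (hx : x ∈ M) (h : ∀ n, x (η n) = 0) :
    x * suppP M η = 0 := by
  have hle : suppK M η ≤ LinearMap.ker x.toLinearMap := by
    refine Submodule.topologicalClosure_minimal _ (Submodule.span_le.2 ?_)
      (ContinuousLinearMap.isClosed_ker _)
    rintro _ ⟨z, hz, n, rfl⟩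
    have e := congrArg (fun T : H →L[ℂ] H => T (η n)) (Semi.commute_of_mem hx hz)
    simp only [mul_apply_eq_comp, h n, map_zero] at e
    exact LinearMap.mem_ker.2 e.symm
  ext v
  exact hle ((suppK M η).starProjection_apply_mem v)

lemma summable_inner_apply {η : ℕ → H} (hη : Summable fun n => ‖η n‖ ^ 2) (T : H →L[ℂ] H) :
    Summable fun n => ⟪η n, T (η n)⟫_ℂ := by
  refine Summable.of_norm_bounded (hη.mul_left ‖T‖) fun n => ?_
  refine (norm_inner_le_norm _ _).trans ?_
  rw [pow_two, mul_left_comm]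
  exact mul_le_mul_of_nonneg_left (T.le_opNorm _) (norm_nonneg _)

lemma suppP_apply_masa (hA : IsMASA M A) {η : ℕ → H} (hη : IsCentralFamily M A η)
    {a : H →L[ℂ] H} (ha : a ∈ A) (n : ℕ) : suppP M η (a (η n)) = a (η n) := by
  set s := suppP M η with hs
  have hsp : IsStarProjection (1 - s) := (suppP_proj η).one_sub
  have h1 : (∑' k, ⟪η k, (star a * ((1 - s) * a)) (η k)⟫_ℂ) = 0 := by
    rw [hη.2 _ (star_mem ha) _ (mul_mem (sub_mem (one_mem M) (suppP_mem η)) (hA.1 ha))]
    rw [tsum_congr (g := fun _ => (0 : ℂ)) fun k => ?_, tsum_zero]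
    have h0 : (1 - s) (η k) = 0 := by
      rw [sub_apply, one_apply_eq_self, hs, suppP_apply, sub_self]
    rw [mul_assoc, mul_apply_eq_comp, ← ContinuousLinearMap.adjoint_inner_left,
      ← ContinuousLinearMap.star_eq_adjoint, hsp.isSelfAdjoint.star_eq, h0, inner_zero_left]
  have h2 : ∀ k, ⟪η k, (star a * ((1 - s) * a)) (η k)⟫_ℂ =
      ((‖(1 - s) (a (η k))‖ ^ 2 : ℝ) : ℂ) := fun k => by
    rw [mul_apply_eq_comp, mul_apply_eq_comp, ContinuousLinearMap.star_eq_adjoint,
      ContinuousLinearMap.adjoint_inner_right]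
    have e : ⟪a (η k), (1 - s) (a (η k))⟫_ℂ = ⟪(1 - s) (a (η k)), (1 - s) (a (η k))⟫_ℂ := by
      conv_rhs => rw [← ContinuousLinearMap.adjoint_inner_right,
        ← ContinuousLinearMap.star_eq_adjoint, hsp.isSelfAdjoint.star_eq, ← mul_apply_eq_comp,
        hsp.isIdempotentElem.eq]
    rw [e]
    rw [inner_self_eq_norm_sq_to_K]
    norm_cast
  rw [tsum_congr h2, ← Complex.ofReal_tsum, Complex.ofReal_eq_zero] at h1
  have hsum : Summable fun k => ‖((1 - s) * a) (η k)‖ ^ 2 := summable_apply _ hη.1
  have h3 := (hasSum_zero_iff_of_nonneg fun k => sq_nonneg ‖(1 - s) (a (η k))‖).1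
    (h1 ▸ hsum.hasSum)
  have h4 := congrFun h3 n
  simp only [Pi.zero_apply, pow_eq_zero_iff two_ne_zero, norm_eq_zero] at h4
  rw [sub_apply, one_apply_eq_self, sub_eq_zero] at h4
  exact h4.symm

lemma suppP_mem_masa (hA : IsMASA M A) {η : ℕ → H} (hη : IsCentralFamily M A η) :
    suppP M η ∈ A := by
  have inv : ∀ a ∈ A, ∀ v ∈ suppK M η, a v ∈ suppK M η := by
    intro a ha v hv
    have hle : Submodule.span ℂ {v | ∃ z ∈ M.commutant, ∃ n, v = z (η n)} ≤
        (suppK M η).comap a.toLinearMap := by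
      refine Submodule.span_le.2 ?_
      rintro _ ⟨z, hz, n, rfl⟩
      show a (z (η n)) ∈ suppK M η
      have e := congrArg (fun T : H →L[ℂ] H => T (η n)) (Semi.commute_of_mem (hA.1 ha) hz)
      simp only [mul_apply_eq_comp] at e
      rw [← e]
      refine suppK_inv hz η _ ?_
      rw [← suppP_apply_masa hA hη ha n]
      exact Submodule.starProjection_apply_mem _ _
    exact Submodule.topologicalClosure_minimal _ hle
      ((Submodule.isClosed_topologicalClosure _).preimage a.continuous) hv
  exact Bridge.mem_masa_of_commute hA (suppP_mem η) (suppP_proj η).isSelfAdjoint.star_eq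
    fun a ha => (commute_starProjection _ (inv a ha) (inv _ (star_mem ha))).symm

lemma isCentralFamily_zero : IsCentralFamily M A (0 : ℕ → H) :=
  ⟨by simp, fun a _ x _ => by simp⟩

lemma exists_join {η η' : ℕ → H} (hη : IsCentralFamily M A η) (hη' : IsCentralFamily M A η') :
    ∃ ζ : ℕ → H, IsCentralFamily M A ζ ∧ suppP M ζ * suppP M η = suppP M η ∧
      suppP M ζ * suppP M η' = suppP M η' := by
  set ζ : ℕ → H := fun n => Sum.elim η η' (Equiv.natSumNatEquivNat.symm n) with hζ
  refine ⟨ζ, ⟨?_, fun a ha x hx => ?_⟩, ?_, ?_⟩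
  · exact (Equiv.natSumNatEquivNat.symm.summable_iff
      (f := fun p => ‖Sum.elim η η' p‖ ^ 2)).2 (Summable.sum _ hη.1 hη'.1)
  · have e : ∀ T : H →L[ℂ] H, (∑' n, ⟪ζ n, T (ζ n)⟫_ℂ) =
        (∑' n, ⟪η n, T (η n)⟫_ℂ) + ∑' n, ⟪η' n, T (η' n)⟫_ℂ := by
      intro T
      rw [hζ, Equiv.natSumNatEquivNat.symm.tsum_eq
        (fun p => ⟪Sum.elim η η' p, T (Sum.elim η η' p)⟫_ℂ)]
      exact Summable.tsum_sum (f := fun p => ⟪Sum.elim η η' p, T (Sum.elim η η' p)⟫_ℂ)
        (summable_inner_apply hη.1 T) (summable_inner_apply hη'.1 T)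
    rw [e, e, hη.2 a ha x hx, hη'.2 a ha x hx]
  all_goals
    refine (sub_eq_zero.1 ?_).symm
    conv_lhs => arg 1; rw [← one_mul (suppP M _)]
    rw [← sub_mul]
    refine suppP_min (sub_mem (one_mem M) (suppP_mem ζ)) fun n => ?_
    rw [sub_apply, one_apply_eq_self, sub_eq_zero]
  · have := suppP_apply (M := M) ζ (Equiv.natSumNatEquivNat (Sum.inl n))
    simp only [hζ, Equiv.symm_apply_apply, Sum.elim_inl] at this ⊢
    exact this.symm
  · have := suppP_apply (M := M) ζ (Equiv.natSumNatEquivNat (Sum.inr n))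
    simp only [hζ, Equiv.symm_apply_apply, Sum.elim_inr] at this ⊢
    exact this.symm

/-- the supports -/
def supports (M : VonNeumannAlgebra H) (A : StarSubalgebra ℂ (H →L[ℂ] H)) : Set (H →L[ℂ] H) :=
  {s | ∃ η, IsCentralFamily M A η ∧ s = suppP M η}

/-- the largest projection carried by centralised families -/
def centralPart (M : VonNeumannAlgebra H) (A : StarSubalgebra ℂ (H →L[ℂ] H)) : H →L[ℂ] H :=
  (sup' (supports M A)).starProjection

lemma centralPart_proj : IsStarProjection (centralPart M A) := isStarProjection_starProjection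

lemma centralPart_mem (hA : IsMASA M A) : centralPart M A ∈ A := by
  have hzM : centralPart M A ∈ M := sup'_mem fun s ⟨η, _, e⟩ => e ▸ suppP_mem η
  have inv : ∀ a ∈ A, ∀ v ∈ sup' (supports M A), a v ∈ sup' (supports M A) := by
    intro a ha v hv
    refine map_mem_closure a.continuous hv fun u hu => ?_
    have hle : Submodule.span ℂ {v | ∃ s ∈ supports M A, s v = v} ≤
        (Submodule.span ℂ {v | ∃ s ∈ supports M A, s v = v}).comap a.toLinearMap := by
      refine Submodule.span_le.2 ?_
      rintro u ⟨s, ⟨η, hη, hs⟩, hsu⟩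
      refine Submodule.subset_span ⟨s, ⟨η, hη, hs⟩, ?_⟩
      have hsA : s ∈ A := hs ▸ suppP_mem_masa hA hη
      show s (a u) = a u
      rw [← mul_apply_eq_comp, hA.2.1 _ hsA _ ha, mul_apply_eq_comp, hsu]
    exact hle hu
  exact Bridge.mem_masa_of_commute hA hzM centralPart_proj.isSelfAdjoint.star_eq
    fun a ha => (commute_starProjection _ (inv a ha) (inv _ (star_mem ha))).symm

lemma centralPart_mul {η : ℕ → H} (hη : IsCentralFamily M A η) :
    centralPart M A * suppP M η = suppP M η :=
  sup'_mul ⟨η, hη, rfl⟩ (suppP_proj η)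

/-- finitely many vectors see only one support -/
lemma exists_approx (hA : IsMASA M A) (F : Finset H) {δ : ℝ} (hδ : 0 < δ) :
    ∃ η : ℕ → H, IsCentralFamily M A η ∧ ∀ ξ ∈ F, ‖(centralPart M A - suppP M η) ξ‖ < δ := by
  classical
  have gen : ∀ u ∈ Submodule.span ℂ {v | ∃ s ∈ supports M A, s v = v},
      ∃ η : ℕ → H, IsCentralFamily M A η ∧ suppP M η u = u := by
    intro u hu
    induction hu using Submodule.span_induction with
    | mem u hu =>
      obtain ⟨s, ⟨η, hη, hs⟩, hsu⟩ := hu
      exact ⟨η, hη, hs ▸ hsu⟩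
    | zero => exact ⟨0, isCentralFamily_zero, map_zero _⟩
    | add a b _ _ ha hb =>
      obtain ⟨η, hη, e⟩ := ha
      obtain ⟨η', hη', e'⟩ := hb
      obtain ⟨ζ, hζ, j, j'⟩ := exists_join hη hη'
      refine ⟨ζ, hζ, ?_⟩
      rw [map_add, ← e, ← e', ← mul_apply_eq_comp, ← mul_apply_eq_comp, j, j']
    | smul a b _ hb =>
      obtain ⟨η, hη, e⟩ := hb
      exact ⟨η, hη, by rw [map_smul, e]⟩
  induction F using Finset.induction_on with
  | empty => exact ⟨0, isCentralFamily_zero, by simp⟩
  | @insert ξ F hξ ih =>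
    obtain ⟨η, hη, hF⟩ := ih
    have hmem : centralPart M A ξ ∈ sup' (supports M A) :=
      (sup' (supports M A)).starProjection_apply_mem ξ
    obtain ⟨u, hu, hud⟩ := Metric.mem_closure_iff.1 hmem δ hδ
    obtain ⟨η', hη', e'⟩ := gen u hu
    obtain ⟨ζ, hζ, j, j'⟩ := exists_join hη hη'
    refine ⟨ζ, hζ, fun v hv => ?_⟩
    have hsz : ∀ {θ : ℕ → H}, IsCentralFamily M A θ →
        centralPart M A - suppP M θ = (1 - suppP M θ) * centralPart M A := by
      intro θ hθ
      have := congrArg star (centralPart_mul hθ)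
      rw [star_mul, centralPart_proj.isSelfAdjoint.star_eq,
        (suppP_proj θ).isSelfAdjoint.star_eq] at this
      rw [sub_mul, one_mul, this]
    rcases Finset.mem_insert.1 hv with rfl | hv
    · rw [hsz hζ, mul_apply_eq_comp]
      have e : (1 - suppP M ζ) (centralPart M A v) = (1 - suppP M ζ) (centralPart M A v - u) := by
        have hu0 : (1 - suppP M ζ) u = 0 := by
          rw [sub_apply, one_apply_eq_self, ← e', ← mul_apply_eq_comp, j', sub_self]
        rw [map_sub _ _ u, hu0, sub_zero]
      rw [e]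
      refine lt_of_le_of_lt (proj_apply_norm_le (suppP_proj ζ).one_sub _) ?_
      rwa [← dist_eq_norm]
    · have e : centralPart M A - suppP M ζ =
          (1 - suppP M ζ) * (centralPart M A - suppP M η) := by
        rw [hsz hζ, sub_mul, sub_mul, one_mul, one_mul, mul_sub (suppP M ζ), j]
        abel
      rw [e, mul_apply_eq_comp]
      exact lt_of_le_of_lt (proj_apply_norm_le (suppP_proj ζ).one_sub _) (hF v hv)

/-- the rest carries no centralised family -/
lemma eq_zero_of_compl {η : ℕ → H} (hη : IsCentralFamily M A η)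
    (h : ∀ n, (1 - centralPart M A) (η n) = η n) (n : ℕ) : η n = 0 := by
  have e1 : centralPart M A (η n) = η n := by
    conv_lhs => rw [← suppP_apply (M := M) η n, ← mul_apply_eq_comp, centralPart_mul hη]
    exact suppP_apply η n
  have e2 := h n
  rw [sub_apply, one_apply_eq_self, e1, sub_self] at e2
  exact e2.symm

/-- a corner at a support -/
lemma faithful_corner (hA : IsMASA M A) {η : ℕ → H} (hη : IsCentralFamily M A η)
    (K : Submodule ℂ H) [K.HasOrthogonalProjection] [CompleteSpace K]
    (hK : K.starProjection = suppP M η) (hKA : K.starProjection ∈ A) :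
    HasFaithfulCentralState (cornerVNA K M (hA.1 hKA)) (cornerAlg K A hKA) := by
  set η' : ℕ → K := fun n => K.orthogonalProjectionOnto (η n) with hη'
  have hc : ∀ n, (η' n : H) = η n := fun n => by
    show K.starProjection (η n) = η n
    rw [hK, suppP_apply]
  refine ⟨η', ⟨?_, fun a ha x hx => ?_⟩, fun x hx h => ?_⟩
  · refine hη.1.congr fun n => ?_
    rw [← hc n, Submodule.norm_coe]
  · have e : ∀ T : K →L[ℂ] K,
        (∑' n, ⟪η' n, T (η' n)⟫_ℂ) = ∑' n, ⟪η n, lift K T (η n)⟫_ℂ := fun T => by
      refine tsum_congr fun n => ?_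
      rw [← inner_proj K T (η n)]
    rw [e, e, lift_mul, lift_mul]
    exact hη.2 _ ha _ hx
  · refine lift_injective K ?_
    rw [lift_zero]
    have h0 : lift K x * suppP M η = 0 := suppP_min hx fun n => by
      rw [lift_apply, h n, ZeroMemClass.coe_zero]
    rwa [← hK, ← lift_one K, ← lift_mul, mul_one] at h0

/-- no dominated corner on the rest -/
lemma noDominated_corner (hA : IsMASA M A) (K : Submodule ℂ H) [K.HasOrthogonalProjection]
    [CompleteSpace K] (hK : K.starProjection = 1 - centralPart M A)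
    (hKA : K.starProjection ∈ A) (F : Finset K) :
    NoDominatedCorner F (Split.isMASA_corner' hA K hKA) := by
  intro r hrM hrp η hdom
  refine le_of_not_gt fun hpos => ?_
  obtain ⟨ζ, hζ, n, hn⟩ :=
    family_of_dominated F (Split.isMASA_corner' hA K hKA) hrp hrM η hdom hpos
  have hP : IsStarProjection K.starProjection := isStarProjection_starProjection
  have hmemK : ∀ y ∈ M, compress K y ∈ cornerVNA K M (hA.1 hKA) := fun y hy => by
    rw [mem_cornerVNA, lift_compress]
    exact mul_mem (mul_mem (hA.1 hKA) hy) (hA.1 hKA)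
  have hmemA : ∀ a ∈ A, compress K a ∈ cornerAlg K A hKA := fun a ha => by
    rw [mem_cornerAlg, lift_compress]
    exact mul_mem (mul_mem hKA ha) hKA
  have hh : ∀ z, K.starProjection * (K.starProjection * z) = K.starProjection * z := fun z => by
    rw [← mul_assoc, hP.isIdempotentElem.eq]
  have hmul : ∀ a ∈ A, ∀ x, compress K (a * x) = compress K a * compress K x ∧
      compress K (x * a) = compress K x * compress K a := by
    intro a ha x
    constructor <;> refine lift_injective K ?_ <;>
      rw [lift_mul, lift_compress, lift_compress, lift_compress]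
    · rw [← mul_assoc, hA.2.1 _ hKA _ ha]
      simp only [mul_assoc, hh, hP.isIdempotentElem.eq]
    · simp only [mul_assoc, hh]
      rw [← mul_assoc K.starProjection a K.starProjection, hA.2.1 _ hKA _ ha, mul_assoc,
        hP.isIdempotentElem.eq]
  have hfam : IsCentralFamily M A fun n => (ζ n : H) := by
    refine ⟨hζ.1.congr fun n => by rw [Submodule.norm_coe], fun a ha x hx => ?_⟩
    have e : ∀ T : H →L[ℂ] H, (∑' n, ⟪(ζ n : H), T (ζ n)⟫_ℂ) =
        ∑' n, ⟪ζ n, compress K T (ζ n)⟫_ℂ := fun T => by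
      refine tsum_congr fun n => ?_
      exact (Submodule.inner_orthogonalProjectionOnto_eq_of_mem_left (ζ n) (T (ζ n))).symm
    rw [e, e, (hmul a ha x).1, (hmul a ha x).2]
    exact hζ.2 _ (hmemA a ha) _ (hmemK x hx)
  refine hn (Subtype.ext (eq_zero_of_compl hfam (fun m => ?_) n))
  rw [← hK]
  exact Submodule.starProjection_eq_self_iff.2 (ζ m).2

end Vale.Agent.P078.Type3
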