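import Mathlib
import Vale.Agent.P078.SemiMain
import Vale.Agent.P078.Type3.Support
import Vale.Agent.P078.Type3.Relabel

/-! So-paving reduces to faithful normal functionals centralised by the subalgebra. -/

noncomputable section

open scoped InnerProductSpace ComplexOrder
open Filter Topology

namespace Vale.Agent.P078.Type3

universe u

open Semi Semi.Ctx Sing

variable {H : Type u} [NormedAddCommGroup H] [InnerProductSpace ℂ H] [CompleteSpace H]
variable {M : VonNeumannAlgebra H} {A : StarSubalgebra ℂ (H →L[ℂ] H)}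

/-- one projection making four operators small -/
lemma exists_cut_four {U₁ U₂ U₃ U₄ : H →L[ℂ] H} (h₁ : U₁ ∈ M) (h₂ : U₂ ∈ M) (h₃ : U₃ ∈ M)
    (h₄ : U₄ ∈ M) {c : ℝ} (hc : 0 < c) :
    ∃ R ∈ M, IsStarProjection R ∧ ‖U₁ * (1 - R)‖ ≤ c ∧ ‖U₂ * (1 - R)‖ ≤ c ∧
      ‖U₃ * (1 - R)‖ ≤ c ∧ ‖U₄ * (1 - R)‖ ≤ c ∧
      ∀ v, ‖R v‖ ^ 2 ≤
        c⁻¹ ^ 2 * (‖U₁ v‖ ^ 2 + ‖U₂ v‖ ^ 2 + (‖U₃ v‖ ^ 2 + ‖U₄ v‖ ^ 2)) := by
  set T := star U₁ * U₁ + star U₂ * U₂ + (star U₃ * U₃ + star U₄ * U₄) with hT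
  set k := cfc Real.sqrt T with hk
  have hT0 : 0 ≤ T := add_nonneg (add_nonneg (star_mul_self_nonneg U₁) (star_mul_self_nonneg U₂))
    (add_nonneg (star_mul_self_nonneg U₃) (star_mul_self_nonneg U₄))
  have hks : IsSelfAdjoint k := IsSelfAdjoint.cfc
  have hkM : k ∈ M := cfc_mem (add_mem (add_mem (mul_mem (star_mem h₁) h₁) (mul_mem (star_mem h₂) h₂))
    (add_mem (mul_mem (star_mem h₃) h₃) (mul_mem (star_mem h₄) h₄))) _
  have hkk : star k * k = T := by
    rw [hks.star_eq, hk, ← cfc_mul _ _ T Real.continuous_sqrt.continuousOn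
      Real.continuous_sqrt.continuousOn]
    exact (cfc_congr fun t ht => Real.mul_self_sqrt (spectrum_nonneg_of_nonneg hT0 ht)).trans
      (cfc_id' ℝ T (IsSelfAdjoint.of_nonneg hT0))
  have e : ∀ (U : H →L[ℂ] H) v, ‖U v‖ ^ 2 = (⟪v, (star U * U) v⟫_ℂ).re := fun U v => by
    rw [mul_apply_eq_comp, ContinuousLinearMap.star_eq_adjoint,
      ContinuousLinearMap.adjoint_inner_right, inner_self_eq_norm_sq_to_K]
    norm_cast
  have hkv : ∀ v, ‖k v‖ ^ 2 = ‖U₁ v‖ ^ 2 + ‖U₂ v‖ ^ 2 + (‖U₃ v‖ ^ 2 + ‖U₄ v‖ ^ 2) := by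
    intro v
    rw [e k, hkk, hT, e U₁, e U₂, e U₃, e U₄]
    simp only [add_apply, inner_add_right, Complex.add_re]
  obtain ⟨R, hRM, hRp, hkR, hRv, -, -⟩ := cut_comm M hks hkM hc
  have main : ∀ U : H →L[ℂ] H, (∀ v, ‖U v‖ ^ 2 ≤ ‖k v‖ ^ 2) → ‖U * (1 - R)‖ ≤ c := by
    intro U hU
    refine ContinuousLinearMap.opNorm_le_bound _ hc.le fun v => ?_
    rw [mul_apply_eq_comp]
    refine ((pow_le_pow_iff_left₀ (norm_nonneg _) (norm_nonneg _) two_ne_zero).1 (hU _)).trans ?_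
    exact ((k * (1 - R)).le_opNorm v).trans (mul_le_mul_of_nonneg_right hkR (norm_nonneg _))
  refine ⟨R, hRM, hRp, main _ fun v => ?_, main _ fun v => ?_, main _ fun v => ?_,
    main _ fun v => ?_, fun v => ?_⟩
  · rw [hkv]; linarith [sq_nonneg ‖U₂ v‖, sq_nonneg ‖U₃ v‖, sq_nonneg ‖U₄ v‖]
  · rw [hkv]; linarith [sq_nonneg ‖U₁ v‖, sq_nonneg ‖U₃ v‖, sq_nonneg ‖U₄ v‖]
  · rw [hkv]; linarith [sq_nonneg ‖U₁ v‖, sq_nonneg ‖U₂ v‖, sq_nonneg ‖U₄ v‖]
  · rw [hkv]; linarith [sq_nonneg ‖U₁ v‖, sq_nonneg ‖U₂ v‖, sq_nonneg ‖U₃ v‖]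
  · rw [← hkv, ← mul_pow]
    exact pow_le_pow_left₀ (norm_nonneg _) (hRv v) 2

/-- paving data in a corner carried by a support -/
lemma corner_data {ε₀ : ℝ} {r : ℕ} (hε₀ : 0 ≤ ε₀)
    (hcore : ∀ (K : Type u) [NormedAddCommGroup K] [InnerProductSpace ℂ K] [CompleteSpace K]
      (N : VonNeumannAlgebra K) (B : StarSubalgebra ℂ (K →L[ℂ] K)),
      HasFaithfulCentralState N B → IsMASA N B →
        ∀ y ∈ N, IsSelfAdjoint y → SoPavable N B y ε₀ r)
    (hA : IsMASA M A) {η : ℕ → H} (hη : IsCentralFamily M A η) {x : H →L[ℂ] H} (hxM : x ∈ M)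
    (hx : IsSelfAdjoint x) (F : Finset H) {δ : ℝ} (hδ : 0 < δ) :
    ∃ (p : Fin r → H →L[ℂ] H) (a q : H →L[ℂ] H), (∀ i, p i ∈ A ∧ IsStarProjection (p i)) ∧
      (∀ i j, i ≠ j → p i * p j = 0) ∧ ∑ i, p i = suppP M η ∧ a ∈ A ∧ IsSelfAdjoint a ∧
      ‖a‖ ≤ ‖x‖ ∧ suppP M η * a = a ∧ q ∈ M ∧ IsStarProjection q ∧ suppP M η * q = q ∧
      (∀ ξ ∈ F, ‖(suppP M η - q) ξ‖ < δ) ∧
      ‖q * ((∑ i, p i * x * p i) - a) * q‖ ≤ ε₀ * ‖x‖ := by
  classical
  set K : Submodule ℂ H := suppK M η with hKdef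
  have hK : K.starProjection = suppP M η := rfl
  have hKA : K.starProjection ∈ A := suppP_mem_masa hA hη
  have hxe : compress K x ∈ cornerVNA K M (hA.1 hKA) := by
    rw [mem_cornerVNA, lift_compress]
    exact mul_mem (mul_mem (hA.1 hKA) hxM) (hA.1 hKA)
  obtain ⟨p, hpA, hporth, hpsum, a, haA, has, han, q, hqN, hqp, hqF, hbd⟩ :=
    hcore K _ _ (faithful_corner hA hη K hK hKA) (Split.isMASA_corner' hA K hKA) _ hxe
      (Split.compress_sa K hx) (F.image fun v => K.orthogonalProjectionOnto v) δ hδ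
  have hproj : ∀ T : K →L[ℂ] K, IsStarProjection T → IsStarProjection (lift K T) := fun T hT =>
    ⟨by rw [IsIdempotentElem, ← lift_mul, hT.isIdempotentElem.eq],
      show star (lift K T) = lift K T by rw [lift_star, hT.isSelfAdjoint.star_eq]⟩
  have hle : ∀ T : K →L[ℂ] K, suppP M η * lift K T = lift K T := fun T => by
    rw [← hK, ← lift_one K, ← lift_mul, one_mul]
  refine ⟨fun i => lift K (p i), lift K a, lift K q, fun i => ⟨(hpA i).1, hproj _ (hpA i).2⟩,
    fun i j hij => by rw [← lift_mul, hporth i j hij, lift_zero],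
    by rw [← lift_sum, hpsum, lift_one, hK], haA,
    show star (lift K a) = lift K a by rw [lift_star, has.star_eq],
    (norm_lift_le K a).trans (han.trans (norm_compress_le K x)), hle a, hqN, hproj q hqp, hle q,
    fun ξ hξ => ?_, ?_⟩
  · have h1 : suppP M η - lift K q = lift K (1 - q) := by rw [lift_sub, lift_one, hK]
    rw [h1, lift_apply, Submodule.norm_coe]
    exact hqF _ (Finset.mem_image_of_mem _ hξ)
  · have e1 : ∀ i, lift K (p i) * x * lift K (p i) = lift K (p i * compress K x * p i) := by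
      intro i
      rw [lift_mul, lift_mul, lift_compress]
      have a1 : lift K (p i) * K.starProjection = lift K (p i) := by
        rw [← lift_one K, ← lift_mul, mul_one]
      have a2 : K.starProjection * lift K (p i) = lift K (p i) := by
        rw [← lift_one K, ← lift_mul, one_mul]
      simp only [← mul_assoc, a1]
      rw [mul_assoc _ K.starProjection, a2]
    simp only [e1]
    rw [← lift_sum, ← lift_sub, ← lift_mul, ← lift_mul]
    exact (norm_lift_le K _).trans (hbd.trans (mul_le_mul_of_nonneg_left (norm_compress_le K x) hε₀))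

/-- balanced paving data on the part without centralised families -/
lemma rest_data (hA : IsMASA M A) {x : H →L[ℂ] H} (hxM : x ∈ M) (hx : IsSelfAdjoint x) {r : ℕ}
    (hr : 0 < r) (F : Finset H) (U : H → Fin r → H) {τ : ℝ} (hτ : 0 < τ) :
    ∃ (P : Fin r → H →L[ℂ] H) (a q Y Z : H →L[ℂ] H),
      (∀ i, P i ∈ A ∧ IsStarProjection (P i)) ∧ (∀ i j, i ≠ j → P i * P j = 0) ∧
      ∑ i, P i = 1 - centralPart M A ∧
      a ∈ A ∧ IsSelfAdjoint a ∧ ‖a‖ ≤ ‖x‖ ∧ (1 - centralPart M A) * a = a ∧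
      q ∈ M ∧ IsStarProjection q ∧ (1 - centralPart M A) * q = q ∧ Y ∈ M ∧ Z ∈ M ∧
      q * ((∑ i, P i * x * P i) - a) * q =
        ((1 / r : ℝ) : ℂ) • (q * (x - a) * q) + (Y + star Y + Z) ∧
      ∀ ξ ∈ F, ‖((1 - centralPart M A) - q) ξ‖ ≤ τ ∧ ‖Y ξ‖ ≤ τ ∧ ‖Z ξ‖ ≤ 2 * τ ∧
        ‖q (∑ i, P i (U ξ i)) - ((1 / r : ℝ) : ℂ) • ∑ i, q (U ξ i)‖ ≤ τ := by
  classical
  set w := 1 - centralPart M A with hw
  have hwA : w ∈ A := sub_mem (one_mem A) (centralPart_mem hA)
  set K : Submodule ℂ H := Split.ran w with hKdef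
  have hK : K.starProjection = w := Split.ran_proj centralPart_proj.one_sub
  have hKA : K.starProjection ∈ A := by rw [hK]; exact hwA
  have hxe : compress K x ∈ cornerVNA K M (hA.1 hKA) := by
    rw [mem_cornerVNA, lift_compress]
    exact mul_mem (mul_mem (hA.1 hKA) hxM) (hA.1 hKA)
  obtain ⟨P, a, q, Y, Z, hPA, hPorth, hPsum, haA, has, han, hqN, hqp, hYN, hZN, hkey, hFb, hV⟩ :=
    exists_relabel (Split.isMASA_corner' hA K hKA) (fun F' => noDominated_corner hA K hK hKA F')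
      (Split.compress_sa K hx) hxe hr (F.image fun v => K.orthogonalProjectionOnto v)
      (fun (j : {v // v ∈ F}) i => K.orthogonalProjectionOnto (U j.1 i)) hτ
  have hproj : ∀ T : K →L[ℂ] K, IsStarProjection T → IsStarProjection (lift K T) := fun T hT =>
    ⟨by rw [IsIdempotentElem, ← lift_mul, hT.isIdempotentElem.eq],
      show star (lift K T) = lift K T by rw [lift_star, hT.isSelfAdjoint.star_eq]⟩
  have hle : ∀ T : K →L[ℂ] K, w * lift K T = lift K T := fun T =>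
    (congrArg (fun u => u * lift K T) hK).symm.trans (by rw [← lift_one K, ← lift_mul, one_mul])
  refine ⟨fun i => lift K (P i), lift K a, lift K q, lift K Y, lift K Z,
    fun i => ⟨(hPA i).1, hproj _ (hPA i).2⟩,
    fun i j hij => by rw [← lift_mul, hPorth i j hij, lift_zero],
    by rw [← lift_sum, hPsum, lift_one, hK], haA,
    show star (lift K a) = lift K a by rw [lift_star, has.star_eq],
    (norm_lift_le K a).trans (han.trans (norm_compress_le K x)), hle a, hqN, hproj q hqp, hle q,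
    hYN, hZN, ?_, fun ξ hξ => ?_⟩
  · have e1 : ∀ i, lift K (P i) * x * lift K (P i) = lift K (P i * compress K x * P i) := by
      intro i
      rw [lift_mul, lift_mul, lift_compress]
      have a1 : lift K (P i) * K.starProjection = lift K (P i) := by
        rw [← lift_one K, ← lift_mul, mul_one]
      have a2 : K.starProjection * lift K (P i) = lift K (P i) := by
        rw [← lift_one K, ← lift_mul, one_mul]
      simp only [← mul_assoc, a1]
      rw [mul_assoc _ K.starProjection, a2]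
    have e2 : lift K q * (x - lift K a) * lift K q = lift K (q * (compress K x - a) * q) := by
      have a1 : lift K q * K.starProjection = lift K q := by
        rw [← lift_one K, ← lift_mul, mul_one]
      have a2 : K.starProjection * lift K q = lift K q := by
        rw [← lift_one K, ← lift_mul, one_mul]
      rw [lift_mul, lift_mul, lift_sub, lift_compress, mul_sub (lift K q) (K.starProjection * x *
        K.starProjection), ← mul_assoc, ← mul_assoc, a1, sub_mul, mul_assoc _ K.starProjection, a2,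
        mul_sub, sub_mul]
    simp only [e1]
    rw [e2, ← lift_sum, ← lift_sub, ← lift_mul, ← lift_mul, hkey, lift_add, lift_smul, lift_add,
      lift_add, lift_star]
  · obtain ⟨b1, b2, b3⟩ := hFb _ (Finset.mem_image_of_mem _ hξ)
    refine ⟨?_, ?_, ?_, ?_⟩
    · have h1 : w - lift K q = lift K (1 - q) := by rw [lift_sub, lift_one, hK]
      rw [h1, lift_apply, Submodule.norm_coe]
      exact b1
    · rw [lift_apply, Submodule.norm_coe]; exact b2
    · rw [lift_apply, Submodule.norm_coe]; exact b3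
    · have e1 : ∀ i, lift K q (lift K (P i) (U ξ i)) =
          ((q (P i (K.orthogonalProjectionOnto (U ξ i))) : K) : H) := fun i => by
        rw [← mul_apply_eq_comp, ← lift_mul, lift_apply, mul_apply_eq_comp]
      have e2 : ∀ i, lift K q (U ξ i) = ((q (K.orthogonalProjectionOnto (U ξ i)) : K) : H) :=
        fun i => lift_apply K q _
      have h := hV ⟨ξ, hξ⟩
      rw [map_sum] at h
      rw [map_sum, Finset.sum_congr rfl fun i _ => e1 i, Finset.sum_congr rfl fun i _ => e2 i,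
        ← Submodule.coe_sum, ← Submodule.coe_sum, ← Submodule.coe_smul, ← Submodule.coe_sub,
        Submodule.norm_coe]
      exact h

lemma block_bounds {q₀ q' S a T x : H →L[ℂ] H} (hq₀ : IsStarProjection q₀)
    (hq' : IsStarProjection q') {c : ℝ} (hc : 0 ≤ c) (hT : q₀ * (S - a) * q₀ = T)
    (hSa : ‖S - a‖ ≤ 2 * ‖x‖) (hR1 : ‖(1 - q₀) * q'‖ ≤ c) :
    ‖q' * (S - a) * q'‖ ≤ ‖q' * T * q'‖ + 4 * c * ‖x‖ := by
  have e : q' * (S - a) * q' = q' * (q₀ * (S - a) * q₀) * q' +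
      ((q' * (1 - q₀)) * (S - a) * (q₀ * q') + q' * (S - a) * ((1 - q₀) * q')) := by
    noncomm_ring
  have n1 : ‖q' * (1 - q₀)‖ ≤ c := by
    rw [← norm_star, star_mul, hq₀.one_sub.isSelfAdjoint.star_eq, hq'.isSelfAdjoint.star_eq]
    exact hR1
  have n2 : ‖q₀ * q'‖ ≤ 1 := (norm_mul_le _ _).trans
    (mul_le_one₀ hq₀.norm_le (norm_nonneg _) hq'.norm_le)
  have m1 : ‖(q' * (1 - q₀)) * (S - a) * (q₀ * q')‖ ≤ c * (2 * ‖x‖) :=
    (norm_mul_le _ _).trans ((mul_le_of_le_one_right (norm_nonneg _) n2).trans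
      ((norm_mul_le _ _).trans (mul_le_mul n1 hSa (norm_nonneg _) hc)))
  have m2 : ‖q' * (S - a) * ((1 - q₀) * q')‖ ≤ 2 * ‖x‖ * c :=
    (norm_mul_le _ _).trans (mul_le_mul ((norm_mul_le _ _).trans
      ((mul_le_of_le_one_left (norm_nonneg _) hq'.norm_le).trans hSa)) hR1 (norm_nonneg _)
        (by positivity))
  rw [e, hT]
  refine (norm_add_le _ _).trans ?_
  have := (norm_add_le ((q' * (1 - q₀)) * (S - a) * (q₀ * q'))
    (q' * (S - a) * ((1 - q₀) * q'))).trans (add_le_add m1 m2)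
  linarith

lemma error_bound {q' main Y Z D : H →L[ℂ] H} (hq' : IsStarProjection q') {c b : ℝ}
    (hmain : ‖main‖ ≤ b) (hY : ‖Y * q'‖ ≤ c) (hZ : ‖Z * q'‖ ≤ c) (hD : ‖D * q'‖ ≤ c) :
    ‖q' * (main + (Y + star Y + Z + (D + star D))) * q'‖ ≤ b + 5 * c := by
  have side : ∀ T : H →L[ℂ] H, ‖T * q'‖ ≤ c → ‖q' * T * q'‖ ≤ c := fun T hT => by
    rw [mul_assoc]
    exact (norm_mul_le _ _).trans ((mul_le_of_le_one_left (norm_nonneg _) hq'.norm_le).trans hT)
  have sides : ∀ T : H →L[ℂ] H, ‖T * q'‖ ≤ c → ‖q' * star T * q'‖ ≤ c := fun T hT => by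
    have : q' * star T * q' = star (q' * T * q') := by
      simp only [star_mul, hq'.isSelfAdjoint.star_eq, mul_assoc]
    rw [this, norm_star]
    exact side T hT
  simp only [mul_add, add_mul]
  refine (norm_add_le _ _).trans ?_
  have h1 := (Sing.norm_conj_le' hq' hq' (y := main)).trans hmain
  have h2 := norm_add_le (q' * Y * q') (q' * star Y * q')
  have h3 := norm_add_le (q' * Y * q' + q' * star Y * q') (q' * Z * q')
  have h4 := norm_add_le (q' * D * q') (q' * star D * q')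
  have h5 := norm_add_le (q' * Y * q' + q' * star Y * q' + q' * Z * q')
    (q' * D * q' + q' * star D * q')
  linarith [side Y hY, sides Y hY, side Z hZ, side D hD, sides D hD]

lemma main_bound {e w qe q x a₁ a₂ : H →L[ℂ] H} {B : H →L[ℂ] H} (hqe : IsStarProjection qe)
    (hq : IsStarProjection q) (ha : ‖a₂‖ ≤ ‖x‖) {b : ℝ} (hB : ‖B‖ ≤ b) {r : ℕ} :
    ‖B + ((1 / r : ℝ) : ℂ) • (q * (x - a₂) * q + (qe * x * q + q * x * qe))‖ ≤
      b + (1 / r : ℝ) * (4 * ‖x‖) := by
  refine (norm_add_le _ _).trans (add_le_add hB ?_)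
  rw [norm_smul, Complex.norm_real, Real.norm_eq_abs, abs_of_nonneg (by positivity)]
  refine mul_le_mul_of_nonneg_left ?_ (by positivity)
  have h1 := (Sing.norm_conj_le' hq hq (y := x - a₂)).trans (norm_sub_le _ _)
  have h2 := Sing.norm_conj_le' hqe hq (y := x)
  have h3 := Sing.norm_conj_le' hq hqe (y := x)
  have h4 := norm_add_le (qe * x * q) (q * x * qe)
  have h5 := norm_add_le (q * (x - a₂) * q) (qe * x * q + q * x * qe)
  linarith

lemma split_identity {r : ℕ} {e z w qe q x a₁ a₂ Y Z : H →L[ℂ] H} (p Fp : Fin r → H →L[ℂ] H)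
    (i₀ : Fin r) (hep : ∀ i, e * p i = p i) (hpe : ∀ i, p i * e = p i)
    (hwF : ∀ i, w * Fp i = Fp i) (hFw : ∀ i, Fp i * w = Fp i)
    (hew : e * w = 0) (hwe : w * e = 0) (hez : e * (z - e) = 0) (hze : (z - e) * e = 0)
    (hwz : w * (z - e) = 0) (hzw : (z - e) * w = 0)
    (h1 : qe * e = qe) (h1' : e * qe = qe) (h2 : q * w = q) (h2' : w * q = q)
    (ha₁ : e * a₁ = a₁) (ha₁' : a₁ * e = a₁) (ha₂ : w * a₂ = a₂) (ha₂' : a₂ * w = a₂)
    (hp : ∀ i, star (p i) = p i) (hF : ∀ i, star (Fp i) = Fp i) (hqe : star qe = qe)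
    (hq : star q = q) (hx : star x = x)
    (hkey : q * ((∑ i, Fp i * x * Fp i) - a₂) * q =
      ((1 / r : ℝ) : ℂ) • (q * (x - a₂) * q) + (Y + star Y + Z)) :
    let P := fun i => p i + Fp i + if i = i₀ then z - e else 0
    let D := (∑ i, q * Fp i * x * p i * qe) - ((1 / r : ℝ) : ℂ) • (q * x * qe)
    (qe + q) * ((∑ i, P i * x * P i) - (a₁ + a₂)) * (qe + q) =
      qe * ((∑ i, p i * x * p i) - a₁) * qe +
          ((1 / r : ℝ) : ℂ) • (q * (x - a₂) * q + (qe * x * q + q * x * qe)) +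
        (Y + star Y + Z + (D + star D)) := by
  intro P D
  have h := Semi.Ctx.block_identity (qe := qe) (q := q) (x := x) (z := z) p Fp i₀ hep hpe hwF hFw
    hew hwe hez hze hwz hzw h1 h1' h2 h2' ha₁ ha₁' ha₂ ha₂'
  dsimp only at h
  rw [h]
  have e1 : q * (∑ i, Fp i * x * Fp i) * q - q * a₂ * q =
      ((1 / r : ℝ) : ℂ) • (q * (x - a₂) * q) + (Y + star Y + Z) := by
    rw [← hkey, mul_sub, sub_mul]
  have e2 : star D = (∑ i, qe * p i * x * Fp i * q) - ((1 / r : ℝ) : ℂ) • (qe * x * q) := by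
    simp only [D, star_sub, star_sum, star_smul, star_mul, Complex.star_def, Complex.conj_ofReal,
      hp, hF, hqe, hq, hx, mul_assoc]
  rw [e1, e2]
  simp only [D, smul_add]
  abel

end Vale.Agent.P078.Type3

open Vale.Agent.P078 Vale.Agent.P078.Type3 Vale.Agent.P078.Semi Vale.Agent.P078.Sing in
/-- So-paving for every MASA follows from the case of a faithful centralised functional. -/
theorem Vale.Agent.P078.soPavable_reduce.{u} {ε : ℝ} {r₀ r : ℕ} (hε : 0 < ε) (hr₀ : r₀ ≤ r)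
    (hr : 16 / ε ≤ (r : ℝ))
    (hcore : ∀ (K : Type u) [NormedAddCommGroup K] [InnerProductSpace ℂ K] [CompleteSpace K]
      (N : VonNeumannAlgebra K) (B : StarSubalgebra ℂ (K →L[ℂ] K)),
      HasFaithfulCentralState N B → IsMASA N B →
        ∀ y ∈ N, IsSelfAdjoint y → SoPavable N B y (ε / 2) r₀)
    {H : Type u} [NormedAddCommGroup H] [InnerProductSpace ℂ H] [CompleteSpace H]
    (M : VonNeumannAlgebra H) (A : StarSubalgebra ℂ (H →L[ℂ] H)) (hA : IsMASA M A)
    (x : H →L[ℂ] H) (hxM : x ∈ M) (hx : IsSelfAdjoint x) : SoPavable M A x ε r := by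
  classical
  intro F δ hδ
  have hr' : (0 : ℝ) < r := lt_of_lt_of_le (by positivity) hr
  have hrpos : 0 < r := Nat.cast_pos.1 hr'
  let i₀ : Fin r := ⟨0, hrpos⟩
  rcases eq_or_ne x 0 with rfl | hx0
  · refine ⟨fun i => if i = i₀ then 1 else 0, fun i => ?_, fun i j hij => ?_, by simp, 0,
      zero_mem _, IsSelfAdjoint.zero _, le_of_eq (by simp), 1, one_mem _, IsStarProjection.one _,
      fun ξ _ => by simpa using hδ, by simp⟩
    · dsimp only
      split_ifs
      · exact ⟨one_mem _, IsStarProjection.one _⟩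
      · exact ⟨zero_mem _, IsStarProjection.zero _⟩
    · dsimp only
      split_ifs with h1 h2
      · exact absurd (h1.trans h2.symm) hij
      all_goals simp
  have hxpos : 0 < ‖x‖ := norm_pos_iff.2 hx0
  set c : ℝ := ε * ‖x‖ / (20 * (1 + ‖x‖)) with hc
  have hc0 : 0 < c := by positivity
  set τ : ℝ := c * δ / 5 with hτ
  have hτ0 : 0 < τ := by positivity
  set z := centralPart M A with hz
  set w := 1 - z with hw
  have hzA : z ∈ A := centralPart_mem hA
  have hwA : w ∈ A := sub_mem (one_mem A) hzA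
  have hzp : IsStarProjection z := centralPart_proj
  obtain ⟨η, hη, happ⟩ := Type3.exists_approx hA F hτ0
  set e := suppP M η with he
  have heA : e ∈ A := suppP_mem_masa hA hη
  have hep : IsStarProjection e := suppP_proj η
  obtain ⟨p, a₁, qe, hp, hporth, hpsum, ha₁A, ha₁s, ha₁n, hea₁, hqeM, hqep, heqe, hqeF, hbd⟩ :=
    corner_data (r := r) (show (0 : ℝ) ≤ ε / 2 by positivity)
      (fun K _ _ _ N B hN hB y hy hys => (hcore K N B hN hB y hy hys).mono hr₀)
      hA hη hxM hx F hτ0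
  obtain ⟨Fp, a₂, q, Y, Z, hFp, hForth, hFsum, ha₂A, ha₂s, ha₂n, hwa₂, hqM, hqp, hwq, hYM, hZM,
    hkey, hb⟩ := rest_data hA hxM hx hrpos F (fun ξ i => x (p i (qe ξ))) hτ0
  rw [← hz, ← hw] at hFsum hwa₂ hwq hb
  rw [← he] at hpsum hea₁ heqe hqeF
  have comm : ∀ {u v : H →L[ℂ] H}, u ∈ A → v ∈ A → u * v = v * u := fun hu hv => hA.2.1 _ hu _ hv
  have hzme : z * e = e := centralPart_mul hη
  have hemz : e * z = e := by rw [comm heA hzA, hzme]
  have hwe : w * e = 0 := by rw [hw, sub_mul, one_mul, hzme, sub_self]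
  have hew : e * w = 0 := by rw [comm heA hwA, hwe]
  have hez : e * (z - e) = 0 := by rw [mul_sub, hemz, hep.isIdempotentElem.eq, sub_self]
  have hze' : (z - e) * e = 0 := by rw [sub_mul, hzme, hep.isIdempotentElem.eq, sub_self]
  have hwz0 : w * z = 0 := by rw [hw, sub_mul, one_mul, hzp.isIdempotentElem.eq, sub_self]
  have hwz : w * (z - e) = 0 := by rw [mul_sub, hwz0, hwe, sub_zero]
  have hzmA : z - e ∈ A := sub_mem hzA heA
  have hzw : (z - e) * w = 0 := by rw [comm hzmA hwA, hwz]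
  have hzmp : IsStarProjection (z - e) := by
    refine ⟨?_, hzp.isSelfAdjoint.sub hep.isSelfAdjoint⟩
    show (z - e) * (z - e) = z - e
    rw [mul_sub (z - e), hze', sub_zero, sub_mul, hzp.isIdempotentElem.eq, hemz]
  have hepi : ∀ i, e * p i = p i := fun i => by
    rw [← hpsum, Finset.sum_mul,
      Finset.sum_eq_single i (fun j _ hj => hporth j i hj) (by simp), (hp i).2.isIdempotentElem.eq]
  have hpie : ∀ i, p i * e = p i := fun i => by rw [comm (hp i).1 heA, hepi]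
  have hwF : ∀ i, w * Fp i = Fp i := fun i => by
    rw [← hFsum, Finset.sum_mul,
      Finset.sum_eq_single i (fun j _ hj => hForth j i hj) (by simp), (hFp i).2.isIdempotentElem.eq]
  have hFw : ∀ i, Fp i * w = Fp i := fun i => by rw [comm (hFp i).1 hwA, hwF]
  have hpF : ∀ i j, p i * Fp j = 0 := fun i j => by
    rw [← hpie i, ← hwF j, mul_assoc, ← mul_assoc e, hew, zero_mul, mul_zero]
  have hFp' : ∀ i j, Fp j * p i = 0 := fun i j => by rw [comm (hFp j).1 (hp i).1, hpF]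
  have hrem : ∀ i, (if i = i₀ then z - e else 0) ∈ A ∧
      IsStarProjection (if i = i₀ then z - e else 0) := fun i => by
    split_ifs
    · exact ⟨hzmA, hzmp⟩
    · exact ⟨zero_mem _, IsStarProjection.zero _⟩
  have hpz : ∀ i, p i * (z - e) = 0 ∧ (z - e) * p i = 0 := fun i => by
    constructor
    · rw [← hpie i, mul_assoc, hez, mul_zero]
    · rw [← hepi i, ← mul_assoc, hze', zero_mul]
  have hFz : ∀ i, Fp i * (z - e) = 0 ∧ (z - e) * Fp i = 0 := fun i => by
    constructor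
    · rw [← hFw i, mul_assoc, hwz, mul_zero]
    · rw [← hwF i, ← mul_assoc, hzw, zero_mul]
  set P : Fin r → H →L[ℂ] H := fun i => p i + Fp i + if i = i₀ then z - e else 0 with hP
  have hPorth : ∀ i j, P i * P j = if i = j then P i else 0 := by
    intro i j
    simp only [hP, mul_add, add_mul, hpF, hFp']
    by_cases hij : i = j
    · subst hij
      simp only [if_true, (hp i).2.isIdempotentElem.eq, (hFp i).2.isIdempotentElem.eq]
      split_ifs <;> simp [(hpz i).1, (hpz i).2, (hFz i).1, (hFz i).2, hzmp.isIdempotentElem.eq]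
    · simp only [if_neg hij, hporth i j hij, hForth i j hij]
      split_ifs with u v <;> first | exact absurd (u.trans v.symm) hij |
        simp [(hpz i).1, (hpz j).2, (hFz i).1, (hFz j).2]
  have hPp : ∀ i, IsStarProjection (P i) := fun i => by
    refine ⟨?_, ((hp i).2.isSelfAdjoint.add (hFp i).2.isSelfAdjoint).add (hrem i).2.isSelfAdjoint⟩
    show P i * P i = P i
    rw [hPorth, if_pos rfl]
  have hPsum : ∑ i, P i = 1 := by
    simp only [hP, Finset.sum_add_distrib, hpsum, hFsum, Finset.sum_ite_eq', Finset.mem_univ,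
      if_true, hw]
    abel
  have hPA : ∀ i, P i ∈ A := fun i => add_mem (add_mem (hp i).1 (hFp i).1) (hrem i).1
  have ha₁e : a₁ * e = a₁ := by rw [comm ha₁A heA, hea₁]
  have ha₂w : a₂ * w = a₂ := by rw [comm ha₂A hwA, hwa₂]
  have hqee : qe * e = qe := by
    have := congrArg star heqe
    rwa [star_mul, hqep.isSelfAdjoint.star_eq, hep.isSelfAdjoint.star_eq] at this
  have hwp : IsStarProjection w := hzp.one_sub
  have hqw : q * w = q := by
    have := congrArg star hwq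
    rwa [star_mul, hqp.isSelfAdjoint.star_eq, hwp.isSelfAdjoint.star_eq] at this
  have hid := split_identity (Y := Y) (Z := Z) p Fp i₀ hepi hpie hwF hFw hew hwe hez hze' hwz hzw
    hqee heqe hqw hwq hea₁ ha₁e hwa₂ ha₂w (fun i => (hp i).2.isSelfAdjoint.star_eq)
    (fun i => (hFp i).2.isSelfAdjoint.star_eq) hqep.isSelfAdjoint.star_eq hqp.isSelfAdjoint.star_eq
    hx.star_eq hkey
  dsimp only at hid
  set ρ : ℂ := ((1 / r : ℝ) : ℂ) with hρ
  set D := (∑ i, q * Fp i * x * p i * qe) - ρ • (q * x * qe) with hD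
  set q₀ := qe + q with hq₀
  have hq₀p : IsStarProjection q₀ := by
    have z1 : qe * q = 0 := by
      rw [← hqee, ← hwq, mul_assoc, ← mul_assoc e, hew, zero_mul, mul_zero]
    have z2 : q * qe = 0 := by
      rw [← hqw, ← heqe, mul_assoc, ← mul_assoc w, hwe, zero_mul, mul_zero]
    refine ⟨?_, hqep.isSelfAdjoint.add hqp.isSelfAdjoint⟩
    show (qe + q) * (qe + q) = qe + q
    simp [mul_add, add_mul, z1, z2, hqep.isIdempotentElem.eq, hqp.isIdempotentElem.eq]
  have smulM : ∀ (t : ℂ) {y : H →L[ℂ] H}, y ∈ M → t • y ∈ M := fun t _ hy =>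
    SMulMemClass.smul_mem (s := M.toStarSubalgebra) t hy
  have hDM : D ∈ M := sub_mem (sum_mem fun i _ => mul_mem (mul_mem (mul_mem (mul_mem hqM
    (hA.1 (hFp i).1)) hxM) (hA.1 (hp i).1)) hqeM) (smulM _ (mul_mem (mul_mem hqM hxM) hqeM))
  obtain ⟨R, hRM, hRp, hR1, hR2, hR3, hR4, hRv⟩ :=
    exists_cut_four (sub_mem (one_mem M) (add_mem hqeM hqM)) hYM hZM hDM hc0
  have hnorm_a : ‖a₁ + a₂‖ ≤ ‖x‖ :=
    Semi.Ctx.norm_add_orth_le hep hwp hew hea₁ ha₁e hwa₂ ha₂w ha₁n ha₂n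
  refine ⟨P, fun i => ⟨hPA i, hPp i⟩, fun i j hij => by rw [hPorth, if_neg hij], hPsum, a₁ + a₂,
    add_mem ha₁A ha₂A, ha₁s.add ha₂s, hnorm_a, 1 - R, sub_mem (one_mem M) hRM, hRp.one_sub,
    fun ξ hξ => ?_, ?_⟩
  · rw [sub_sub_cancel]
    obtain ⟨b1, b2, b3, b4⟩ := hb ξ hξ
    have hDξ : ‖D ξ‖ ≤ τ := by
      have e1 : D ξ = q (∑ i, Fp i (x (p i (qe ξ)))) - ρ • ∑ i, q (x (p i (qe ξ))) := by
        rw [hD, sub_apply, smul_apply, sum_apply, map_sum]
        simp only [mul_apply_eq_comp]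
        have : ∑ i, q (x (p i (qe ξ))) = q (x (qe ξ)) := by
          rw [← map_sum, ← map_sum, ← sum_apply, hpsum]
          congr 2
          exact congrArg (fun T : H →L[ℂ] H => T ξ) heqe
        rw [this]
      rw [e1]
      exact b4
    have h1 : ‖(1 - q₀) ξ‖ ≤ 3 * τ := by
      have e1 : (1 : H →L[ℂ] H) - q₀ = (z - e) + (e - qe) + (w - q) := by
        rw [hq₀, hw]; abel
      rw [e1, add_apply, add_apply]
      have := norm_add₃_le (a := (z - e) ξ) (b := (e - qe) ξ) (c := (w - q) ξ)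
      linarith [happ ξ hξ, hqeF ξ hξ]
    have h := hRv ξ
    have b5 : ‖(1 - q₀) ξ‖ ^ 2 + ‖Y ξ‖ ^ 2 + (‖Z ξ‖ ^ 2 + ‖D ξ‖ ^ 2) ≤ 15 * τ ^ 2 := by
      have a1 := pow_le_pow_left₀ (norm_nonneg _) h1 2
      have a2 := pow_le_pow_left₀ (norm_nonneg _) b2 2
      have a3 := pow_le_pow_left₀ (norm_nonneg _) b3 2
      have a4 := pow_le_pow_left₀ (norm_nonneg _) hDξ 2
      linarith
    refine lt_of_pow_lt_pow_left₀ 2 hδ.le ((h.trans (mul_le_mul_of_nonneg_left b5
      (sq_nonneg _))).trans_lt ?_)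
    have : c⁻¹ ^ 2 * (15 * τ ^ 2) = 15 / 25 * δ ^ 2 := by rw [hτ]; field_simp; ring
    rw [this]
    linarith [pow_pos hδ 2]
  · set S := ∑ i, P i * x * P i with hS
    have hS' : ‖S‖ ≤ ‖x‖ := by
      let Q' : WPart A (1 : H →L[ℂ] H) := ⟨r, P, hrpos, hPA, hPp,
        fun i j hij => by rw [hPorth, if_neg hij], hPsum⟩
      exact Semi.Ctx.pinch_norm_le Q' (IsStarProjection.one _) x
    have hSa : ‖S - (a₁ + a₂)‖ ≤ 2 * ‖x‖ := (norm_sub_le _ _).trans (by linarith)
    have h1 := block_bounds hq₀p hRp.one_sub hc0.le hid hSa hR1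
    have h2 := error_bound hRp.one_sub
      (main_bound (e := e) (w := w) (a₁ := a₁) hqep hqp ha₂n hbd (r := r)) hR2 hR3 hR4
    have hrε : (1 / r : ℝ) * (4 * ‖x‖) ≤ ε * ‖x‖ / 4 := by
      rw [one_div, inv_mul_le_iff₀ hr']
      rw [div_le_iff₀ hε] at hr
      nlinarith
    have hcε : 5 * c + 4 * c * ‖x‖ ≤ ε * ‖x‖ / 4 := by
      have : c * (1 + ‖x‖) = ε * ‖x‖ / 20 := by rw [hc]; field_simp
      nlinarith
    linarith
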